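import Claimed.Agent.R256.Chan.Fk.Defs
import Claimed.Agent.R256.Chan.Same

/-!
# Row 256, Chan/Fk, LIFT, leaf L-256-FK-LIFT3: disintegration of a pair functional of the energy measure over the exact indices      (architect helper132; prefix `ch_fk_`)

`μ = (p.sys η).mu T k 0 G = p.rw.withDensity (ofReal ‖an T k G x‖²) = chSmMu p (p.an T k G)`  (`rfl` after unfolding `PkSys.mu`, `ChyPar.sys`, `chSmMu`: `Chan/Same.lean`).
PLAN.  `ch_sm_mu` (`Chan/Same.lean`, PROVED):  `∫⁻ F dμ = ∫⁻_ω ∫⁻_ρ ‖an G (ω,ρ)‖ₑ² F(ω,ρ) dν_ω dm`  for measurable `F`.   Apply it to the inner integral (for fixed `x`, `F = W x`) and to the outer one (`F x = ∫⁻ W x x' dμ`, measurable by `Measurable.lintegral_prod_right'`, `μ` finite: `ch_sm_mu_fin`).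
 `an T k G = row T k G` a.e. `[p.rw]` (`hy_an_row`), hence for a.e. `ω`, for `ν_ω`-a.e. `ρ` (as in `hy_i3_fib_ae`, `Hyb/Inst.lean`);  `row T k G (ω,ρ) = (p.fib ω).row T k (G(ω,·)) ρ` (`hy_row_fib`, `rfl`).
 Then Tonelli `ρ ↔ ω'`:  `∫⁻_ω ∫⁻_ρ A(ω,ρ) ∫⁻_ω' ∫⁻_ρ' A(ω',ρ') W = ∫⁻_ω ∫⁻_ω' ∫⁻_ρ ∫⁻_ρ' W A A`  (`lintegral_const_mul`, `lintegral_lintegral_swap`; everything is jointly measurable: `hy_row_smeas`; the measures `ν_ω = c(ω) • volume`: pull the constant out or use `hy_rw_lint` backwards).   ~350 l.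
-/

set_option autoImplicit false

namespace Claimed.Agent.R256

open MeasureTheory
open scoped ENNReal

/-- measurability of a fibre integral in a parameter -/
theorem ch_fk_dis_meas {Z : Type*} [MeasurableSpace Z] (p : ChyPar) (hp : p.Ok) (π : Z → p.Om) (hπ : Measurable π)
    (H : Z → ℝ × ℝ → ℝ≥0∞) (hH : Measurable (Function.uncurry H)) : Measurable fun z => ∫⁻ ρ, H z ρ ∂(p.fib (π z)).nu := by
  unfold HyF.nu
  simp only [lintegral_smul_measure, smul_eq_mul]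
  exact (((hp.mS.comp hπ).div_const (2 * Real.pi * p.H)).ennreal_ofReal).mul hH.lintegral_prod_right'

/-- the energy measure of a state through the explicit rows -/
theorem ch_fk_dis_mu (p : ChyPar) (hp : p.Ok) (T : ℝ) (k : ℕ) (G : Lp p.Fb 2 (p.m.prod (volume : Measure ℝ)))
    (F : p.Om × ℝ × ℝ → ℝ≥0∞) (hF : Measurable F) :
    ∫⁻ x, F x ∂(chSmMu p (p.an T k G)) = ∫⁻ ω, ∫⁻ ρ, ‖p.row T k G (ω, ρ)‖ₑ ^ 2 * F (ω, ρ) ∂(p.fib ω).nu ∂p.m := by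
  have hw : Measurable fun x : p.Om × ℝ × ℝ => ‖p.row T k G x‖ₑ ^ 2 := (hy_row_smeas p hp T k G).enorm.pow_const 2
  have e : chSmMu p (p.an T k G) = p.rw.withDensity fun x => ‖p.row T k G x‖ₑ ^ 2 := by
    unfold chSmMu
    refine withDensity_congr_ae ?_
    filter_upwards [hy_an_row p hp T k G] with x hx
    rw [ENNReal.ofReal_pow (norm_nonneg _), ofReal_norm, hx]
  rw [e, lintegral_withDensity_eq_lintegral_mul _ hw hF, hy_rw_lint p hp _ (hw.mul hF)]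
  rfl

theorem ch_fk_dis (η : ℝ) (p : ChyPar) (hp : p.Ok) (T : ℝ) (k : ℕ) (G : Lp p.Fb 2 (p.m.prod (volume : Measure ℝ)))
    (W : p.Om × ℝ × ℝ → p.Om × ℝ × ℝ → ℝ≥0∞) (hW : Measurable (Function.uncurry W)) :
    ∫⁻ x, ∫⁻ x', W x x' ∂((p.sys η).mu T k 0 G) ∂((p.sys η).mu T k 0 G) =
      ∫⁻ ω, ∫⁻ ω', ∫⁻ ρ, ∫⁻ ρ', W (ω, ρ) (ω', ρ') *
          (‖(p.fib ω).row T k (fun u => (G : p.Om × ℝ → p.Fb) (ω, u)) ρ‖ₑ ^ 2 * ‖(p.fib ω').row T k (fun u => (G : p.Om × ℝ → p.Fb) (ω', u)) ρ'‖ₑ ^ 2)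
        ∂(p.fib ω').nu ∂(p.fib ω).nu ∂p.m ∂p.m := by
  have := hp.sf
  show ∫⁻ x, ∫⁻ x', W x x' ∂(chSmMu p (p.an T k G)) ∂(chSmMu p (p.an T k G)) = _
  obtain ⟨μ, hμ⟩ : ∃ μ : Measure (p.Om × ℝ × ℝ), μ = chSmMu p (p.an T k G) := ⟨_, rfl⟩
  rw [← hμ]
  obtain ⟨A, hA⟩ : ∃ A : p.Om × ℝ × ℝ → ℝ≥0∞, A = fun x => ‖p.row T k G x‖ₑ ^ 2 := ⟨_, rfl⟩
  have hAm : Measurable A := by
    rw [hA]
    exact (hy_row_smeas p hp T k G).enorm.pow_const 2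
  have hAr : ∀ ω ρ, ‖(p.fib ω).row T k (fun u => (G : p.Om × ℝ → p.Fb) (ω, u)) ρ‖ₑ ^ 2 = A (ω, ρ) := by
    intro ω ρ
    rw [hA]
    rfl
  have hmu : ∀ F : p.Om × ℝ × ℝ → ℝ≥0∞, Measurable F →
      ∫⁻ x, F x ∂μ = ∫⁻ ω, ∫⁻ ρ, A (ω, ρ) * F (ω, ρ) ∂(p.fib ω).nu ∂p.m := by
    intro F hF
    rw [hA, hμ]
    exact ch_fk_dis_mu p hp T k G F hF
  simp only [hAr]
  -- the inner integral
  have hin : ∀ x, ∫⁻ x', W x x' ∂μ = ∫⁻ ω', ∫⁻ ρ', A (ω', ρ') * W x (ω', ρ') ∂(p.fib ω').nu ∂p.m :=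
    fun x => hmu _ (hW.comp measurable_prodMk_left)
  -- joint measurability
  have hΦ : Measurable fun z : (p.Om × ℝ × ℝ) × p.Om => ∫⁻ ρ', A (z.2, ρ') * W z.1 (z.2, ρ') ∂(p.fib z.2).nu := by
    refine ch_fk_dis_meas p hp (fun z : (p.Om × ℝ × ℝ) × p.Om => z.2) measurable_snd
      (fun z ρ' => A (z.2, ρ') * W z.1 (z.2, ρ')) ?_
    have h1 : Measurable fun y : ((p.Om × ℝ × ℝ) × p.Om) × ℝ × ℝ => A (y.1.2, y.2) := hAm.comp (by fun_prop)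
    have h2 : Measurable fun y : ((p.Om × ℝ × ℝ) × p.Om) × ℝ × ℝ => Function.uncurry W (y.1.1, (y.1.2, y.2)) := hW.comp (by fun_prop)
    exact h1.mul h2
  have hout : Measurable fun x => ∫⁻ ω', ∫⁻ ρ', A (ω', ρ') * W x (ω', ρ') ∂(p.fib ω').nu ∂p.m := hΦ.lintegral_prod_right'
  simp only [hin]
  rw [hmu _ hout]
  refine lintegral_congr fun ω => ?_
  have := hy_nu_sfinite (p.fib ω)
  have hΦω : Measurable fun y : (ℝ × ℝ) × p.Om => ∫⁻ ρ', A (y.2, ρ') * W (ω, y.1) (y.2, ρ') ∂(p.fib y.2).nu :=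
    hΦ.comp (f := fun y : (ℝ × ℝ) × p.Om => (((ω, y.1), y.2) : (p.Om × ℝ × ℝ) × p.Om)) (by fun_prop)
  have hAω : Measurable fun ρ : ℝ × ℝ => A (ω, ρ) := hAm.comp measurable_prodMk_left
  calc ∫⁻ ρ, A (ω, ρ) * ∫⁻ ω', ∫⁻ ρ', A (ω', ρ') * W (ω, ρ) (ω', ρ') ∂(p.fib ω').nu ∂p.m ∂(p.fib ω).nu
      = ∫⁻ ρ, ∫⁻ ω', A (ω, ρ) * ∫⁻ ρ', A (ω', ρ') * W (ω, ρ) (ω', ρ') ∂(p.fib ω').nu ∂p.m ∂(p.fib ω).nu := by
        refine lintegral_congr fun ρ => ?_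
        exact (lintegral_const_mul _ (hΦω.comp (measurable_prodMk_left (x := ρ)))).symm
    _ = ∫⁻ ω', ∫⁻ ρ, A (ω, ρ) * ∫⁻ ρ', A (ω', ρ') * W (ω, ρ) (ω', ρ') ∂(p.fib ω').nu ∂(p.fib ω).nu ∂p.m := by
        refine lintegral_lintegral_swap (f := fun ρ ω' => A (ω, ρ) * ∫⁻ ρ', A (ω', ρ') * W (ω, ρ) (ω', ρ') ∂(p.fib ω').nu) ?_
        exact ((hAω.comp measurable_fst).mul hΦω).aemeasurable
    _ = _ := by
        refine lintegral_congr fun ω' => lintegral_congr fun ρ => ?_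
        have hm : Measurable fun ρ' : ℝ × ℝ => A (ω', ρ') * W (ω, ρ) (ω', ρ') :=
          (hAm.comp measurable_prodMk_left).mul
            (hW.comp (f := fun ρ' : ℝ × ℝ => (((ω, ρ), (ω', ρ')) : (p.Om × ℝ × ℝ) × (p.Om × ℝ × ℝ))) (by fun_prop))
        rw [← lintegral_const_mul _ hm]
        refine lintegral_congr fun ρ' => ?_
        ring

end Claimed.Agent.R256
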