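import Claimed.Agent.R256.Chan.Fk.LiftW
import Claimed.Agent.R256.Chan.Fk.LiftD
import Claimed.Agent.R256.Chan.PairDefs

/-!
# Row 256, Chan/Fk, LIFT, the exit `ch_fk_sys` = `ch_fk` of `Chan/Pair.lean`      (architect helper132; prefix `ch_fk_`)

PROVED here from `ch_fk_fib_sh` (`LiftW`) and `ch_fk_dis` (`LiftD`):  both pair functionals are disintegrated over the two exact indices `(ω, ω')`;  for almost every pair the two fibre states are in `L²` and the sheared two-fibre estimate applies;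
the window is dominated by the box `chBx (2f) (2 l f)`, the kernel is `chK` in the units `(l, 1)`.
-/

set_option autoImplicit false

namespace Claimed.Agent.R256

open MeasureTheory
open scoped ENNReal

theorem ch_fk_lf_sum_lint {X : Type} [MeasurableSpace X] (μ : Measure X) {ι : Type} (s : Finset ι) (F : ι → X → ℝ≥0∞) :
    ∑ j ∈ s, ∫⁻ x, F j x ∂μ ≤ ∫⁻ x, ∑ j ∈ s, F j x ∂μ := by
  classical
  induction s using Finset.induction_on with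
  | empty => simp
  | insert j s hj ih =>
    simp only [Finset.sum_insert hj]
    exact (add_le_add le_rfl ih).trans (le_lintegral_add _ _)

theorem ch_fk_lf_z1 (p : ChyPar) (a b : p.Om → ℝ) (T0 T : ℝ) (ω ω' : p.Om) (ρ ρ' : ℝ × ℝ) :
    ((ρ - chSh T0 (a ω) (b ω) T) - (ρ' - chSh T0 (a ω') (b ω') T)).1 = chDD p a b (T - T0) (ω, ρ) (ω', ρ') := by
  simp only [chSh, chDD, Prod.fst_sub]
  ring

theorem ch_fk_lf_z2 (p : ChyPar) (a b : p.Om → ℝ) (T0 T : ℝ) (ω ω' : p.Om) (ρ ρ' : ℝ × ℝ) :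
    ((ρ - chSh T0 (a ω) (b ω) T) - (ρ' - chSh T0 (a ω') (b ω') T)).2 = chDN p a (ω, ρ) (ω', ρ') := by
  simp only [chSh, chDN, Prod.snd_sub]

theorem ch_fk_lf_win (p : ChyPar) (a b : p.Om → ℝ) (T0 T f l : ℝ) (ω ω' : p.Om) (ρ ρ' : ℝ × ℝ) :
    chWin p a b (T - T0) f l (ω, ρ) (ω', ρ') ≤ chBx (2 * f) (2 * (l * f)) ((ρ - chSh T0 (a ω) (b ω) T) - (ρ' - chSh T0 (a ω') (b ω') T)) := by
  classical
  unfold chWin chBx
  split_ifs with h
  · obtain ⟨h1, h2⟩ := h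
    have f0 := (abs_nonneg _).trans h1
    have l0 := (abs_nonneg _).trans h2
    rw [Set.indicator_of_mem]
    refine ⟨?_, ?_⟩
    · rw [ch_fk_lf_z2]
      linarith
    · rw [ch_fk_lf_z1]
      linarith
  · exact zero_le

theorem ch_fk_lf_ker (p : ChyPar) (a b : p.Om → ℝ) (T0 T d x : ℝ) (hd : 0 ≤ d) (hx : 0 ≤ x) (k : ℕ) (ω ω' : p.Om) (ρ ρ' : ℝ × ℝ) :
    chK (max (d ^ 2) (x ^ 2)) (2 ^ k * ((ρ - chSh T0 (a ω) (b ω) T) - (ρ' - chSh T0 (a ω') (b ω') T)).1, ((ρ - chSh T0 (a ω) (b ω) T) - (ρ' - chSh T0 (a ω') (b ω') T)).2)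
      = chKer p a b (T - T0) ((2 : ℝ)⁻¹ ^ k) (max d x) (ω, ρ) (ω', ρ') := by
  unfold chK chKer
  rw [ch_fk_lf_z1, ch_fk_lf_z2]
  have e1 : max (d ^ 2) (x ^ 2) = (max d x) ^ 2 := by
    rcases le_total d x with h | h
    · rw [max_eq_right h, max_eq_right (pow_le_pow_left₀ hd h 2)]
    · rw [max_eq_left h, max_eq_left (pow_le_pow_left₀ hx h 2)]
  have e2 : chDD p a b (T - T0) (ω, ρ) (ω', ρ') / (2 : ℝ)⁻¹ ^ k = 2 ^ k * chDD p a b (T - T0) (ω, ρ) (ω', ρ') := by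
    rw [inv_pow, div_inv_eq_mul, mul_comm]
  rw [e1, e2]
  congr 1
  have h0 : 0 ≤ max d x ^ 2 + chDN p a (ω, ρ) (ω', ρ') ^ 2 + (2 ^ k * chDD p a b (T - T0) (ω, ρ) (ω', ρ')) ^ 2 := by positivity
  rw [Real.sqrt_eq_rpow, one_div (_ ^ _), ← Real.rpow_neg h0]
  congr 1
  simp only []
  ring

theorem ch_fk_lf_tm (k i n j : ℕ) : tmL (k + n) (i * 2 ^ n + j) = tmL k i + (j : ℝ) * (2 : ℝ)⁻¹ ^ (k + n) := by
  unfold tmL
  push_cast
  rw [inv_pow, pow_add]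
  field_simp

theorem ch_fk_lf_log (H : ℝ) (hH : 0 < H) (k n : ℕ) (f : ℝ) (hf : Real.sqrt (H * 2 ^ (k + n)) ≤ f) :
    Real.log (max 1 ((2 : ℝ)⁻¹ ^ n * f / Real.sqrt (H * 2 ^ k))) ≤ Real.log (f / Real.sqrt (H * 2 ^ (k + n))) := by
  have hd : 0 < Real.sqrt (H * 2 ^ (k + n)) := Real.sqrt_pos.2 (by positivity)
  have hd0 : 0 < Real.sqrt (H * 2 ^ k) := Real.sqrt_pos.2 (by positivity)
  have hf0 : 0 < f := hd.trans_le hf
  refine Real.log_le_log (by positivity) (max_le ?_ ?_)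
  · rwa [one_le_div hd]
  · have h1 : Real.sqrt (H * 2 ^ (k + n)) ≤ 2 ^ n * Real.sqrt (H * 2 ^ k) := by
      rw [Real.sqrt_le_left (by positivity), mul_pow, Real.sq_sqrt (by positivity), pow_add]
      have : (1 : ℝ) ≤ 2 ^ n := one_le_pow₀ (by norm_num)
      have h2 : (0 : ℝ) < H * 2 ^ k * 2 ^ n := by positivity
      nlinarith
    rw [inv_pow, inv_mul_eq_div, div_div]
    exact div_le_div_of_nonneg_left hf0.le hd h1

/-- **(FK) the free kernel estimate** (the statement of `ch_fk`, `Chan/Pair.lean`) -/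
theorem ch_fk_sys : ∃ C : ℝ, 0 < C ∧ ∀ (η : ℝ) (p : ChyPar), p.Ok → ∀ (a b : p.Om → ℝ), Measurable a → Measurable b →
    ∀ (T0 : ℝ) (k i n : ℕ) (v : (p.sys η).Kc) (f : ℝ), p.dl (k + n) ≤ f →
      ∑ j ∈ ivs k i (k + n), chPF ((p.sys η).mu (tmL (k + n) j) (k + n) 0 v) (chWin p a b (tmL (k + n) j - T0) f ((2 : ℝ)⁻¹ ^ (k + n)))
        ≤ ENNReal.ofReal (C * (1 + Real.log (f / p.dl (k + n))) * f)
          * chPF ((p.sys η).mu (tmL k i) k 0 v) (chKer p a b (tmL k i - T0) ((2 : ℝ)⁻¹ ^ k) (max (p.dl k) (f / 2 ^ n))) := by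
  obtain ⟨C, hC, H⟩ := ch_fk_fib_sh
  refine ⟨C, hC, ?_⟩
  intro η p hp a b ha hb T0 k i n (v : Lp p.Fb 2 (p.m.prod (volume : Measure ℝ))) f hf
  have hH := hp.H_pos
  have hd : 0 < p.dl (k + n) := Real.sqrt_pos.2 (by positivity)
  have hdk : 0 < p.dl k := Real.sqrt_pos.2 (by positivity)
  have hf0 : 0 < f := hd.trans_le hf
  have e0 : ivs k i (k + n) = Finset.Ico (i * 2 ^ n) ((i + 1) * 2 ^ n) := by
    unfold ivs
    rw [Nat.add_sub_cancel_left]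
  have e1 : (i + 1) * 2 ^ n - i * 2 ^ n = 2 ^ n := by rw [add_mul, one_mul, Nat.add_sub_cancel_left]
  rw [e0, Finset.sum_Ico_eq_sum_range, e1]
  simp only [ch_fk_lf_tm]
  have hL : ∀ j : ℕ, chPF ((p.sys η).mu (tmL k i + (j : ℝ) * (2 : ℝ)⁻¹ ^ (k + n)) (k + n) 0 v) (chWin p a b (tmL k i + (j : ℝ) * (2 : ℝ)⁻¹ ^ (k + n) - T0) f ((2 : ℝ)⁻¹ ^ (k + n))) ≤
      ∫⁻ ω, ∫⁻ ω', chPairS (p.fib ω).nu (p.fib ω').nu (chBx (2 * f) (2 * ((2 : ℝ)⁻¹ ^ (k + n) * f)))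
        (chSh T0 (a ω) (b ω) (tmL k i + (j : ℝ) * (2 : ℝ)⁻¹ ^ (k + n))) (chSh T0 (a ω') (b ω') (tmL k i + (j : ℝ) * (2 : ℝ)⁻¹ ^ (k + n)))
        ((p.fib ω).row (tmL k i + (j : ℝ) * (2 : ℝ)⁻¹ ^ (k + n)) (k + n) (fun u => (v : p.Om × ℝ → p.Fb) (ω, u)))
        ((p.fib ω').row (tmL k i + (j : ℝ) * (2 : ℝ)⁻¹ ^ (k + n)) (k + n) (fun u => (v : p.Om × ℝ → p.Fb) (ω', u))) ∂p.m ∂p.m := by
    intro j
    unfold chPF
    rw [ch_fk_dis η p hp _ (k + n) v (chWin p a b (tmL k i + (j : ℝ) * (2 : ℝ)⁻¹ ^ (k + n) - T0) f ((2 : ℝ)⁻¹ ^ (k + n))) (ch_p_win_meas p a b ha hb _ _ _)]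
    refine lintegral_mono fun ω => lintegral_mono fun ω' => ?_
    unfold chPairS
    refine lintegral_mono fun ρ => lintegral_mono fun ρ' => ?_
    exact mul_le_mul_left (ch_fk_lf_win p a b T0 _ f _ ω ω' ρ ρ') _
  have hR : chPF ((p.sys η).mu (tmL k i) k 0 v) (chKer p a b (tmL k i - T0) ((2 : ℝ)⁻¹ ^ k) (max (p.dl k) (f / 2 ^ n))) =
      ∫⁻ ω, ∫⁻ ω', chPairS (p.fib ω).nu (p.fib ω').nu (fun z => chK (max (p.dl k ^ 2) (((2 : ℝ)⁻¹ ^ n * f) ^ 2)) (2 ^ k * z.1, z.2))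
        (chSh T0 (a ω) (b ω) (tmL k i)) (chSh T0 (a ω') (b ω') (tmL k i))
        ((p.fib ω).row (tmL k i) k (fun u => (v : p.Om × ℝ → p.Fb) (ω, u)))
        ((p.fib ω').row (tmL k i) k (fun u => (v : p.Om × ℝ → p.Fb) (ω', u))) ∂p.m ∂p.m := by
    unfold chPF
    rw [ch_fk_dis η p hp _ k v (chKer p a b (tmL k i - T0) ((2 : ℝ)⁻¹ ^ k) (max (p.dl k) (f / 2 ^ n))) (ch_p_ker_meas p a b ha hb _ _ _)]
    refine lintegral_congr fun ω => lintegral_congr fun ω' => ?_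
    unfold chPairS
    refine lintegral_congr fun ρ => lintegral_congr fun ρ' => ?_
    have : (2 : ℝ)⁻¹ ^ n * f = f / 2 ^ n := by rw [inv_pow, inv_mul_eq_div]
    beta_reduce
    rw [this, ch_fk_lf_ker p a b T0 _ _ _ hdk.le (by positivity) k ω ω' ρ ρ']
  rw [hR]
  calc _ ≤ ∑ j ∈ Finset.range (2 ^ n), _ := Finset.sum_le_sum fun j _ => hL j
    _ ≤ ∫⁻ ω, ∑ j ∈ Finset.range (2 ^ n), _ ∂p.m := ch_fk_lf_sum_lint _ _ _
    _ ≤ ∫⁻ ω, ∫⁻ ω', ∑ j ∈ Finset.range (2 ^ n), _ ∂p.m ∂p.m := lintegral_mono fun ω => ch_fk_lf_sum_lint _ _ _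
    _ ≤ ∫⁻ ω, ∫⁻ ω', ENNReal.ofReal (C * f * (1 + Real.log (max 1 ((2 : ℝ)⁻¹ ^ n * f / p.dl k)))) *
          chPairS (p.fib ω).nu (p.fib ω').nu (fun z => chK (max (p.dl k ^ 2) (((2 : ℝ)⁻¹ ^ n * f) ^ 2)) (2 ^ k * z.1, z.2))
            (chSh T0 (a ω) (b ω) (tmL k i)) (chSh T0 (a ω') (b ω') (tmL k i))
            ((p.fib ω).row (tmL k i) k (fun u => (v : p.Om × ℝ → p.Fb) (ω, u)))
            ((p.fib ω').row (tmL k i) k (fun u => (v : p.Om × ℝ → p.Fb) (ω', u))) ∂p.m ∂p.m := by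
        refine lintegral_mono_ae ?_
        filter_upwards [hy_fib_memLp p v] with ω hω
        refine lintegral_mono_ae ?_
        filter_upwards [hy_fib_memLp p v] with ω' hω'
        exact H p.Fb (p.fib ω) (p.fib ω') (hy_fib_ok p hp ω) (hy_fib_ok p hp ω') rfl _ _ hω hω' T0 (a ω) (b ω) (a ω') (b ω') (tmL k i) k n f hf
    _ = ENNReal.ofReal (C * f * (1 + Real.log (max 1 ((2 : ℝ)⁻¹ ^ n * f / p.dl k)))) *
          ∫⁻ ω, ∫⁻ ω', chPairS (p.fib ω).nu (p.fib ω').nu (fun z => chK (max (p.dl k ^ 2) (((2 : ℝ)⁻¹ ^ n * f) ^ 2)) (2 ^ k * z.1, z.2))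
            (chSh T0 (a ω) (b ω) (tmL k i)) (chSh T0 (a ω') (b ω') (tmL k i))
            ((p.fib ω).row (tmL k i) k (fun u => (v : p.Om × ℝ → p.Fb) (ω, u)))
            ((p.fib ω').row (tmL k i) k (fun u => (v : p.Om × ℝ → p.Fb) (ω', u))) ∂p.m ∂p.m := by
        simp_rw [lintegral_const_mul' _ _ ENNReal.ofReal_ne_top]
    _ ≤ _ := by
        refine mul_le_mul_left (ENNReal.ofReal_le_ofReal ?_) _
        have := ch_fk_lf_log p.H hH k n f hf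
        have h2 : Real.log (max 1 ((2 : ℝ)⁻¹ ^ n * f / p.dl k)) ≤ Real.log (f / p.dl (k + n)) := this
        have h3 : 0 < C * f := by positivity
        nlinarith

end Claimed.Agent.R256
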