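import Claimed.Agent.R256.Chan.Fk.Defs

/-!
# Row 256, Chan/Fk: BASIC FACTS      (architect helper132; prefix `ch_fk_`)      leaf L-256-FK-BAS

Elementary facts on `chB`, `chN`, `ChNice`, measurability.   Every `sorry` of this file belongs to the leaf BAS.  EDIT IN PLACE, statements frozen (defects -> helper132).
-/

set_option autoImplicit false

namespace Claimed.Agent.R256

open MeasureTheory
open scoped ENNReal ComplexConjugate

theorem ch_fk_okB {σ : ℝ} (h1 : 1 ≤ σ) (h2 : σ ≤ 2) : (chB σ).Ok := ⟨one_pos, h1, h2⟩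

theorem ch_fk_okN {M : ℝ} (h : 0 < M) : (chN M).Ok := ⟨by unfold chN; positivity, le_rfl, by norm_num [chN]⟩

/-- the two frames of the same particle have the same row measure -/
theorem ch_fk_nu {σ : ℝ} (h : 0 < σ) : (chN σ).nu = (chB σ).nu := by
  unfold HyF.nu chN chB
  congr 2
  field_simp

/-- `ν_M = M/(2π) dD dN` -/
theorem ch_fk_nuN {M : ℝ} (h : 0 < M) : (chN M).nu = ENNReal.ofReal (M / (2 * Real.pi)) • (volume : Measure (ℝ × ℝ)) := by
  unfold HyF.nu chN
  congr 2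
  field_simp

/-- `q² = 2^-k / M` -/
theorem ch_fk_qN {M : ℝ} (h : 0 < M) (k : ℕ) : (chN M).q k ^ 2 = (2 : ℝ)⁻¹ ^ k / M := by
  unfold HyF.q chN
  rw [Real.sq_sqrt (by positivity), inv_pow]
  field_simp

theorem ch_fk_qB (σ : ℝ) (k : ℕ) : (chB σ).q k ^ 2 = (2 : ℝ)⁻¹ ^ k := by
  unfold HyF.q chB
  rw [Real.sq_sqrt (by positivity), inv_pow]
  field_simp

instance ch_fk_nu_sfin (φ : HyF) : SFinite φ.nu := by
  unfold HyF.nu
  infer_instance

instance ch_fk_nu_sigfin (φ : HyF) : SigmaFinite φ.nu := by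
  unfold HyF.nu
  show SigmaFinite (((Real.toNNReal (φ.sg / (2 * Real.pi * φ.H)) : NNReal) : ℝ≥0∞) • (volume : Measure (ℝ × ℝ)))
  rw [← ENNReal.smul_def]
  infer_instance

/-- the explicit natural packet -/
theorem ch_fk_pkN {M : ℝ} (h : 0 < M) (T : ℝ) (k : ℕ) (ρ : ℝ × ℝ) (u : ℝ) :
    (chN M).pk T k ρ u = (((2 : ℝ)⁻¹ ^ k / (M * Real.pi)) ^ (1 / 4 : ℝ) * Real.exp (-((2 : ℝ)⁻¹ ^ k * (u - M * ρ.2) ^ 2 / (2 * M))) : ℝ)
      * Complex.exp (Complex.I * (((u - M * ρ.2) * ρ.1 - T * u ^ 2 / (2 * M) : ℝ) : ℂ)) := by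
  unfold HyF.pk
  rw [ch_fk_qN h]
  have e1 : (chN M).sg * ρ.2 / (chN M).H = M * ρ.2 := by
    unfold chN
    field_simp
  have e2 : T * (chN M).H * u ^ 2 / (2 * (chN M).sg) = T * u ^ 2 / (2 * M) := by
    unfold chN
    field_simp
  rw [e1, e2]
  have e3 : (2 : ℝ)⁻¹ ^ k / M / Real.pi = (2 : ℝ)⁻¹ ^ k / (M * Real.pi) := by rw [div_div]
  have e4 : (2 : ℝ)⁻¹ ^ k / M * (u - M * ρ.2) ^ 2 / 2 = (2 : ℝ)⁻¹ ^ k * (u - M * ρ.2) ^ 2 / (2 * M) := by
    field_simp
  rw [e3, e4]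

/-- the explicit packet of `chB` -/
theorem ch_fk_pkB (σ : ℝ) (T : ℝ) (k : ℕ) (ρ : ℝ × ℝ) (u : ℝ) :
    (chB σ).pk T k ρ u = (((2 : ℝ)⁻¹ ^ k / Real.pi) ^ (1 / 4 : ℝ) * Real.exp (-((2 : ℝ)⁻¹ ^ k * (u - σ * ρ.2) ^ 2 / 2)) : ℝ)
      * Complex.exp (Complex.I * (((u - σ * ρ.2) * ρ.1 - T * u ^ 2 / (2 * σ) : ℝ) : ℂ)) := by
  unfold HyF.pk
  rw [ch_fk_qB]
  have e1 : (chB σ).sg * ρ.2 / (chB σ).H = σ * ρ.2 := by
    unfold chB
    simp
  have e2 : T * (chB σ).H * u ^ 2 / (2 * (chB σ).sg) = T * u ^ 2 / (2 * σ) := by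
    unfold chB
    simp
  rw [e1, e2]

/-- joint continuity of a packet in ALL variables -/
theorem ch_fk_pk_cont (φ : HyF) (k : ℕ) : Continuous fun z : ℝ × (ℝ × ℝ) × ℝ => φ.pk z.1 k z.2.1 z.2.2 := by
  unfold HyF.pk
  fun_prop

section nice

variable {E : Type} [NormedAddCommGroup E]

theorem ch_fk_nice_gen {X : Type} [NormedAddCommGroup X] [MeasurableSpace X] [BorelSpace X] [ProperSpace X] (μ : Measure X) [IsFiniteMeasureOnCompacts μ]
    {F : X → E} (hF : ChNice F) (p : ℝ≥0∞) : MemLp F p μ := by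
  obtain ⟨hm, B, R, h⟩ := hF
  have hs : MeasurableSet (Metric.closedBall (0 : X) R) := Metric.isClosed_closedBall.measurableSet
  have hfin : μ (Metric.closedBall (0 : X) R) < ∞ := (isCompact_closedBall (0 : X) R).measure_lt_top
  have e : F = (Metric.closedBall (0 : X) R).indicator F := by
    funext x
    by_cases hx : x ∈ Metric.closedBall (0 : X) R
    · rw [Set.indicator_of_mem hx]
    · rw [Set.indicator_of_notMem hx]
      apply (h x).2
      rw [Metric.mem_closedBall, dist_zero_right] at hx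
      exact not_le.1 hx
  rw [e, memLp_indicator_iff_restrict hs]
  have : IsFiniteMeasure (μ.restrict (Metric.closedBall (0 : X) R)) := ⟨by rw [Measure.restrict_apply_univ]; exact hfin⟩
  exact MemLp.of_bound hm.aestronglyMeasurable B (Filter.Eventually.of_forall fun x => (h x).1)

/-- a nice function on `ℝ × ℝ` is integrable and square integrable for every row measure -/
theorem ch_fk_nice_int (φ : HyF) {F : ℝ × ℝ → E} (hF : ChNice F) : Integrable F φ.nu ∧ MemLp F 2 φ.nu := by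
  unfold HyF.nu
  have h1 := ch_fk_nice_gen (volume : Measure (ℝ × ℝ)) hF 1
  have h2 := ch_fk_nice_gen (volume : Measure (ℝ × ℝ)) hF 2
  exact ⟨(memLp_one_iff_integrable.1 h1).smul_measure ENNReal.ofReal_ne_top, h2.smul_measure ENNReal.ofReal_ne_top⟩

/-- the same on `ℂ` -/
theorem ch_fk_nice_intC {F : ℂ → E} (hF : ChNice F) : Integrable F volume ∧ MemLp F 2 volume :=
  ⟨memLp_one_iff_integrable.1 (ch_fk_nice_gen volume hF 1), ch_fk_nice_gen volume hF 2⟩

/-- a unimodular (or bounded measurable) scalar factor does not destroy niceness -/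
theorem ch_fk_nice_smul [NormedSpace ℂ E] {X : Type} [MeasurableSpace X] [Norm X] {F : X → E} (hF : ChNice F) (a : X → ℂ) (ha : Measurable a) (B : ℝ)
    (hB : ∀ x, ‖a x‖ ≤ B) : ChNice fun x => a x • F x := by
  obtain ⟨hm, B', R, h⟩ := hF
  refine ⟨ha.stronglyMeasurable.smul hm, B * B', R, fun x => ⟨?_, fun hx => ?_⟩⟩
  · show ‖a x • F x‖ ≤ B * B'
    rw [norm_smul]
    exact mul_le_mul (hB x) (h x).1 (norm_nonneg _) ((norm_nonneg _).trans (hB x))
  · show a x • F x = 0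
    rw [(h x).2 hx, smul_zero]

/-- truncations are nice -/
theorem ch_fk_nice_tr {F : ℝ × ℝ → E} (hF : StronglyMeasurable F) (R : ℕ) : ChNice (chTr R F) := by
  have hs : MeasurableSet {z : ℝ × ℝ | ‖z‖ ≤ R ∧ ‖F z‖ ≤ R} := by
    have h1 : MeasurableSet {z : ℝ × ℝ | ‖z‖ ≤ R} := measurableSet_le measurable_norm measurable_const
    have h2 : MeasurableSet {z : ℝ × ℝ | ‖F z‖ ≤ R} := measurableSet_le hF.norm.measurable measurable_const
    exact h1.inter h2
  refine ⟨hF.indicator hs, R, R, fun x => ⟨?_, fun hx => ?_⟩⟩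
  · unfold chTr
    by_cases hx : x ∈ {z : ℝ × ℝ | ‖z‖ ≤ R ∧ ‖F z‖ ≤ R}
    · rw [Set.indicator_of_mem hx]; exact hx.2
    · rw [Set.indicator_of_notMem hx, norm_zero]; exact Nat.cast_nonneg R
  · unfold chTr
    apply Set.indicator_of_notMem
    intro h
    exact absurd h.1 (not_le.2 hx)

/-- truncations are dominated and converge pointwise -/
theorem ch_fk_tr_le (F : ℝ × ℝ → E) (R : ℕ) (z : ℝ × ℝ) : ‖chTr R F z‖ ≤ ‖F z‖ := by
  unfold chTr
  exact norm_indicator_le_norm_self _ _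

theorem ch_fk_tr_eventually (F : ℝ × ℝ → E) (z : ℝ × ℝ) : ∀ᶠ R : ℕ in Filter.atTop, chTr R F z = F z := by
  obtain ⟨n, hn⟩ := exists_nat_ge (max ‖z‖ ‖F z‖)
  filter_upwards [Filter.eventually_ge_atTop n] with R hR
  unfold chTr
  apply Set.indicator_of_mem
  have hR' : (n : ℝ) ≤ R := by exact_mod_cast hR
  exact ⟨(le_max_left _ _).trans (hn.trans hR'), (le_max_right _ _).trans (hn.trans hR')⟩

end nice

/-- measurability of the weights -/
theorem ch_fk_K_meas (A : ℝ) : Measurable (chK A) := by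
  unfold chK
  apply ENNReal.measurable_ofReal.comp
  apply Measurable.pow_const
  fun_prop

theorem ch_fk_Gs_meas (w : ℝ) : Measurable (chGs w) := by
  unfold chGs
  apply ENNReal.measurable_ofReal.comp
  fun_prop

theorem ch_fk_Bx_meas (a b : ℝ) : Measurable (chBx a b) := by
  have : chBx a b = ({z : ℝ × ℝ | |z.2| ≤ a ∧ |z.1| ≤ b}).indicator (fun _ => 1) := rfl
  rw [this]
  apply Measurable.indicator measurable_const
  have h1 : MeasurableSet {z : ℝ × ℝ | |z.2| ≤ a} := measurableSet_le (by fun_prop) measurable_const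
  have h2 : MeasurableSet {z : ℝ × ℝ | |z.1| ≤ b} := measurableSet_le (by fun_prop) measurable_const
  exact h1.inter h2

/-- `chK` is decreasing in `A` -/
theorem ch_fk_K_anti {A A' : ℝ} (h0 : 0 < A) (h : A ≤ A') (z : ℝ × ℝ) : chK A' z ≤ chK A z := by
  unfold chK
  apply ENNReal.ofReal_le_ofReal
  apply Real.rpow_le_rpow_of_nonpos
  · positivity
  · linarith
  · norm_num

/-- monotonicity of the pair functional in the weight -/
theorem ch_fk_pair_mono {E : Type} [NormedAddCommGroup E] (ν ν' : Measure (ℝ × ℝ)) {W W' : ℝ × ℝ → ℝ≥0∞} (h : ∀ z, W z ≤ W' z) (R R' : ℝ × ℝ → E) :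
    chPair ν ν' W R R' ≤ chPair ν ν' W' R R' := by
  unfold chPair
  exact lintegral_mono fun ρ => lintegral_mono fun ρ' => mul_le_mul_left (h _) _

end Claimed.Agent.R256
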