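import Claimed.Agent.R256.Chan.Fk.Basic

/-!
# Row 256, Chan/Fk, CROSS FRAMES, leaf L-256-FK-CRS3: the pair functional is monotone under domination by positive kernels      (architect helper132; prefix `ch_fk_`)      Mathlib only (Tonelli)

PLAN.  `chPair W R R' ≤ ∫⁻_ρ ∫⁻_ρ' W(ρ-ρ') (a ∫⁻_x G ρ x ‖S x‖²)(a' ∫⁻_x' G' ρ' x' ‖S' x'‖²) = a a' ∫⁻_ρ ∫⁻_ρ' ∫⁻_x ∫⁻_x' W G G' ‖S x‖² ‖S' x'‖²`
 `= a a' ∫⁻_x ∫⁻_x' (∫⁻_ρ ∫⁻_ρ' W(ρ-ρ') G ρ x G' ρ' x') ‖S x‖² ‖S' x'‖² ≤ a a' b chPair W' S S'`.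
 (`lintegral_const_mul`, `lintegral_mul_const`, `lintegral_lintegral_swap`, `Measurable.lintegral_prod_right/left`; all integrands are measurable functions on products.)   ~250 l.
-/

set_option autoImplicit false

namespace Claimed.Agent.R256

open MeasureTheory
open scoped ENNReal

/-- `hb : b ≠ ∞` was added by the prover (helper251): `W'` is not assumed measurable, and for `b = ∞` and a non-measurable positive `W'` of lower integral `0` the statement is false. -/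
theorem ch_fk_dom {E : Type} [NormedAddCommGroup E] (ν ν' μ μ' : Measure (ℝ × ℝ)) [SFinite ν] [SFinite ν'] [SFinite μ] [SFinite μ']
    (W W' : ℝ × ℝ → ℝ≥0∞) (hW : Measurable W) (G G' : ℝ × ℝ → ℝ × ℝ → ℝ≥0∞) (hG : Measurable (Function.uncurry G)) (hG' : Measurable (Function.uncurry G'))
    (R R' S S' : ℝ × ℝ → E) (hS : StronglyMeasurable S) (hS' : StronglyMeasurable S') (a a' b : ℝ≥0∞)
    (h1 : ∀ ρ, ‖R ρ‖ₑ ^ 2 ≤ a * ∫⁻ x, G ρ x * ‖S x‖ₑ ^ 2 ∂μ) (h1' : ∀ ρ', ‖R' ρ'‖ₑ ^ 2 ≤ a' * ∫⁻ x', G' ρ' x' * ‖S' x'‖ₑ ^ 2 ∂μ')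
    (h2 : ∀ x x', ∫⁻ ρ, ∫⁻ ρ', W (ρ - ρ') * (G ρ x * G' ρ' x') ∂ν' ∂ν ≤ b * W' (x - x')) (hb : b ≠ ∞) :
    chPair ν ν' W R R' ≤ a * a' * b * chPair μ μ' W' S S' := by
  obtain ⟨s, hs⟩ : ∃ s : ℝ × ℝ → ℝ≥0∞, s = fun x => ‖S x‖ₑ ^ 2 := ⟨_, rfl⟩
  obtain ⟨s', hs'⟩ : ∃ s' : ℝ × ℝ → ℝ≥0∞, s' = fun x => ‖S' x‖ₑ ^ 2 := ⟨_, rfl⟩
  have ms : Measurable s := by rw [hs]; exact hS.enorm.pow_const 2
  have ms' : Measurable s' := by rw [hs']; exact hS'.enorm.pow_const 2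
  have h1s : ∀ ρ, ‖R ρ‖ₑ ^ 2 ≤ a * ∫⁻ x, G ρ x * s x ∂μ := by rw [hs]; exact h1
  have h1s' : ∀ ρ', ‖R' ρ'‖ₑ ^ 2 ≤ a' * ∫⁻ x', G' ρ' x' * s' x' ∂μ' := by rw [hs']; exact h1'
  have eR : chPair μ μ' W' S S' = ∫⁻ x, ∫⁻ x', W' (x - x') * (s x * s' x') ∂μ' ∂μ := by rw [hs, hs']; rfl
  rw [eR]
  -- measurability
  have mW : Measurable fun P : (ℝ × ℝ) × (ℝ × ℝ) => W (P.1 - P.2) := hW.comp (measurable_fst.sub measurable_snd)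
  have mGx : ∀ ρ, Measurable fun x => G ρ x * s x := fun ρ => (hG.comp measurable_prodMk_left).mul ms
  have mGx' : ∀ ρ, Measurable fun x => G' ρ x * s' x := fun ρ => (hG'.comp measurable_prodMk_left).mul ms'
  obtain ⟨H, hH⟩ : ∃ H : (ℝ × ℝ) × (ℝ × ℝ) → (ℝ × ℝ) × (ℝ × ℝ) → ℝ≥0∞,
      H = fun P Q => W (P.1 - P.2) * ((G P.1 Q.1 * s Q.1) * (G' P.2 Q.2 * s' Q.2)) := ⟨_, rfl⟩
  have mH : Measurable (Function.uncurry H) := by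
    rw [hH]
    have m1 : Measurable fun z : ((ℝ × ℝ) × (ℝ × ℝ)) × ((ℝ × ℝ) × (ℝ × ℝ)) => W (z.1.1 - z.1.2) := mW.comp measurable_fst
    have m2 : Measurable fun z : ((ℝ × ℝ) × (ℝ × ℝ)) × ((ℝ × ℝ) × (ℝ × ℝ)) => G z.1.1 z.2.1 :=
      hG.comp ((measurable_fst.comp measurable_fst).prodMk (measurable_fst.comp measurable_snd))
    have m3 : Measurable fun z : ((ℝ × ℝ) × (ℝ × ℝ)) × ((ℝ × ℝ) × (ℝ × ℝ)) => s z.2.1 := ms.comp (measurable_fst.comp measurable_snd)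
    have m4 : Measurable fun z : ((ℝ × ℝ) × (ℝ × ℝ)) × ((ℝ × ℝ) × (ℝ × ℝ)) => G' z.1.2 z.2.2 :=
      hG'.comp ((measurable_snd.comp measurable_fst).prodMk (measurable_snd.comp measurable_snd))
    have m5 : Measurable fun z : ((ℝ × ℝ) × (ℝ × ℝ)) × ((ℝ × ℝ) × (ℝ × ℝ)) => s' z.2.2 := ms'.comp (measurable_snd.comp measurable_snd)
    exact m1.mul ((m2.mul m3).mul (m4.mul m5))
  have mHP : Measurable fun P => ∫⁻ Q, H P Q ∂(μ.prod μ') := mH.lintegral_prod_right'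
  have mHQ : Measurable fun Q => ∫⁻ P, H P Q ∂(ν.prod ν') := mH.lintegral_prod_left'
  -- the product of the two inner integrals
  have eH : ∀ P : (ℝ × ℝ) × (ℝ × ℝ), W (P.1 - P.2) * ((a * ∫⁻ x, G P.1 x * s x ∂μ) * (a' * ∫⁻ x', G' P.2 x' * s' x' ∂μ'))
      = a * a' * ∫⁻ Q, H P Q ∂(μ.prod μ') := fun P => by
    have e1 : ∫⁻ Q, H P Q ∂(μ.prod μ') = W (P.1 - P.2) * ((∫⁻ x, G P.1 x * s x ∂μ) * ∫⁻ x', G' P.2 x' * s' x' ∂μ') := by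
      rw [← lintegral_prod_mul (mGx P.1).aemeasurable (mGx' P.2).aemeasurable, hH]
      exact lintegral_const_mul _ (((mGx P.1).comp measurable_fst).mul ((mGx' P.2).comp measurable_snd))
    rw [e1]
    ring
  -- the kernel bound
  have hK : ∀ x x' : ℝ × ℝ, ∫⁻ P, H P (x, x') ∂(ν.prod ν') ≤ b * (W' (x - x') * (s x * s' x')) := fun x x' => by
    have m6 : Measurable fun P : (ℝ × ℝ) × (ℝ × ℝ) => W (P.1 - P.2) * (G P.1 x * G' P.2 x') :=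
      mW.mul (((hG.comp measurable_prodMk_right).comp measurable_fst).mul ((hG'.comp measurable_prodMk_right).comp measurable_snd))
    have e2 : ∫⁻ P, H P (x, x') ∂(ν.prod ν') = (∫⁻ P, W (P.1 - P.2) * (G P.1 x * G' P.2 x') ∂(ν.prod ν')) * (s x * s' x') := by
      rw [← lintegral_mul_const _ m6, hH]
      refine lintegral_congr fun P => ?_
      ring
    rw [e2, lintegral_prod _ m6.aemeasurable]
    calc (∫⁻ ρ, ∫⁻ ρ', W (ρ - ρ') * (G ρ x * G' ρ' x') ∂ν' ∂ν) * (s x * s' x') ≤ b * W' (x - x') * (s x * s' x') := mul_le_mul' (h2 x x') le_rfl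
      _ = b * (W' (x - x') * (s x * s' x')) := mul_assoc _ _ _
  have mf0 : Measurable fun P : (ℝ × ℝ) × (ℝ × ℝ) => a * a' * ∫⁻ Q, H P Q ∂(μ.prod μ') := mHP.const_mul _
  calc chPair ν ν' W R R'
      ≤ ∫⁻ ρ, ∫⁻ ρ', W (ρ - ρ') * ((a * ∫⁻ x, G ρ x * s x ∂μ) * (a' * ∫⁻ x', G' ρ' x' * s' x' ∂μ')) ∂ν' ∂ν := by
        unfold chPair
        exact lintegral_mono fun ρ => lintegral_mono fun ρ' => mul_le_mul' le_rfl (mul_le_mul' (h1s ρ) (h1s' ρ'))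
    _ = ∫⁻ ρ, ∫⁻ ρ', a * a' * ∫⁻ Q, H (ρ, ρ') Q ∂(μ.prod μ') ∂ν' ∂ν :=
        lintegral_congr fun ρ => lintegral_congr fun ρ' => eH (ρ, ρ')
    _ = ∫⁻ P, a * a' * ∫⁻ Q, H P Q ∂(μ.prod μ') ∂(ν.prod ν') := (lintegral_prod _ mf0.aemeasurable).symm
    _ = a * a' * ∫⁻ P, ∫⁻ Q, H P Q ∂(μ.prod μ') ∂(ν.prod ν') := lintegral_const_mul _ mHP
    _ = a * a' * ∫⁻ Q, ∫⁻ P, H P Q ∂(ν.prod ν') ∂(μ.prod μ') := by rw [lintegral_lintegral_swap mH.aemeasurable]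
    _ = a * a' * ∫⁻ x, ∫⁻ x', ∫⁻ P, H P (x, x') ∂(ν.prod ν') ∂μ' ∂μ := by rw [lintegral_prod _ mHQ.aemeasurable]
    _ ≤ a * a' * ∫⁻ x, ∫⁻ x', b * (W' (x - x') * (s x * s' x')) ∂μ' ∂μ :=
        mul_le_mul' le_rfl (lintegral_mono fun x => lintegral_mono fun x' => hK x x')
    _ = a * a' * (b * ∫⁻ x, ∫⁻ x', W' (x - x') * (s x * s' x') ∂μ' ∂μ) := by
        congr 1
        rw [← lintegral_const_mul' _ _ hb]
        exact lintegral_congr fun x => lintegral_const_mul' _ _ hb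
    _ = a * a' * b * ∫⁻ x, ∫⁻ x', W' (x - x') * (s x * s' x') ∂μ' ∂μ := (mul_assoc _ _ _).symm

end Claimed.Agent.R256
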