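import Claimed.Agent.R256.Chan.Fk.CrsX

/-!
# Row 256, Chan/Fk, CROSS FRAMES, leaves L-256-FK-CRS4 (`ch_fk_g1*`) and L-256-FK-CRS5 (`ch_fk_g4*`): Gaussian integrals of the majorants      (architect helper132; prefix `ch_fk_`)      real Gaussian integrals + Tonelli

`ν = σ/(2π) dD dN` for `chB σ` and `chN σ` (`ch_fk_nuN`, `ch_fk_nu`), `σ ≤ 2`.   Technique as in `Hyb/Gau.lean`: integrate first in the position variable, then in the velocity variable (`integral_gaussian`, translation invariance).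
CRS4.  `chM1 τ s ρ' ρ = exp(-τΔN²/5 - 3 e²/(40τ))`, `e = D' - D - sN'`.
  `ch_fk_g1a`:  `∫ chM1 dν(ρ) = (σ/2π) sqrt(40πτ/3) sqrt(5π/τ) = σ sqrt(200/3)/2 ≤ 8.2`.
  `ch_fk_g1b`:  on the support of `chBx (2f) (2τf) (ρ₁'-ρ₃')`:  `D₁-D₃ = (D₁'-D₃') - (e₁-e₃) - s(N₁'-N₃')`, `|D₁-D₃| ≤ 4τf + |e₁| + |e₃|`, `(D₁-D₃)² ≤ 3(16τ²f² + e₁² + e₃²)`, and `τ ≤ τ²f²`:
     `1 ≤ e^{3/4} exp(-(D₁-D₃)²/(64τ²f²)) exp(3e₁²/(64τ)) exp(3e₃²/(64τ))`;     `3/40 - 3/64 = 9/320`;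
     `∫ exp(-τΔN²/5 - 9e²/(320τ)) dν(ρ') = (σ/2π) sqrt(320πτ/9) sqrt(5π/τ) = 20σ/3 ≤ 40/3`;     `e^{3/4} (40/3)² ≤ 400`.     ~400 l.
CRS5.  `chM4 z ρ = exp(-|z-ρ|²/4)` (Euclidean).   `ch_fk_g4a`: `(σ/2π) 4π = 2σ ≤ 4`.
  `ch_fk_g4b`:  Peetre, `A ≥ 1`:  `A + |x|² ≤ 2 (A + |x-v|²)(1+|v|²)`, so `chK A (z₁-z₃) ≤ sqrt2 (1+|v|²)^(1/2) chK A (ρ₁-ρ₃)`, `v = v₁ - v₃`, `v_i = z_i - ρ_i`;   `1+|v|² ≤ (1+2|v₁|²)(1+2|v₃|²)`,  `1+2x ≤ 4 e^{x/4}`: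
     `(1+|v|²)^(1/2) ≤ 4 e^{|v₁|²/8} e^{|v₃|²/8}`;    `∫ e^{-|v|²/8} dν = (σ/2π) 8π = 4σ ≤ 8`;     `sqrt2·4·64 ≤ 400`.     ~350 l.
-/

set_option autoImplicit false

namespace Claimed.Agent.R256

open MeasureTheory
open scoped ENNReal

theorem ch_fk_m1_meas (τ s : ℝ) : Measurable (Function.uncurry fun ρ' ρ : ℝ × ℝ => ENNReal.ofReal (chM1 τ s ρ' ρ)) := by
  unfold chM1 Function.uncurry
  apply ENNReal.measurable_ofReal.comp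
  fun_prop

theorem ch_fk_m4_meas : Measurable (Function.uncurry fun ρ' ρ : ℝ × ℝ => ENNReal.ofReal (chM4 ρ' ρ)) := by
  unfold chM4 Function.uncurry
  apply ENNReal.measurable_ofReal.comp
  fun_prop

/-- CRS4/5 helper: the planar Gaussian integral, the centre of the position Gaussian depends on the velocity -/
theorem ch_fk_g_gg {a b : ℝ} (ha : 0 < a) (hb : 0 < b) (N : ℝ) (s : ℝ → ℝ) (hs : Measurable s) :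
    ∫⁻ z : ℝ × ℝ, ENNReal.ofReal (Real.exp (-a * (N - z.2) ^ 2)) * ENNReal.ofReal (Real.exp (-b * (z.1 - s z.2) ^ 2))
      = ENNReal.ofReal (Real.sqrt (Real.pi / a)) * ENNReal.ofReal (Real.sqrt (Real.pi / b)) := by
  have h := hy_g_tgt2 (fun x => ENNReal.ofReal (Real.exp (-a * x ^ 2))) (fun x => ENNReal.ofReal (Real.exp (-b * x ^ 2)))
    (hy_g_gauss0_meas a) (hy_g_gauss0_meas b) N s hs
  rw [hy_g_gauss0 ha, hy_g_gauss0 hb] at h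
  exact h

/-- CRS4/5 helper: the value -/
theorem ch_fk_g_val {σ a b C : ℝ} (h0 : 0 ≤ σ) (h2 : σ ≤ 2) (ha : 0 < a) (hb : 0 < b) (hC : 0 ≤ C) (h : 1 ≤ C ^ 2 * (a * b)) :
    ENNReal.ofReal (σ / (2 * Real.pi)) * (ENNReal.ofReal (Real.sqrt (Real.pi / a)) * ENNReal.ofReal (Real.sqrt (Real.pi / b))) ≤ ENNReal.ofReal C := by
  have hπ := Real.pi_pos
  rw [← ENNReal.ofReal_mul (by positivity), ← ENNReal.ofReal_mul (by positivity)]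
  apply ENNReal.ofReal_le_ofReal
  have e1 : Real.sqrt (Real.pi / a) * Real.sqrt (Real.pi / b) = Real.pi / Real.sqrt (a * b) := by
    rw [← Real.sqrt_mul (by positivity), show Real.pi / a * (Real.pi / b) = Real.pi ^ 2 / (a * b) by field_simp,
      Real.sqrt_div (by positivity), Real.sqrt_sq hπ.le]
  rw [e1]
  have h3 : 1 ≤ C * Real.sqrt (a * b) := by
    have h4 : Real.sqrt 1 ≤ Real.sqrt (C ^ 2 * (a * b)) := Real.sqrt_le_sqrt h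
    rwa [Real.sqrt_one, Real.sqrt_mul (by positivity), Real.sqrt_sq hC] at h4
  have hs : 0 < Real.sqrt (a * b) := by positivity
  calc σ / (2 * Real.pi) * (Real.pi / Real.sqrt (a * b)) = (σ / 2) / Real.sqrt (a * b) := by field_simp
    _ ≤ 1 / Real.sqrt (a * b) := by gcongr; linarith
    _ ≤ C := by rw [div_le_iff₀ hs]; exact h3

/-- CRS4/5 helper: the planar Gaussian integral against a row measure -/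
theorem ch_fk_g_int {σ a b C : ℝ} (h1 : 1 ≤ σ) (h2 : σ ≤ 2) (ha : 0 < a) (hb : 0 < b) (hC : 0 ≤ C) (h : 1 ≤ C ^ 2 * (a * b))
    (N : ℝ) (s : ℝ → ℝ) (hs : Measurable s) :
    ∫⁻ z : ℝ × ℝ, ENNReal.ofReal (Real.exp (-a * (N - z.2) ^ 2)) * ENNReal.ofReal (Real.exp (-b * (z.1 - s z.2) ^ 2)) ∂(chN σ).nu ≤ ENNReal.ofReal C := by
  rw [ch_fk_nuN (by linarith), lintegral_smul_measure, ch_fk_g_gg ha hb N s hs, smul_eq_mul]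
  exact ch_fk_g_val (by linarith) h2 ha hb hC h

/-- CRS4 helper: the weakened majorant `exp(-a ΔN² - b e²)` as a product -/
theorem ch_fk_g1_split (a b s : ℝ) (ρ' ρ : ℝ × ℝ) :
    ENNReal.ofReal (Real.exp (-(a * (ρ.2 - ρ'.2) ^ 2) - b * (ρ'.1 - ρ.1 - s * ρ'.2) ^ 2))
      = ENNReal.ofReal (Real.exp (-a * (ρ.2 - ρ'.2) ^ 2)) * ENNReal.ofReal (Real.exp (-b * (ρ'.1 - (ρ.1 + s * ρ'.2)) ^ 2)) := by
  rw [← ENNReal.ofReal_mul (Real.exp_pos _).le, ← Real.exp_add]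
  congr 2
  ring

theorem ch_fk_g1a {σ : ℝ} (h1 : 1 ≤ σ) (h2 : σ ≤ 2) {τ : ℝ} (hτ : 0 < τ) (s : ℝ) (ρ' : ℝ × ℝ) :
    ∫⁻ ρ, ENNReal.ofReal (chM1 τ s ρ' ρ) ∂(chN σ).nu ≤ ENNReal.ofReal 9 := by
  have hab : (1 : ℝ) ≤ 9 ^ 2 * (τ / 5 * (3 / (40 * τ))) := by
    have : τ / 5 * (3 / (40 * τ)) = 3 / 200 := by field_simp; norm_num
    rw [this]
    norm_num
  have key := ch_fk_g_int (C := 9) h1 h2 (a := τ / 5) (b := 3 / (40 * τ)) (by positivity) (by positivity) (by norm_num) hab ρ'.2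
    (fun _ => ρ'.1 - s * ρ'.2) measurable_const
  refine le_trans (le_of_eq (lintegral_congr fun ρ => ?_)) key
  unfold chM1
  rw [← ENNReal.ofReal_mul (Real.exp_pos _).le, ← Real.exp_add]
  congr 2
  ring

/-- CRS4 helper: the pointwise inequality (real numbers) -/
theorem ch_fk_g1b_pt {τ f s : ℝ} (hτ : 0 < τ) (hf : 0 < f) (hτf : 1 ≤ τ * f ^ 2) (hs : |s| ≤ τ) (D₁ D₃ D₁' D₃' N₁' N₃' : ℝ)
    (hN : |N₁' - N₃'| ≤ 2 * f) (hD : |D₁' - D₃'| ≤ 2 * (τ * f)) :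
    (D₁ - D₃) ^ 2 / (8 * (τ * f)) ^ 2 ≤ 3 / 4 + 3 * (D₁' - D₁ - s * N₁') ^ 2 / (64 * τ) + 3 * (D₃' - D₃ - s * N₃') ^ 2 / (64 * τ) := by
  obtain ⟨e₁, he₁⟩ : ∃ e₁ : ℝ, e₁ = D₁' - D₁ - s * N₁' := ⟨_, rfl⟩
  obtain ⟨e₃, he₃⟩ : ∃ e₃ : ℝ, e₃ = D₃' - D₃ - s * N₃' := ⟨_, rfl⟩
  obtain ⟨p, hp⟩ : ∃ p : ℝ, p = (D₁' - D₃') - s * (N₁' - N₃') := ⟨_, rfl⟩
  rw [← he₁, ← he₃]
  have hDD : D₁ - D₃ = p - e₁ + e₃ := by rw [hp, he₁, he₃]; ring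
  have hw : 0 < τ * f := by positivity
  have hpb : |p| ≤ 4 * (τ * f) := by
    rw [hp]
    refine (abs_sub _ _).trans ?_
    rw [abs_mul]
    have : |s| * |N₁' - N₃'| ≤ τ * (2 * f) := mul_le_mul hs hN (abs_nonneg _) hτ.le
    linarith
  have hp2 : p ^ 2 ≤ 16 * (τ * f) ^ 2 := by
    have := sq_le_sq' (by linarith [neg_abs_le p, abs_nonneg p] : -(4 * (τ * f)) ≤ p) ((le_abs_self p).trans hpb)
    nlinarith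
  have h3 : (p - e₁ + e₃) ^ 2 ≤ 3 * (p ^ 2 + e₁ ^ 2 + e₃ ^ 2) := by
    nlinarith [sq_nonneg (p + e₁), sq_nonneg (p - e₃), sq_nonneg (e₁ + e₃)]
  rw [hDD, div_le_iff₀ (by positivity)]
  have e : (3 / 4 + 3 * e₁ ^ 2 / (64 * τ) + 3 * e₃ ^ 2 / (64 * τ)) * (8 * (τ * f)) ^ 2
      = 48 * (τ * f) ^ 2 + 3 * e₁ ^ 2 * (τ * f ^ 2) + 3 * e₃ ^ 2 * (τ * f ^ 2) := by
    field_simp
    ring
  rw [e]
  have h5 : 3 * e₁ ^ 2 * 1 ≤ 3 * e₁ ^ 2 * (τ * f ^ 2) := mul_le_mul_of_nonneg_left hτf (by positivity)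
  have h6 : 3 * e₃ ^ 2 * 1 ≤ 3 * e₃ ^ 2 * (τ * f ^ 2) := mul_le_mul_of_nonneg_left hτf (by positivity)
  linarith

/-- CRS4 helper: `e^{3/4} ≤ 9/4` -/
theorem ch_fk_g1b_exp : Real.exp (3 / 4) ≤ 9 / 4 := by
  have h1 : Real.exp (3 / 4) ^ 4 = Real.exp 1 ^ 3 := by
    rw [← Real.exp_nat_mul, ← Real.exp_nat_mul]
    norm_num
  have h2 : Real.exp 1 ^ 3 ≤ (9 / 4 : ℝ) ^ 4 := by
    have h3 : Real.exp 1 ≤ 2.72 := by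
      have := Real.exp_one_lt_d9
      linarith
    calc Real.exp 1 ^ 3 ≤ (2.72 : ℝ) ^ 3 := pow_le_pow_left₀ (Real.exp_pos _).le h3 3
      _ ≤ (9 / 4 : ℝ) ^ 4 := by norm_num
  rw [← h1] at h2
  exact (pow_le_pow_iff_left₀ (Real.exp_pos _).le (by norm_num) (by norm_num)).1 h2

/-- CRS4 helper: the pointwise inequality -/
theorem ch_fk_g1b_pw {τ f s : ℝ} (hτ : 0 < τ) (hf : 0 < f) (hτf : 1 ≤ τ * f ^ 2) (hs : |s| ≤ τ) (ρ₁ ρ₃ ρ₁' ρ₃' : ℝ × ℝ) :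
    chBx (2 * f) (2 * (τ * f)) (ρ₁' - ρ₃') * (ENNReal.ofReal (chM1 τ s ρ₁' ρ₁) * ENNReal.ofReal (chM1 τ s ρ₃' ρ₃)) ≤
      (ENNReal.ofReal (9 / 4) * chGs (8 * (τ * f)) (ρ₁ - ρ₃)) *
        (ENNReal.ofReal (Real.exp (-(τ / 5 * (ρ₁.2 - ρ₁'.2) ^ 2) - 9 / (320 * τ) * (ρ₁'.1 - ρ₁.1 - s * ρ₁'.2) ^ 2)) *
         ENNReal.ofReal (Real.exp (-(τ / 5 * (ρ₃.2 - ρ₃'.2) ^ 2) - 9 / (320 * τ) * (ρ₃'.1 - ρ₃.1 - s * ρ₃'.2) ^ 2))) := by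
  unfold chBx
  by_cases hmem : (ρ₁' - ρ₃') ∈ {z : ℝ × ℝ | |z.2| ≤ 2 * f ∧ |z.1| ≤ 2 * (τ * f)}
  · rw [Set.indicator_of_mem hmem, one_mul]
    obtain ⟨hN, hD⟩ := hmem
    have hpt := ch_fk_g1b_pt hτ hf hτf hs ρ₁.1 ρ₃.1 ρ₁'.1 ρ₃'.1 ρ₁'.2 ρ₃'.2 hN hD
    unfold chGs chM1
    rw [← ENNReal.ofReal_mul (Real.exp_pos _).le, ← ENNReal.ofReal_mul (by norm_num), ← ENNReal.ofReal_mul (Real.exp_pos _).le,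
      ← ENNReal.ofReal_mul (by positivity)]
    apply ENNReal.ofReal_le_ofReal
    rw [← Real.exp_add, ← Real.exp_add]
    have h94 := ch_fk_g1b_exp
    calc Real.exp (-(τ * (ρ₁.2 - ρ₁'.2) ^ 2 / 5) - 3 * (ρ₁'.1 - ρ₁.1 - s * ρ₁'.2) ^ 2 / (40 * τ) +
          (-(τ * (ρ₃.2 - ρ₃'.2) ^ 2 / 5) - 3 * (ρ₃'.1 - ρ₃.1 - s * ρ₃'.2) ^ 2 / (40 * τ)))
        ≤ Real.exp (3 / 4 + -((ρ₁ - ρ₃).1 ^ 2 / (8 * (τ * f)) ^ 2) + (-(τ / 5 * (ρ₁.2 - ρ₁'.2) ^ 2) - 9 / (320 * τ) * (ρ₁'.1 - ρ₁.1 - s * ρ₁'.2) ^ 2 +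
          (-(τ / 5 * (ρ₃.2 - ρ₃'.2) ^ 2) - 9 / (320 * τ) * (ρ₃'.1 - ρ₃.1 - s * ρ₃'.2) ^ 2))) := by
          apply Real.exp_le_exp.2
          have e1 : 3 * (ρ₁'.1 - ρ₁.1 - s * ρ₁'.2) ^ 2 / (40 * τ) = 9 / (320 * τ) * (ρ₁'.1 - ρ₁.1 - s * ρ₁'.2) ^ 2 + 3 * (ρ₁'.1 - ρ₁.1 - s * ρ₁'.2) ^ 2 / (64 * τ) := by
            field_simp
            ring
          have e3 : 3 * (ρ₃'.1 - ρ₃.1 - s * ρ₃'.2) ^ 2 / (40 * τ) = 9 / (320 * τ) * (ρ₃'.1 - ρ₃.1 - s * ρ₃'.2) ^ 2 + 3 * (ρ₃'.1 - ρ₃.1 - s * ρ₃'.2) ^ 2 / (64 * τ) := by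
            field_simp
            ring
          have e5 : (ρ₁ - ρ₃).1 = ρ₁.1 - ρ₃.1 := rfl
          rw [e1, e3, e5]
          linarith
      _ = Real.exp (3 / 4) * Real.exp (-((ρ₁ - ρ₃).1 ^ 2 / (8 * (τ * f)) ^ 2)) * Real.exp (-(τ / 5 * (ρ₁.2 - ρ₁'.2) ^ 2) - 9 / (320 * τ) * (ρ₁'.1 - ρ₁.1 - s * ρ₁'.2) ^ 2 +
          (-(τ / 5 * (ρ₃.2 - ρ₃'.2) ^ 2) - 9 / (320 * τ) * (ρ₃'.1 - ρ₃.1 - s * ρ₃'.2) ^ 2)) := by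
          rw [Real.exp_add, Real.exp_add]
      _ ≤ _ := by
          refine mul_le_mul_of_nonneg_right ?_ (Real.exp_pos _).le
          exact mul_le_mul_of_nonneg_right h94 (Real.exp_pos _).le
  · rw [Set.indicator_of_notMem hmem, zero_mul]
    exact zero_le

/-- CRS4 helper: the integral of the weakened majorant over the target rows -/
theorem ch_fk_g1b_int {σ : ℝ} (h1 : 1 ≤ σ) (h2 : σ ≤ 2) {τ : ℝ} (hτ : 0 < τ) (s : ℝ) (ρ : ℝ × ℝ) :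
    ∫⁻ ρ' : ℝ × ℝ, ENNReal.ofReal (Real.exp (-(τ / 5 * (ρ.2 - ρ'.2) ^ 2) - 9 / (320 * τ) * (ρ'.1 - ρ.1 - s * ρ'.2) ^ 2)) ∂(chB σ).nu ≤ ENNReal.ofReal (40 / 3) := by
  have hab : (1 : ℝ) ≤ (40 / 3) ^ 2 * (τ / 5 * (9 / (320 * τ))) := by
    have : τ / 5 * (9 / (320 * τ)) = 9 / 1600 := by field_simp; norm_num
    rw [this]
    norm_num
  have key := ch_fk_g_int (C := 40 / 3) h1 h2 (a := τ / 5) (b := 9 / (320 * τ)) (by positivity) (by positivity) (by norm_num) hab ρ.2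
    (fun n => ρ.1 + s * n) (by fun_prop)
  rw [← ch_fk_nu (by linarith)]
  refine le_trans (le_of_eq (lintegral_congr fun ρ' => ?_)) key
  exact ch_fk_g1_split _ _ _ _ _

/-- CRS4/5 helper: a product integrand -/
theorem ch_fk_g_prod (ν ν' : Measure (ℝ × ℝ)) (c : ℝ≥0∞) (F F' : ℝ × ℝ → ℝ≥0∞) (hF : Measurable F) (hF' : Measurable F') :
    ∫⁻ x, ∫⁻ y, c * (F x * F' y) ∂ν' ∂ν = c * ((∫⁻ x, F x ∂ν) * ∫⁻ y, F' y ∂ν') := by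
  have h1 : ∀ x, ∫⁻ y, c * (F x * F' y) ∂ν' = c * (F x * ∫⁻ y, F' y ∂ν') := by
    intro x
    rw [lintegral_const_mul _ (hF'.const_mul _), lintegral_const_mul _ hF']
  simp_rw [h1]
  rw [lintegral_const_mul _ (hF.mul_const _), lintegral_mul_const _ hF]

theorem ch_fk_g1b {σ σ' : ℝ} (h1 : 1 ≤ σ) (h2 : σ ≤ 2) (h1' : 1 ≤ σ') (h2' : σ' ≤ 2) {τ f : ℝ} (hτ : 0 < τ) (hf : 0 < f) (hτf : 1 ≤ τ * f ^ 2)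
    (s : ℝ) (hs : |s| ≤ τ) (ρ₁ ρ₃ : ℝ × ℝ) :
    ∫⁻ ρ₁', ∫⁻ ρ₃', chBx (2 * f) (2 * (τ * f)) (ρ₁' - ρ₃') * (ENNReal.ofReal (chM1 τ s ρ₁' ρ₁) * ENNReal.ofReal (chM1 τ s ρ₃' ρ₃))
        ∂(chB σ').nu ∂(chB σ).nu ≤ ENNReal.ofReal 400 * chGs (8 * (τ * f)) (ρ₁ - ρ₃) := by
  refine (lintegral_mono fun ρ₁' => lintegral_mono fun ρ₃' => ch_fk_g1b_pw hτ hf hτf hs ρ₁ ρ₃ ρ₁' ρ₃').trans ?_
  have hm : ∀ ρ : ℝ × ℝ, Measurable fun ρ' : ℝ × ℝ => ENNReal.ofReal (Real.exp (-(τ / 5 * (ρ.2 - ρ'.2) ^ 2) - 9 / (320 * τ) * (ρ'.1 - ρ.1 - s * ρ'.2) ^ 2)) := by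
    intro ρ
    apply ENNReal.measurable_ofReal.comp
    fun_prop
  rw [ch_fk_g_prod _ _ _ _ _ (hm ρ₁) (hm ρ₃)]
  refine (mul_le_mul_right (mul_le_mul' (ch_fk_g1b_int h1 h2 hτ s ρ₁) (ch_fk_g1b_int h1' h2' hτ s ρ₃)) _).trans (le_of_eq ?_)
  rw [← ENNReal.ofReal_mul (by norm_num), mul_comm (ENNReal.ofReal (9 / 4)), mul_assoc, ← ENNReal.ofReal_mul (by norm_num), mul_comm]
  congr 2
  norm_num

/-- CRS5 helper: the isotropic Gaussian `exp(-b |z-ρ|²)` against a row measure (either variable) -/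
theorem ch_fk_g4_int {σ b C : ℝ} (h1 : 1 ≤ σ) (h2 : σ ≤ 2) (hb : 0 < b) (hC : 0 ≤ C) (h : 1 ≤ C ^ 2 * (b * b)) (z : ℝ × ℝ) :
    ∫⁻ ρ : ℝ × ℝ, ENNReal.ofReal (Real.exp (-(b * (z.1 - ρ.1) ^ 2) - b * (z.2 - ρ.2) ^ 2)) ∂(chN σ).nu ≤ ENNReal.ofReal C := by
  have key := ch_fk_g_int (C := C) h1 h2 hb hb hC h z.2 (fun _ => z.1) measurable_const
  refine le_trans (le_of_eq (lintegral_congr fun ρ => ?_)) key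
  rw [← ENNReal.ofReal_mul (Real.exp_pos _).le, ← Real.exp_add]
  congr 2
  ring

theorem ch_fk_g4a {σ : ℝ} (h1 : 1 ≤ σ) (h2 : σ ≤ 2) (z : ℝ × ℝ) :
    ∫⁻ ρ, ENNReal.ofReal (chM4 z ρ) ∂(chB σ).nu ≤ ENNReal.ofReal 4 := by
  rw [← ch_fk_nu (by linarith)]
  refine le_trans (le_of_eq (lintegral_congr fun ρ => ?_)) (ch_fk_g4_int (b := 1 / 4) (C := 4) h1 h2 (by norm_num) (by norm_num) (by norm_num) z)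
  unfold chM4
  congr 2
  ring

/-- CRS5 helper: comparison of the inverse square roots -/
theorem ch_fk_g4b_rp {X Y c : ℝ} (hX : 0 < X) (hY : 0 < Y) (hc : 0 ≤ c) (h : Y ≤ c ^ 2 * X) : X ^ (-(1 / 2) : ℝ) ≤ c * Y ^ (-(1 / 2) : ℝ) := by
  rw [Real.rpow_neg hX.le, Real.rpow_neg hY.le, ← Real.sqrt_eq_rpow, ← Real.sqrt_eq_rpow]
  have h1 : Real.sqrt Y ≤ c * Real.sqrt X := by
    have h2 := Real.sqrt_le_sqrt h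
    rwa [Real.sqrt_mul (by positivity), Real.sqrt_sq hc] at h2
  have hsX : 0 < Real.sqrt X := Real.sqrt_pos.2 hX
  have hsY : 0 < Real.sqrt Y := Real.sqrt_pos.2 hY
  rw [← div_eq_mul_inv, le_div_iff₀ hsY, mul_comm, ← div_eq_mul_inv, div_le_iff₀ hsX]
  exact h1

/-- CRS5 helper: `1 + 2x ≤ 4 e^{x/4}` -/
theorem ch_fk_g4b_exp {x : ℝ} (hx : 0 ≤ x) : 1 + 2 * x ≤ 4 * Real.exp (x / 4) := by
  have h := Real.quadratic_le_exp_of_nonneg (by positivity : 0 ≤ x / 4)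
  nlinarith [sq_nonneg (x - 4)]

/-- CRS5 helper: Peetre's inequality with Gaussian weights (real numbers) -/
theorem ch_fk_g4b_pt {A : ℝ} (hA : 1 ≤ A) (x1 x2 a1 a2 b1 b2 : ℝ) :
    A + x1 ^ 2 + x2 ^ 2 ≤ (6 * (Real.exp ((a1 ^ 2 + a2 ^ 2) / 8) * Real.exp ((b1 ^ 2 + b2 ^ 2) / 8))) ^ 2 * (A + (x1 + (a1 - b1)) ^ 2 + (x2 + (a2 - b2)) ^ 2) := by
  obtain ⟨a, ha⟩ : ∃ a : ℝ, a = a1 ^ 2 + a2 ^ 2 := ⟨_, rfl⟩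
  obtain ⟨b, hb⟩ : ∃ b : ℝ, b = b1 ^ 2 + b2 ^ 2 := ⟨_, rfl⟩
  have ha0 : 0 ≤ a := by rw [ha]; positivity
  have hb0 : 0 ≤ b := by rw [hb]; positivity
  obtain ⟨v, hv⟩ : ∃ v : ℝ, v = (a1 - b1) ^ 2 + (a2 - b2) ^ 2 := ⟨_, rfl⟩
  have hv0 : 0 ≤ v := by rw [hv]; positivity
  obtain ⟨X, hX⟩ : ∃ X : ℝ, X = A + (x1 + (a1 - b1)) ^ 2 + (x2 + (a2 - b2)) ^ 2 := ⟨_, rfl⟩
  have hXA : A ≤ X := by rw [hX]; nlinarith [sq_nonneg (x1 + (a1 - b1)), sq_nonneg (x2 + (a2 - b2))]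
  have hX0 : 0 < X := by linarith
  rw [← ha, ← hb, ← hX]
  -- Peetre
  have h1 : A + x1 ^ 2 + x2 ^ 2 ≤ 2 * (1 + v) * X := by
    have e1 : x1 ^ 2 ≤ 2 * (x1 + (a1 - b1)) ^ 2 + 2 * (a1 - b1) ^ 2 := by nlinarith [sq_nonneg (x1 + 2 * (a1 - b1))]
    have e2 : x2 ^ 2 ≤ 2 * (x2 + (a2 - b2)) ^ 2 + 2 * (a2 - b2) ^ 2 := by nlinarith [sq_nonneg (x2 + 2 * (a2 - b2))]
    have e3 : A + x1 ^ 2 + x2 ^ 2 ≤ 2 * X + 2 * v := by rw [hX, hv]; linarith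
    have e4 : v ≤ v * X := le_mul_of_one_le_right hv0 (hA.trans hXA)
    nlinarith
  have h2 : 1 + v ≤ (1 + 2 * a) * (1 + 2 * b) := by
    have e1 : v ≤ 2 * a + 2 * b := by
      rw [hv, ha, hb]
      nlinarith [sq_nonneg (a1 + b1), sq_nonneg (a2 + b2)]
    nlinarith [mul_nonneg ha0 hb0]
  have h3 : (1 + 2 * a) * (1 + 2 * b) ≤ (4 * Real.exp (a / 4)) * (4 * Real.exp (b / 4)) :=
    mul_le_mul (ch_fk_g4b_exp ha0) (ch_fk_g4b_exp hb0) (by positivity) (by positivity)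
  have h4 : (6 * (Real.exp (a / 8) * Real.exp (b / 8))) ^ 2 = 36 * (Real.exp (a / 4) * Real.exp (b / 4)) := by
    rw [mul_pow, mul_pow, ← Real.exp_nat_mul, ← Real.exp_nat_mul]
    have e1 : ((2 : ℕ) : ℝ) * (a / 8) = a / 4 := by push_cast; ring
    have e2 : ((2 : ℕ) : ℝ) * (b / 8) = b / 4 := by push_cast; ring
    rw [e1, e2]
    norm_num
  rw [h4]
  have hE : 0 < Real.exp (a / 4) * Real.exp (b / 4) := by positivity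
  calc A + x1 ^ 2 + x2 ^ 2 ≤ 2 * (1 + v) * X := h1
    _ ≤ 2 * ((4 * Real.exp (a / 4)) * (4 * Real.exp (b / 4))) * X := by
        refine mul_le_mul_of_nonneg_right ?_ hX0.le
        linarith
    _ = 32 * (Real.exp (a / 4) * Real.exp (b / 4)) * X := by ring
    _ ≤ 36 * (Real.exp (a / 4) * Real.exp (b / 4)) * X := by
        refine mul_le_mul_of_nonneg_right ?_ hX0.le
        linarith

/-- CRS5 helper: the pointwise inequality -/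
theorem ch_fk_g4b_pw {A : ℝ} (hA : 1 ≤ A) (ρ₁ ρ₃ z₁ z₃ : ℝ × ℝ) :
    chK A (z₁ - z₃) * (ENNReal.ofReal (chM4 z₁ ρ₁) * ENNReal.ofReal (chM4 z₃ ρ₃)) ≤
      (ENNReal.ofReal 6 * chK A (ρ₁ - ρ₃)) *
        (ENNReal.ofReal (Real.exp (-(1 / 8 * (ρ₁.1 - z₁.1) ^ 2) - 1 / 8 * (ρ₁.2 - z₁.2) ^ 2)) *
         ENNReal.ofReal (Real.exp (-(1 / 8 * (ρ₃.1 - z₃.1) ^ 2) - 1 / 8 * (ρ₃.2 - z₃.2) ^ 2))) := by
  have hpt := ch_fk_g4b_pt hA (ρ₁.1 - ρ₃.1) (ρ₁.2 - ρ₃.2) (z₁.1 - ρ₁.1) (z₁.2 - ρ₁.2) (z₃.1 - ρ₃.1) (z₃.2 - ρ₃.2)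
  have e1 : ρ₁.1 - ρ₃.1 + (z₁.1 - ρ₁.1 - (z₃.1 - ρ₃.1)) = (z₁ - z₃).1 := by
    show _ = z₁.1 - z₃.1
    ring
  have e2 : ρ₁.2 - ρ₃.2 + (z₁.2 - ρ₁.2 - (z₃.2 - ρ₃.2)) = (z₁ - z₃).2 := by
    show _ = z₁.2 - z₃.2
    ring
  rw [e1, e2] at hpt
  have hX : 0 < A + (z₁ - z₃).1 ^ 2 + (z₁ - z₃).2 ^ 2 := by positivity
  have hY : 0 < A + (ρ₁.1 - ρ₃.1) ^ 2 + (ρ₁.2 - ρ₃.2) ^ 2 := by positivity
  have hrp := ch_fk_g4b_rp hX hY (by positivity) hpt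
  unfold chK chM4
  rw [← ENNReal.ofReal_mul (Real.exp_pos _).le, ← ENNReal.ofReal_mul (by positivity), ← ENNReal.ofReal_mul (by norm_num),
    ← ENNReal.ofReal_mul (Real.exp_pos _).le, ← ENNReal.ofReal_mul (by positivity)]
  apply ENNReal.ofReal_le_ofReal
  have hM : 0 ≤ Real.exp (-((z₁.1 - ρ₁.1) ^ 2 / 4) - (z₁.2 - ρ₁.2) ^ 2 / 4) * Real.exp (-((z₃.1 - ρ₃.1) ^ 2 / 4) - (z₃.2 - ρ₃.2) ^ 2 / 4) := by positivity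
  refine (mul_le_mul_of_nonneg_right hrp hM).trans (le_of_eq ?_)
  have e5 : (ρ₁ - ρ₃).1 = ρ₁.1 - ρ₃.1 := rfl
  have e6 : (ρ₁ - ρ₃).2 = ρ₁.2 - ρ₃.2 := rfl
  rw [e5, e6]
  have e7 : Real.exp (((z₁.1 - ρ₁.1) ^ 2 + (z₁.2 - ρ₁.2) ^ 2) / 8) * Real.exp (-((z₁.1 - ρ₁.1) ^ 2 / 4) - (z₁.2 - ρ₁.2) ^ 2 / 4)
      = Real.exp (-(1 / 8 * (ρ₁.1 - z₁.1) ^ 2) - 1 / 8 * (ρ₁.2 - z₁.2) ^ 2) := by
    rw [← Real.exp_add]; congr 1; ring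
  have e8 : Real.exp (((z₃.1 - ρ₃.1) ^ 2 + (z₃.2 - ρ₃.2) ^ 2) / 8) * Real.exp (-((z₃.1 - ρ₃.1) ^ 2 / 4) - (z₃.2 - ρ₃.2) ^ 2 / 4)
      = Real.exp (-(1 / 8 * (ρ₃.1 - z₃.1) ^ 2) - 1 / 8 * (ρ₃.2 - z₃.2) ^ 2) := by
    rw [← Real.exp_add]; congr 1; ring
  rw [← e7, ← e8]
  ring

theorem ch_fk_g4b {σ σ' : ℝ} (h1 : 1 ≤ σ) (h2 : σ ≤ 2) (h1' : 1 ≤ σ') (h2' : σ' ≤ 2) {A : ℝ} (hA : 1 ≤ A) (ρ₁ ρ₃ : ℝ × ℝ) :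
    ∫⁻ z₁, ∫⁻ z₃, chK A (z₁ - z₃) * (ENNReal.ofReal (chM4 z₁ ρ₁) * ENNReal.ofReal (chM4 z₃ ρ₃)) ∂(chN σ').nu ∂(chN σ).nu ≤
      ENNReal.ofReal 400 * chK A (ρ₁ - ρ₃) := by
  refine (lintegral_mono fun z₁ => lintegral_mono fun z₃ => ch_fk_g4b_pw hA ρ₁ ρ₃ z₁ z₃).trans ?_
  have hm : ∀ ρ : ℝ × ℝ, Measurable fun z : ℝ × ℝ => ENNReal.ofReal (Real.exp (-(1 / 8 * (ρ.1 - z.1) ^ 2) - 1 / 8 * (ρ.2 - z.2) ^ 2)) := by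
    intro ρ
    apply ENNReal.measurable_ofReal.comp
    fun_prop
  rw [ch_fk_g_prod _ _ _ _ _ (hm ρ₁) (hm ρ₃)]
  have hI : ∀ (σ : ℝ), 1 ≤ σ → σ ≤ 2 → ∀ ρ : ℝ × ℝ,
      ∫⁻ z : ℝ × ℝ, ENNReal.ofReal (Real.exp (-(1 / 8 * (ρ.1 - z.1) ^ 2) - 1 / 8 * (ρ.2 - z.2) ^ 2)) ∂(chN σ).nu ≤ ENNReal.ofReal 8 :=
    fun σ h1 h2 ρ => ch_fk_g4_int (b := 1 / 8) (C := 8) h1 h2 (by norm_num) (by norm_num) (by norm_num) ρ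
  refine (mul_le_mul_right (mul_le_mul' (hI σ h1 h2 ρ₁) (hI σ' h1' h2' ρ₃)) _).trans ?_
  rw [← ENNReal.ofReal_mul (by norm_num), mul_comm (ENNReal.ofReal 6), mul_assoc, ← ENNReal.ofReal_mul (by norm_num), mul_comm]
  refine mul_le_mul_left (ENNReal.ofReal_le_ofReal ?_) _
  norm_num

end Claimed.Agent.R256
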