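import Claimed.Agent.R256.Chan.Fk.CrsG
import Claimed.Agent.R256.Chan.Fk.CrsDom

/-!
# Row 256, Chan/Fk, CROSS FRAMES: the two frame switches S1, S4      (architect helper132; prefix `ch_fk_`)      GLUE (no leaf)

S1: terminal frame of `chB` at the time `T` → natural terminal frame at any time `t ∈ [T, T+τ]`;  the box `1[|ΔN| ≤ 2f, |ΔD| ≤ 2τf]` becomes the Gaussian window `e^{-ΔD²/(8τf)²}`.
S4: natural root frame → root frame of `chB`;  the kernel `(A+|z|²)^(-1/2)` is reproduced.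
-/

set_option autoImplicit false

namespace Claimed.Agent.R256

open MeasureTheory
open scoped ENNReal ComplexConjugate

variable {E : Type} [NormedAddCommGroup E] [InnerProductSpace ℂ E] [CompleteSpace E]

/-- domination by a majorant of the kernel -/
theorem ch_fk_pd_maj (φ φ' : HyF) (h : φ.Ok) (h' : φ'.Ok) (T : ℝ) (k : ℕ) (T' : ℝ) (k' : ℕ) (g : ℝ → E) (hg : MemLp g 2 volume)
    (Mj : ℝ × ℝ → ℝ × ℝ → ℝ) (hM : ∀ ρ' ρ, ‖chX φ T k φ' T' k' ρ' ρ‖ ≤ Mj ρ' ρ) (a : ℝ≥0∞) (ha : ∀ ρ', ∫⁻ ρ, ENNReal.ofReal (Mj ρ' ρ) ∂φ.nu ≤ a)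
    (ρ' : ℝ × ℝ) :
    ‖φ'.row T' k' g ρ'‖ₑ ^ 2 ≤ a * ∫⁻ ρ, ENNReal.ofReal (Mj ρ' ρ) * ‖φ.row T k g ρ‖ₑ ^ 2 ∂φ.nu := by
  have hle : ∀ ρ, ‖chX φ T k φ' T' k' ρ' ρ‖ₑ ≤ ENNReal.ofReal (Mj ρ' ρ) := fun ρ => by
    rw [← ofReal_norm]
    exact ENNReal.ofReal_le_ofReal (hM ρ' ρ)
  refine (ch_fk_pd φ φ' h h' T k T' k' g hg ρ').trans ?_
  refine mul_le_mul' ((lintegral_mono hle).trans (ha ρ')) (lintegral_mono fun ρ => mul_le_mul_left (hle ρ) _)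

/-- **S1** -/
theorem ch_fk_s1 {σ σ' : ℝ} (h1 : 1 ≤ σ) (h2 : σ ≤ 2) (h1' : 1 ≤ σ') (h2' : σ' ≤ 2) (g g' : ℝ → E) (hg : MemLp g 2 volume) (hg' : MemLp g' 2 volume)
    (n : ℕ) (f T t : ℝ) (hf : 0 < f) (hnf : 1 ≤ (2 : ℝ)⁻¹ ^ n * f ^ 2) (ht : T ≤ t) (ht' : t ≤ T + (2 : ℝ)⁻¹ ^ n) :
    chPair (chB σ).nu (chB σ').nu (chBx (2 * f) (2 * ((2 : ℝ)⁻¹ ^ n * f))) ((chB σ).row T n g) ((chB σ').row T n g') ≤
      ENNReal.ofReal 9 * ENNReal.ofReal 9 * ENNReal.ofReal 400 *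
        chPair (chN σ).nu (chN σ').nu (chGs (8 * ((2 : ℝ)⁻¹ ^ n * f))) ((chN σ).row t n g) ((chN σ').row t n g') := by
  have hτ : (0 : ℝ) < (2 : ℝ)⁻¹ ^ n := by positivity
  have hs : |T - t| ≤ (2 : ℝ)⁻¹ ^ n := by
    rw [abs_le]; constructor <;> linarith
  have hσ : 0 < σ := by linarith
  have hσ' : 0 < σ' := by linarith
  refine ch_fk_dom (chB σ).nu (chB σ').nu (chN σ).nu (chN σ').nu _ _ (ch_fk_Bx_meas _ _)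
    (fun ρ' ρ => ENNReal.ofReal (chM1 ((2 : ℝ)⁻¹ ^ n) (T - t) ρ' ρ)) (fun ρ' ρ => ENNReal.ofReal (chM1 ((2 : ℝ)⁻¹ ^ n) (T - t) ρ' ρ))
    (ch_fk_m1_meas _ _) (ch_fk_m1_meas _ _) _ _ _ _ (hy_row_meas _ _ _ _ hg.1) (hy_row_meas _ _ _ _ hg'.1) _ _ _ ?_ ?_ ?_ ENNReal.ofReal_ne_top
  · exact ch_fk_pd_maj (chN σ) (chB σ) (ch_fk_okN hσ) (ch_fk_okB h1 h2) t n T n g hg _ (ch_fk_x1 h1 h2 n T t ht ht') _
      (ch_fk_g1a h1 h2 hτ _)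
  · exact ch_fk_pd_maj (chN σ') (chB σ') (ch_fk_okN hσ') (ch_fk_okB h1' h2') t n T n g' hg' _ (ch_fk_x1 h1' h2' n T t ht ht') _
      (ch_fk_g1a h1' h2' hτ _)
  · exact ch_fk_g1b h1 h2 h1' h2' hτ hf hnf _ hs

/-- **S4** -/
theorem ch_fk_s4 {σ σ' : ℝ} (h1 : 1 ≤ σ) (h2 : σ ≤ 2) (h1' : 1 ≤ σ') (h2' : σ' ≤ 2) (g g' : ℝ → E) (hg : MemLp g 2 volume) (hg' : MemLp g' 2 volume)
    {A : ℝ} (hA : 1 ≤ A) :
    chPair (chN σ).nu (chN σ').nu (chK A) ((chN σ).row 0 0 g) ((chN σ').row 0 0 g') ≤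
      ENNReal.ofReal 4 * ENNReal.ofReal 4 * ENNReal.ofReal 400 *
        chPair (chB σ).nu (chB σ').nu (chK A) ((chB σ).row 0 0 g) ((chB σ').row 0 0 g') := by
  have hσ : 0 < σ := by linarith
  have hσ' : 0 < σ' := by linarith
  refine ch_fk_dom (chN σ).nu (chN σ').nu (chB σ).nu (chB σ').nu _ _ (ch_fk_K_meas _)
    (fun ρ' ρ => ENNReal.ofReal (chM4 ρ' ρ)) (fun ρ' ρ => ENNReal.ofReal (chM4 ρ' ρ))
    ch_fk_m4_meas ch_fk_m4_meas _ _ _ _ (hy_row_meas _ _ _ _ hg.1) (hy_row_meas _ _ _ _ hg'.1) _ _ _ ?_ ?_ ?_ ENNReal.ofReal_ne_top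
  · exact ch_fk_pd_maj (chB σ) (chN σ) (ch_fk_okB h1 h2) (ch_fk_okN hσ) 0 0 0 0 g hg _ (ch_fk_x4 h1 h2) _ (ch_fk_g4a h1 h2)
  · exact ch_fk_pd_maj (chB σ') (chN σ') (ch_fk_okB h1' h2') (ch_fk_okN hσ') 0 0 0 0 g' hg' _ (ch_fk_x4 h1' h2') _ (ch_fk_g4a h1' h2')
  · exact ch_fk_g4b h1 h2 h1' h2' hA

end Claimed.Agent.R256
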