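import Claimed.Agent.R256.Chan.Fk.Basic

/-!
# Row 256, Chan/Fk, CROSS FRAMES, leaves L-256-FK-CRS1 (`ch_fk_xr`, `ch_fk_x_meas`, `ch_fk_pd`) and L-256-FK-CRS2 (`ch_fk_x_abs`, `ch_fk_x1`, `ch_fk_x4`)      (architect helper132; prefix `ch_fk_`)

`chX φ T k φ' T' k' ρ' ρ = ∫ pk' conj pk` = kernel from the frame `(T,k)` of `φ` to the frame `(T',k')` of `φ'`.
CRS1.  `ch_fk_xr` (reproducing formula across fibres) = COPY of the proof of `hy_tr_row'` (`Hyb/Iso.lean`): test with `e : E` (`ext_inner_left`), `hy_row_inner φ` for `conj (pk' ρ') • e` and `g`;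
       `chX .. ρ' ρ = conj (φ.row T k (conj pk' ρ') ρ)` as in `hy_kr_row`, hence `chX .. ρ' · ∈ L²(φ.nu)` (`hy_row_memLp`, `hy_pk_conj_memLp φ'`) and `chX • row g ∈ L¹` (`hy_integrable_smul`).
       `ch_fk_x_meas`: as `hy_kr_meas` / `StronglyMeasurable.integral_prod_right` with `hy_pk_cont`.     `ch_fk_pd`: `ch_fk_xr` + `hy_cs` (`Hyb/Tool.lean`).    ~200 l.
CRS2.  `ch_fk_x_abs` = COPY of the proof of `hy_kr_abs` (`Hyb/Ker.lean`): the lemmas `hy_k1_alg, hy_k1_norm, hy_k1_exp, hy_k1_pre` are stated for arbitrary reals `a, a', p, p', s, s'`; use `hr` to rewrite `σ'N'/H' = σN'/H`, `T'H'/(2σ') = T'H/(2σ)`.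
       `ch_fk_x1` (checked numerically): `a = q_N² = τ/σ ∈ [τ/2, τ]`, `a' = τ`, `A = (a+a')/2 ∈ [3τ/4, τ]`, `b = (T-t)/(2σ)`, `|b| ≤ τ/2`, `s = T - t ∈ [-τ, 0]`:
         amplitude `sqrt(qq') (A²+b²)^(-1/4) ≤ sqrt(qq'/A) ≤ 1`;   velocity coefficient `a a' σ²/(2(a+a')) = τσ²/(2(σ+1)) ≥ τ/4`;    position coefficient `A/(4(A²+b²)) ≥ (3τ/4)/(5τ²) = 3/(20τ)`;
         `nc - N' = a (N-N')/(a+a')`, `|s (nc - N')| ≤ τ|ΔN|/2`,  `(y - sN')² ≤ 2(y - s nc)² + τ²ΔN²/2`  ⇒ exponent `≥ τΔN²(1/4 - 3/80) + 3(y-sN')²/(40τ)`.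
       `ch_fk_x4` (checked numerically): `a = 1`, `a' = 1/σ`, `b = 0`:  `a a' σ²/(2(a+a')) = σ²/(2(σ+1)) ≥ 1/4`,   `1/(4A) = 1/(2(1+1/σ)) ≥ 1/4`.    ~350 l.
-/

set_option autoImplicit false

namespace Claimed.Agent.R256

open MeasureTheory
open scoped ENNReal ComplexConjugate

/-- majorant of the kernel natural frame `(t,n)` → frame of `chB` `(T,n)`, `s = T - t`, `τ = 2^-n` -/
noncomputable def chM1 (τ s : ℝ) (ρ' ρ : ℝ × ℝ) : ℝ :=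
  Real.exp (-(τ * (ρ.2 - ρ'.2) ^ 2 / 5) - 3 * (ρ'.1 - ρ.1 - s * ρ'.2) ^ 2 / (40 * τ))

/-- majorant of the kernel between the two root frames -/
noncomputable def chM4 (ρ' ρ : ℝ × ℝ) : ℝ := Real.exp (-((ρ'.1 - ρ.1) ^ 2 / 4) - (ρ'.2 - ρ.2) ^ 2 / 4)

theorem ch_fk_crsx_eqns_cite : True := by
  have := @chM1.eq_1
  have := @chM4.eq_1
  trivial

theorem ch_fk_x_meas (φ : HyF) (T : ℝ) (k : ℕ) (φ' : HyF) (T' : ℝ) (k' : ℕ) : Measurable (Function.uncurry (chX φ T k φ' T' k')) := by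
  have hc : Continuous fun z : ((ℝ × ℝ) × (ℝ × ℝ)) × ℝ => φ'.pk T' k' z.1.1 z.2 * conj (φ.pk T k z.1.2 z.2) := by
    have c1 : Continuous fun z : ((ℝ × ℝ) × (ℝ × ℝ)) × ℝ => φ'.pk T' k' z.1.1 z.2 :=
      Continuous.comp (g := fun z : (ℝ × ℝ) × ℝ => φ'.pk T' k' z.1 z.2) (f := fun z : ((ℝ × ℝ) × (ℝ × ℝ)) × ℝ => (z.1.1, z.2))
        (hy_pk_cont φ' T' k') (by fun_prop)
    have c2 : Continuous fun z : ((ℝ × ℝ) × (ℝ × ℝ)) × ℝ => φ.pk T k z.1.2 z.2 :=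
      Continuous.comp (g := fun z : (ℝ × ℝ) × ℝ => φ.pk T k z.1 z.2) (f := fun z : ((ℝ × ℝ) × (ℝ × ℝ)) × ℝ => (z.1.2, z.2))
        (hy_pk_cont φ T k) (by fun_prop)
    exact c1.mul (Complex.continuous_conj.comp c2)
  exact (hc.stronglyMeasurable.integral_prod_right' (ν := (volume : Measure ℝ))).measurable

section vec

variable {E : Type} [NormedAddCommGroup E] [InnerProductSpace ℂ E] [CompleteSpace E]

theorem ch_fk_x_row (φ : HyF) (T : ℝ) (k : ℕ) (φ' : HyF) (T' : ℝ) (k' : ℕ) (ρ' ρ : ℝ × ℝ) :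
    chX φ T k φ' T' k' ρ' ρ = conj (φ.row T k (fun u => conj (φ'.pk T' k' ρ' u)) ρ) := by
  unfold chX HyF.row
  rw [← integral_conj]
  refine integral_congr_ae (Filter.Eventually.of_forall fun u => ?_)
  simp only [smul_eq_mul, map_mul, Complex.conj_conj]
  ring

theorem ch_fk_x_memLp (φ φ' : HyF) (h : φ.Ok) (h' : φ'.Ok) (T : ℝ) (k : ℕ) (T' : ℝ) (k' : ℕ) (ρ' : ℝ × ℝ) :
    MemLp (chX φ T k φ' T' k' ρ') 2 φ.nu := by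
  have h1 := hy_row_memLp φ h T k (fun u => conj (φ'.pk T' k' ρ' u)) (hy_pk_conj_memLp φ' h' T' k' ρ')
  refine h1.of_le ((ch_fk_x_meas φ T k φ' T' k').comp measurable_prodMk_left).aestronglyMeasurable
    (Filter.Eventually.of_forall fun ρ => ?_)
  rw [ch_fk_x_row, RCLike.norm_conj]

/-- **reproducing formula across fibres** -/
theorem ch_fk_xr (φ φ' : HyF) (h : φ.Ok) (h' : φ'.Ok) (T : ℝ) (k : ℕ) (T' : ℝ) (k' : ℕ) (g : ℝ → E) (hg : MemLp g 2 volume) (ρ' : ℝ × ℝ) :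
    ∫ ρ, chX φ T k φ' T' k' ρ' ρ • φ.row T k g ρ ∂φ.nu = φ'.row T' k' g ρ' := by
  refine ext_inner_left ℂ fun e => ?_
  have hh := hy_pk_conj_memLp φ' h' T' k' ρ'
  have hhe : MemLp (fun u => conj (φ'.pk T' k' ρ' u) • e) 2 volume :=
    hh.of_le_mul (c := ‖e‖) (hh.1.smul_const e) (Filter.Eventually.of_forall fun u => by rw [norm_smul, mul_comm])
  have hrow : ∀ ρ, φ.row T k (fun u => conj (φ'.pk T' k' ρ' u) • e) ρ = φ.row T k (fun u => conj (φ'.pk T' k' ρ' u)) ρ • e := by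
    intro ρ
    unfold HyF.row
    rw [← integral_smul_const]
    refine integral_congr_ae (Filter.Eventually.of_forall fun u => ?_)
    simp only [smul_smul, smul_eq_mul]
  have hint : Integrable (fun ρ => chX φ T k φ' T' k' ρ' ρ • φ.row T k g ρ) φ.nu :=
    hy_integrable_smul φ.nu _ _ (ch_fk_x_memLp φ φ' h h' T k T' k' ρ') (hy_row_memLp φ h T k g hg)
  calc inner ℂ e (∫ ρ, chX φ T k φ' T' k' ρ' ρ • φ.row T k g ρ ∂φ.nu)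
      = ∫ ρ, inner ℂ e (chX φ T k φ' T' k' ρ' ρ • φ.row T k g ρ) ∂φ.nu := (integral_inner hint e).symm
    _ = ∫ ρ, inner ℂ (φ.row T k (fun u => conj (φ'.pk T' k' ρ' u) • e) ρ) (φ.row T k g ρ) ∂φ.nu := by
        refine integral_congr_ae (Filter.Eventually.of_forall fun ρ => ?_)
        show inner ℂ e (chX φ T k φ' T' k' ρ' ρ • φ.row T k g ρ) =
          inner ℂ (φ.row T k (fun u => conj (φ'.pk T' k' ρ' u) • e) ρ) (φ.row T k g ρ)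
        rw [hrow, inner_smul_left, inner_smul_right, ch_fk_x_row]
    _ = ∫ u, inner ℂ (conj (φ'.pk T' k' ρ' u) • e) (g u) := hy_row_inner φ h T k _ g hhe hg
    _ = ∫ u, inner ℂ e (φ'.pk T' k' ρ' u • g u) := by
        refine integral_congr_ae (Filter.Eventually.of_forall fun u => ?_)
        show inner ℂ (conj (φ'.pk T' k' ρ' u) • e) (g u) = inner ℂ e (φ'.pk T' k' ρ' u • g u)
        rw [inner_smul_left, inner_smul_right, Complex.conj_conj]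
    _ = inner ℂ e (φ'.row T' k' g ρ') := integral_inner (hy_row_int φ' h' T' k' g hg ρ') e

/-- **pointwise domination** -/
theorem ch_fk_pd (φ φ' : HyF) (h : φ.Ok) (h' : φ'.Ok) (T : ℝ) (k : ℕ) (T' : ℝ) (k' : ℕ) (g : ℝ → E) (hg : MemLp g 2 volume) (ρ' : ℝ × ℝ) :
    ‖φ'.row T' k' g ρ'‖ₑ ^ 2 ≤ (∫⁻ ρ, ‖chX φ T k φ' T' k' ρ' ρ‖ₑ ∂φ.nu) * ∫⁻ ρ, ‖chX φ T k φ' T' k' ρ' ρ‖ₑ * ‖φ.row T k g ρ‖ₑ ^ 2 ∂φ.nu := by
  rw [← ch_fk_xr φ φ' h h' T k T' k' g hg ρ']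
  exact hy_cs φ.nu (chX φ T k φ' T' k' ρ') ((ch_fk_x_meas φ T k φ' T' k').comp measurable_prodMk_left).aemeasurable (φ.row T k g)
    (hy_row_meas φ T k g hg.1).aestronglyMeasurable

end vec

/-- **exact modulus** of the kernel between two frames of the same particle -/
theorem ch_fk_x_abs (φ φ' : HyF) (h : φ.Ok) (h' : φ'.Ok) (hr : φ'.sg / φ'.H = φ.sg / φ.H) (T : ℝ) (k : ℕ) (T' : ℝ) (k' : ℕ) (ρ' ρ : ℝ × ℝ) :
    ‖chX φ T k φ' T' k' ρ' ρ‖ = Real.sqrt (φ.q k * φ'.q k') *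
        (((φ.q k ^ 2 + φ'.q k' ^ 2) / 2) ^ 2 + ((T' - T) * φ.H / (2 * φ.sg)) ^ 2) ^ (-(1 / 4) : ℝ) *
      Real.exp (-(φ.q k ^ 2 * φ'.q k' ^ 2 * φ.sg ^ 2 * (ρ.2 - ρ'.2) ^ 2 / (2 * (φ.q k ^ 2 + φ'.q k' ^ 2) * φ.H ^ 2))
        - (φ.q k ^ 2 + φ'.q k' ^ 2) / 2 *
            (ρ'.1 - ρ.1 - (T' - T) * ((φ.q k ^ 2 * ρ.2 + φ'.q k' ^ 2 * ρ'.2) / (φ.q k ^ 2 + φ'.q k' ^ 2))) ^ 2 /
          (4 * (((φ.q k ^ 2 + φ'.q k' ^ 2) / 2) ^ 2 + ((T' - T) * φ.H / (2 * φ.sg)) ^ 2))) := by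
  have hq := (hy_qd φ h k).1
  have hq' := (hy_qd φ' h' k').1
  have hH := h.H_pos
  have hH' := h'.H_pos
  have hσ : 0 < φ.sg := by linarith [h.sg_lo]
  have hσ' : 0 < φ'.sg := by linarith [h'.sg_lo]
  have hp : φ'.sg * ρ'.2 / φ'.H = φ.sg * ρ'.2 / φ.H := by
    rw [mul_div_right_comm, hr, mul_div_right_comm]
  have hs : ∀ u : ℝ, T' * φ'.H * u ^ 2 / (2 * φ'.sg) = T' * φ.H / (2 * φ.sg) * u ^ 2 := by
    intro u
    have e1 : φ'.H / φ'.sg = φ.H / φ.sg := by rw [← inv_div, hr, inv_div]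
    calc T' * φ'.H * u ^ 2 / (2 * φ'.sg) = T' * (φ'.H / φ'.sg) * u ^ 2 / 2 := by field_simp
      _ = T' * (φ.H / φ.sg) * u ^ 2 / 2 := by rw [e1]
      _ = T' * φ.H / (2 * φ.sg) * u ^ 2 := by field_simp
  have e : ∀ u : ℝ, φ'.pk T' k' ρ' u * conj (φ.pk T k ρ u) = _ := fun u =>
    hy_k1_alg ((φ.q k ^ 2 / Real.pi) ^ (1 / 4 : ℝ)) ((φ'.q k' ^ 2 / Real.pi) ^ (1 / 4 : ℝ)) (φ.q k ^ 2) (φ'.q k' ^ 2)
      (φ.sg * ρ.2 / φ.H) (φ'.sg * ρ'.2 / φ'.H) ρ.1 ρ'.1 (T * φ.H / (2 * φ.sg)) (T' * φ.H / (2 * φ.sg)) u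
      (T * φ.H * u ^ 2 / (2 * φ.sg)) (T' * φ'.H * u ^ 2 / (2 * φ'.sg)) (by ring) (hs u)
  unfold chX
  simp_rw [e]
  rw [integral_const_mul, norm_mul, hy_k1_norm _ _ _ _ _ _ (by positivity), Complex.norm_real,
    Real.norm_of_nonneg (by positivity)]
  have hb : T' * φ.H / (2 * φ.sg) - T * φ.H / (2 * φ.sg) = (T' - T) * φ.H / (2 * φ.sg) := by ring
  rw [hb, hp, hy_k1_exp (φ.q k ^ 2) (φ'.q k' ^ 2) φ.sg φ.H ρ.2 ρ'.2 (ρ'.1 - ρ.1) (T' - T) (by positivity) (by positivity) hσ hH,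
    ← mul_assoc, ← mul_assoc, hy_k1_pre _ _ hq hq']

theorem ch_fk_x_amp {q q' S : ℝ} (hq : 0 < q) (hq' : 0 < q') (hS : ((q ^ 2 + q' ^ 2) / 2) ^ 2 ≤ S) :
    Real.sqrt (q * q') * S ^ (-(1 / 4) : ℝ) ≤ 1 := by
  have hx : 0 < q * q' := by positivity
  have h1 : (q * q') ^ 2 ≤ S := by
    refine le_trans ?_ hS
    have : q * q' ≤ (q ^ 2 + q' ^ 2) / 2 := by nlinarith [sq_nonneg (q - q')]
    gcongr
  have h2 : S ^ (-(1 / 4) : ℝ) ≤ ((q * q') ^ 2) ^ (-(1 / 4) : ℝ) :=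
    Real.rpow_le_rpow_of_nonpos (by positivity) h1 (by norm_num)
  have h3 : ((q * q') ^ 2) ^ (-(1 / 4) : ℝ) = (q * q') ^ (-(1 / 2) : ℝ) := by
    rw [← Real.rpow_natCast, ← Real.rpow_mul hx.le]
    norm_num
  calc Real.sqrt (q * q') * S ^ (-(1 / 4) : ℝ) ≤ Real.sqrt (q * q') * (q * q') ^ (-(1 / 2) : ℝ) := by
        rw [← h3]
        gcongr
    _ = 1 := by
        rw [Real.sqrt_eq_rpow, ← Real.rpow_add hx]
        norm_num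

theorem ch_fk_x1_exp {σ τ s N N' y : ℝ} (h1 : 1 ≤ σ) (h2 : σ ≤ 2) (hτ : 0 < τ) (hs : |s| ≤ τ) :
    τ * (N - N') ^ 2 / 5 + 3 * (y - s * N') ^ 2 / (40 * τ) ≤
      τ / σ * τ * (1 : ℝ) ^ 2 * (N - N') ^ 2 / (2 * (τ / σ + τ) * (1 / σ) ^ 2) +
        (τ / σ + τ) / 2 * (y - s * ((τ / σ * N + τ * N') / (τ / σ + τ))) ^ 2 / (4 * (((τ / σ + τ) / 2) ^ 2 + (s * (1 / σ) / (2 * 1)) ^ 2)) := by
  have hσ : 0 < σ := by linarith
  have hs2 : s ^ 2 ≤ τ ^ 2 := sq_le_sq' (by linarith [(abs_le.1 hs).1]) (abs_le.1 hs).2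
  obtain ⟨A, hA⟩ : ∃ A, A = (τ / σ + τ) / 2 := ⟨_, rfl⟩
  obtain ⟨b, hb⟩ : ∃ b, b = s * (1 / σ) / (2 * 1) := ⟨_, rfl⟩
  obtain ⟨nc, hnc⟩ : ∃ nc, nc = (τ / σ * N + τ * N') / (τ / σ + τ) := ⟨_, rfl⟩
  have hτσ : τ / 2 ≤ τ / σ := by gcongr
  have hτσ' : τ / σ ≤ τ := div_le_self hτ.le h1
  have hA1 : 3 * τ / 4 ≤ A := by rw [hA]; linarith
  have hA2 : A ≤ τ := by rw [hA]; linarith
  have hA0 : 0 < A := by linarith
  have hb2 : b ^ 2 ≤ τ ^ 2 / 4 := by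
    have e : b ^ 2 = s ^ 2 / (4 * σ ^ 2) := by rw [hb]; field_simp; ring
    rw [e, div_le_div_iff₀ (by positivity) (by norm_num)]
    have : 1 ≤ σ ^ 2 := one_le_pow₀ h1
    nlinarith [sq_nonneg s, sq_nonneg τ]
  -- velocity coefficient
  have cV : τ / 4 * (N - N') ^ 2 ≤ τ / σ * τ * (1 : ℝ) ^ 2 * (N - N') ^ 2 / (2 * (τ / σ + τ) * (1 / σ) ^ 2) := by
    have e : τ / σ * τ * (1 : ℝ) ^ 2 * (N - N') ^ 2 / (2 * (τ / σ + τ) * (1 / σ) ^ 2) = τ * σ ^ 2 / (2 * (σ + 1)) * (N - N') ^ 2 := by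
      field_simp
      ring
    rw [e]
    refine mul_le_mul_of_nonneg_right ?_ (sq_nonneg _)
    rw [div_le_div_iff₀ (by norm_num) (by positivity)]
    have h9 : σ + 1 ≤ 2 * σ ^ 2 := by nlinarith
    nlinarith
  -- position coefficient
  have cP : 3 / (20 * τ) * (y - s * nc) ^ 2 ≤ A * (y - s * nc) ^ 2 / (4 * (A ^ 2 + b ^ 2)) := by
    rw [mul_div_right_comm]
    refine mul_le_mul_of_nonneg_right ?_ (sq_nonneg _)
    rw [div_le_div_iff₀ (by positivity) (by positivity)]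
    have h5 : A ^ 2 ≤ τ ^ 2 := by gcongr
    nlinarith
  -- the centre
  have hc : (y - s * N') ^ 2 ≤ 2 * (y - s * nc) ^ 2 + τ ^ 2 * (N - N') ^ 2 / 2 := by
    have e1 : nc - N' = (N - N') / (1 + σ) := by
      rw [hnc]
      field_simp
      ring
    have e2 : y - s * N' = (y - s * nc) + s * ((N - N') / (1 + σ)) := by rw [← e1]; ring
    have e3 : (s * ((N - N') / (1 + σ))) ^ 2 ≤ τ ^ 2 * (N - N') ^ 2 / 4 := by
      rw [mul_pow, div_pow]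
      have h6 : (N - N') ^ 2 / (1 + σ) ^ 2 ≤ (N - N') ^ 2 / 4 := by
        gcongr
        nlinarith
      calc s ^ 2 * ((N - N') ^ 2 / (1 + σ) ^ 2) ≤ τ ^ 2 * ((N - N') ^ 2 / 4) := by gcongr
        _ = τ ^ 2 * (N - N') ^ 2 / 4 := by ring
    rw [e2]
    nlinarith [sq_nonneg ((y - s * nc) - s * ((N - N') / (1 + σ)))]
  rw [← hA, ← hb, ← hnc]
  have h7 : 3 * (y - s * N') ^ 2 / (40 * τ) ≤ 3 / (20 * τ) * (y - s * nc) ^ 2 + 3 * τ * (N - N') ^ 2 / 80 := by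
    have e : 3 / (20 * τ) * (y - s * nc) ^ 2 + 3 * τ * (N - N') ^ 2 / 80 = 3 * (2 * (y - s * nc) ^ 2 + τ ^ 2 * (N - N') ^ 2 / 2) / (40 * τ) := by
      field_simp
      ring
    rw [e]
    gcongr
  have h8 : 0 ≤ τ * (N - N') ^ 2 := by positivity
  linarith

theorem ch_fk_x1 {σ : ℝ} (h1 : 1 ≤ σ) (h2 : σ ≤ 2) (n : ℕ) (T t : ℝ) (ht : T ≤ t) (ht' : t ≤ T + (2 : ℝ)⁻¹ ^ n) (ρ' ρ : ℝ × ℝ) :
    ‖chX (chN σ) t n (chB σ) T n ρ' ρ‖ ≤ chM1 ((2 : ℝ)⁻¹ ^ n) (T - t) ρ' ρ := by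
  have hσ : 0 < σ := by linarith
  have hN := ch_fk_okN hσ
  have hB := ch_fk_okB h1 h2
  have hr : (chB σ).sg / (chB σ).H = (chN σ).sg / (chN σ).H := by
    unfold chB chN
    simp
  obtain ⟨τ, hτ⟩ : ∃ τ : ℝ, τ = (2 : ℝ)⁻¹ ^ n := ⟨_, rfl⟩
  have hτ0 : 0 < τ := by rw [hτ]; positivity
  rw [ch_fk_x_abs (chN σ) (chB σ) hN hB hr, ch_fk_qN hσ, ch_fk_qB, ← hτ]
  have hsg : (chN σ).sg = 1 := rfl
  have hH : (chN σ).H = 1 / σ := rfl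
  rw [hsg, hH]
  have hamp : Real.sqrt ((chN σ).q n * (chB σ).q n) * (((τ / σ + τ) / 2) ^ 2 + ((T - t) * (1 / σ) / (2 * 1)) ^ 2) ^ (-(1 / 4) : ℝ) ≤ 1 := by
    refine ch_fk_x_amp (hy_qd _ hN n).1 (hy_qd _ hB n).1 ?_
    rw [ch_fk_qN hσ, ch_fk_qB, ← hτ]
    nlinarith [sq_nonneg ((T - t) * (1 / σ) / (2 * 1))]
  unfold chM1
  refine (mul_le_mul_of_nonneg_right hamp (Real.exp_pos _).le).trans ?_
  rw [one_mul]
  refine Real.exp_le_exp.2 ?_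
  have := ch_fk_x1_exp (σ := σ) (τ := τ) (s := T - t) (N := ρ.2) (N' := ρ'.2) (y := ρ'.1 - ρ.1) h1 h2 hτ0
    (by rw [abs_le]; constructor <;> linarith)
  linarith

theorem ch_fk_x4 {σ : ℝ} (h1 : 1 ≤ σ) (h2 : σ ≤ 2) (ρ' ρ : ℝ × ℝ) :
    ‖chX (chB σ) 0 0 (chN σ) 0 0 ρ' ρ‖ ≤ chM4 ρ' ρ := by
  have hσ : 0 < σ := by linarith
  have hN := ch_fk_okN hσ
  have hB := ch_fk_okB h1 h2
  have hr : (chN σ).sg / (chN σ).H = (chB σ).sg / (chB σ).H := by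
    unfold chB chN
    simp
  rw [ch_fk_x_abs (chB σ) (chN σ) hB hN hr, ch_fk_qN hσ, ch_fk_qB]
  have hsg : (chB σ).sg = σ := rfl
  have hH : (chB σ).H = 1 := rfl
  rw [hsg, hH]
  simp only [pow_zero, sub_self, zero_mul, zero_div, sub_zero]
  have hamp : Real.sqrt ((chB σ).q 0 * (chN σ).q 0) * (((1 + 1 / σ) / 2) ^ 2 + 0 ^ 2) ^ (-(1 / 4) : ℝ) ≤ 1 := by
    refine ch_fk_x_amp (hy_qd _ hB 0).1 (hy_qd _ hN 0).1 ?_
    rw [ch_fk_qN hσ, ch_fk_qB]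
    simp
  unfold chM4
  refine (mul_le_mul_of_nonneg_right hamp (Real.exp_pos _).le).trans ?_
  rw [one_mul]
  refine Real.exp_le_exp.2 ?_
  have c1 : (ρ'.2 - ρ.2) ^ 2 / 4 ≤ 1 * (1 / σ) * σ ^ 2 * (ρ.2 - ρ'.2) ^ 2 / (2 * (1 + 1 / σ) * 1 ^ 2) := by
    have e : 1 * (1 / σ) * σ ^ 2 * (ρ.2 - ρ'.2) ^ 2 / (2 * (1 + 1 / σ) * 1 ^ 2) = σ ^ 2 / (2 * (σ + 1)) * (ρ'.2 - ρ.2) ^ 2 := by
      field_simp
      ring
    rw [e, div_eq_mul_inv, mul_comm]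
    refine mul_le_mul_of_nonneg_right ?_ (sq_nonneg _)
    rw [inv_eq_one_div, div_le_div_iff₀ (by norm_num) (by positivity)]
    nlinarith
  have c2 : (ρ'.1 - ρ.1) ^ 2 / 4 ≤ (1 + 1 / σ) / 2 * (ρ'.1 - ρ.1) ^ 2 / (4 * (((1 + 1 / σ) / 2) ^ 2 + 0 ^ 2)) := by
    have e : (1 + 1 / σ) / 2 * (ρ'.1 - ρ.1) ^ 2 / (4 * (((1 + 1 / σ) / 2) ^ 2 + 0 ^ 2)) = σ / (2 * (σ + 1)) * (ρ'.1 - ρ.1) ^ 2 := by
      field_simp
      ring
    rw [e, div_eq_mul_inv, mul_comm]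
    refine mul_le_mul_of_nonneg_right ?_ (sq_nonneg _)
    rw [inv_eq_one_div, div_le_div_iff₀ (by norm_num) (by positivity)]
    nlinarith
  linarith

end Claimed.Agent.R256
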