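import Claimed.Agent.R256.Hyb.Iso

/-!
# Row 256, folder Chan, block FK = the FREE KERNEL ESTIMATE of the hybrid scalar channel: DEFINITIONS      (architect helper132, chief of Chan helper130; prefix `ch_fk`/`ch`)

EXIT of the block: `ch_fk_fib` (`Chan/Fk/Fib.lean`).   Route: notes/R256/CHAN.md sec.2+4 (helper130), rearranged so that EVERYTHING is said in the fibre calculus of `R256/Hyb` (`HyF.pk/row/kr/tr`).

NORMALISED UNITS: `H = 1`, root frame `(T,k) = (0,0)`, terminal frames `(t,n)`, `τ = 2^-n`.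
* `chB σ = ⟨1, σ⟩`     the fibre of mass `σ ∈ [1,2]` with the frames of `Base/Cyl` (position width² `q² = 2^-k`)
* `chN M = ⟨1/M, 1⟩`   the SAME particle (momentum centre `M N`, dispersion `T u²/(2M)`, row measure `M/(2π) dD dN`) with the NATURAL frames: position width² `2^-k/M`.
                       Natural packets of two particles `σ, σ'` factorise EXACTLY into centre of mass (`M = S = σ+σ'`) and relative mode (`M = m = σσ'/S`).
* `chX`                the kernel between frames of two fibres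
* `ChNice`             strongly measurable, bounded, bounded support
* `chZeta, chE`        `ζ(t) = (1-it)/(1+it)`,  `exp(-|α|²/2 - α² ζ(t)/2)`
* `chPhi M t r x`      position space value at `x` of the natural coherent state `r` (frame `(0,0)`) evolved to the time `t`;   `chPsi M t F x = ∫ chPhi • F dν`
* `chAl M y r`         `α = sqrt(M/2)((D-y) + iN)`;   `chWp M n ρ x` the position space packet of the natural frame of depth `n`;   `chWn n` the weighted norms of the monomials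
* `chZ1, chZ3, chFF`   `(c,r) ↦ z₁ = c + σ'r/S`, `z₃ = c - σ r/S`;  the tensor amplitude in the coordinates `(c,r)`
* `chK A z = (A + |z|²)^(-1/2)`,  `chGs w z = exp(-D²/w²)`,  `chBx a b = 1[|N| ≤ a, |D| ≤ b]`,  `chPair` the pair functional.
-/

set_option autoImplicit false

namespace Claimed.Agent.R256

open MeasureTheory
open scoped ENNReal ComplexConjugate

/-- the fibre of mass `σ` in normalised units, frames of `Base/Cyl` -/
def chB (σ : ℝ) : HyF := ⟨1, σ⟩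

/-- the particle of mass `M` in normalised units, NATURAL frames -/
noncomputable def chN (M : ℝ) : HyF := ⟨1 / M, 1⟩

/-- the kernel from the frame `(T,k)` of `φ` to the frame `(T',k')` of `φ'` -/
noncomputable def chX (φ : HyF) (T : ℝ) (k : ℕ) (φ' : HyF) (T' : ℝ) (k' : ℕ) (ρ' ρ : ℝ × ℝ) : ℂ :=
  ∫ u, φ'.pk T' k' ρ' u * conj (φ.pk T k ρ u)

/-- strongly measurable, bounded, bounded support -/
def ChNice {X E : Type} [MeasurableSpace X] [Norm X] [NormedAddCommGroup E] (F : X → E) : Prop :=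
  StronglyMeasurable F ∧ ∃ B R : ℝ, ∀ x, ‖F x‖ ≤ B ∧ (R < ‖x‖ → F x = 0)

/-- `ζ(t) = (1-it)/(1+it)` -/
noncomputable def chZeta (t : ℝ) : ℂ := (1 - t * Complex.I) / (1 + t * Complex.I)

/-- `exp(-|α|²/2 - α² ζ(t)/2)` -/
noncomputable def chE (t : ℝ) (α : ℂ) : ℂ := Complex.exp (-((‖α‖ ^ 2 / 2 : ℝ) : ℂ) - α ^ 2 * chZeta t / 2)

/-- `α^n exp(-|α|²/2)` -/
noncomputable def chMo (n : ℕ) (α : ℂ) : ℂ := α ^ n * ((Real.exp (-(‖α‖ ^ 2 / 2)) : ℝ) : ℂ)

/-- position space value at `x` of the natural coherent state `r` of mass `M`, evolved to the time `t` -/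
noncomputable def chPhi (M t : ℝ) (r : ℝ × ℝ) (x : ℝ) : ℂ :=
  (((2 * Real.pi) ^ (-(1 / 2) : ℝ) : ℝ) : ℂ) *
    ∫ u : ℝ, Complex.exp (Complex.I * ((u * x - t * u ^ 2 / (2 * M) : ℝ) : ℂ)) * conj ((chN M).pk 0 0 r u)

/-- the exponent of `chPhi` divided by `M` -/
noncomputable def chQ (t : ℝ) (r : ℝ × ℝ) (x : ℝ) : ℂ :=
  -((x - r.1 - t * r.2 : ℝ) : ℂ) ^ 2 / (2 * (1 + t * Complex.I)) + Complex.I * ((r.2 * x : ℝ) : ℂ) - Complex.I * ((t * r.2 ^ 2 / 2 : ℝ) : ℂ)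

/-- the complex coordinate `α = sqrt(M/2) ((D - y) + i N)` of the natural frame of mass `M`, centred at the position `y` -/
noncomputable def chAl (M y : ℝ) (r : ℝ × ℝ) : ℂ := ((Real.sqrt (M / 2) : ℝ) : ℂ) * (((r.1 - y : ℝ) : ℂ) + ((r.2 : ℝ) : ℂ) * Complex.I)

/-- the inverse of `chAl M y` -/
noncomputable def chAlInv (M y : ℝ) (α : ℂ) : ℝ × ℝ := (y + α.re / Real.sqrt (M / 2), α.im / Real.sqrt (M / 2))

/-- the (unnormalised) position space packet of the natural frame of depth `n`: `exp(-(x-D)²/(2q²)) e^{-iMNx}`, `q² = 2^-n/M` -/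
noncomputable def chWp (M : ℝ) (n : ℕ) (ρ : ℝ × ℝ) (x : ℝ) : ℂ :=
  ((Real.exp (-((x - ρ.1) ^ 2 / (2 * ((2 : ℝ)⁻¹ ^ n / M)))) : ℝ) : ℂ) * Complex.exp (-(Complex.I * ((M * ρ.2 * x : ℝ) : ℂ)))

/-- `∫ (1+|α|²)^(1/2) |α|^(2n) e^(-|α|²) dα` -/
noncomputable def chWn (n : ℕ) : ℝ := ∫ α : ℂ, (1 + ‖α‖ ^ 2) ^ (1 / 2 : ℝ) * ‖chMo n α‖ ^ 2

/-- `(c,r) ↦ z₁` -/
noncomputable def chZ1 (σ σ' : ℝ) (c r : ℝ × ℝ) : ℝ × ℝ := c + (σ' / (σ + σ')) • r

/-- `(c,r) ↦ z₃` -/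
noncomputable def chZ3 (σ σ' : ℝ) (c r : ℝ × ℝ) : ℝ × ℝ := c - (σ / (σ + σ')) • r

/-- the reduced mass -/
noncomputable def chRm (σ σ' : ℝ) : ℝ := σ * σ' / (σ + σ')

/-- `(A + |z|²)^(-1/2)` -/
noncomputable def chK (A : ℝ) (z : ℝ × ℝ) : ℝ≥0∞ := ENNReal.ofReal ((A + z.1 ^ 2 + z.2 ^ 2) ^ (-(1 / 2) : ℝ))

/-- `exp(-D²/w²)` -/
noncomputable def chGs (w : ℝ) (z : ℝ × ℝ) : ℝ≥0∞ := ENNReal.ofReal (Real.exp (-(z.1 ^ 2 / w ^ 2)))

/-- `1[|N| ≤ a, |D| ≤ b]` -/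
noncomputable def chBx (a b : ℝ) (z : ℝ × ℝ) : ℝ≥0∞ := ({z : ℝ × ℝ | |z.2| ≤ a ∧ |z.1| ≤ b}).indicator (fun _ => 1) z

section vec

variable {E : Type} [NormedAddCommGroup E]

/-- the pair functional `∫∫ W(ρ-ρ') ‖R ρ‖² ‖R' ρ'‖² dν' dν` -/
noncomputable def chPair (ν ν' : Measure (ℝ × ℝ)) (W : ℝ × ℝ → ℝ≥0∞) (R R' : ℝ × ℝ → E) : ℝ≥0∞ :=
  ∫⁻ ρ, ∫⁻ ρ', W (ρ - ρ') * (‖R ρ‖ₑ ^ 2 * ‖R' ρ'‖ₑ ^ 2) ∂ν' ∂ν

/-- position space wave function of the superposition `∫ F(r) φ_r dν` at the time `t` -/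
noncomputable def chPsi [NormedSpace ℂ E] (M t : ℝ) (F : ℝ × ℝ → E) (x : ℝ) : E := ∫ r, chPhi M t r x • F r ∂(chN M).nu

/-- the tensor amplitude in the coordinates `(c,r)` -/
noncomputable def chFF [InnerProductSpace ℂ E] (σ σ' : ℝ) (F F' : ℝ × ℝ → E) (c r : ℝ × ℝ) : HyT E :=
  hyTen E (F (chZ1 σ σ' c r)) (F' (chZ3 σ σ' c r))

/-- truncation of a row function -/
noncomputable def chTr (R : ℕ) (F : ℝ × ℝ → E) : ℝ × ℝ → E := ({z : ℝ × ℝ | ‖z‖ ≤ R ∧ ‖F z‖ ≤ R}).indicator F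

end vec

theorem ch_fk_defs_eqns_cite : True := by
  have := @chB.eq_1
  have := @chN.eq_1
  have := @chX.eq_1
  have := @ChNice.eq_1
  have := @chZeta.eq_1
  have := @chE.eq_1
  have := @chMo.eq_1
  have := @chPhi.eq_1
  have := @chQ.eq_1
  have := @chAl.eq_1
  have := @chAlInv.eq_1
  have := @chWp.eq_1
  have := @chWn.eq_1
  have := @chZ1.eq_1
  have := @chZ3.eq_1
  have := @chRm.eq_1
  have := @chK.eq_1
  have := @chGs.eq_1
  have := @chBx.eq_1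
  have := @chPair.eq_1
  have := @chPsi.eq_1
  have := @chFF.eq_1
  have := @chTr.eq_1
  trivial

end Claimed.Agent.R256
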