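import Claimed.Agent.R256.Chan.Fk.Basic

/-!
# Row 256, Chan/Fk, NORMALISATION, leaves L-256-FK-NRM1 (`ch_fk_nrm_row`, `ch_fk_nrm_memLp`) and L-256-FK-NRM2 (`ch_fk_nrm_pair`, `ch_fk_nrm_bx`, `ch_fk_nrm_K`)      (architect helper132; prefix `ch_fk_`)

A fibre `φ = (H,σ)` seen from the root frame `(T0,k0)`:  `q0 = φ.q k0`, `d0 = φ.d k0`  (`q0 d0 = H`, `q0 = 2^-k0 d0`, `q0² = H 2^-k0`: `hy_qd`),  `u = v/q0`, `D = q0 D'`, `N = d0 N'`, `T = T0 + 2^-k0 t`.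
NRM1.  `pk_φ T (k0+j) (D,N) (v/q0) = q0^(1/2) e^{-i T0 H (v/q0)²/(2σ)} pk_{chB σ} t j (D',N') v`:
   `q(k0+j)² = q0² 2^-j`;  `q(k0+j)² (u - σN/H)² = 2^-j (v - σN')²` (`q0/H = 1/d0`);  `(u - σN/H) D = (v - σN') D'`;  `T H u²/(2σ) = T 2^k0 v²/(2σ)`;   amplitude `(q0² 2^-j/π)^(1/4) = q0^(1/2) (2^-j/π)^(1/4)`.
   `∫ F(u) du = q0⁻¹ ∫ F(v/q0) dv` (`integral_comp_div`/`Measure.integral_comp_div`).    `‖chNg g v‖² = q0⁻¹ ‖g (v/q0)‖²`: `MemLp` by `MemLp.comp_measurePreserving`-free route: `memLp_two_iff_integrable_sq_norm` + `Integrable.comp_div`.   ~300 l.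
NRM2.  `ν_φ = σ/(2πH) dD dN = σ/(2π) dD' dN'`: the map `ρ ↦ (ρ.1/q0, ρ.2/d0)` pushes `ν_φ` to `ν_{chB σ}` (product of two scalings of `ℝ`: `Real.map_volume_mul_left`, `Measure.map_prod_map`, or Tonelli + `lintegral_comp_mul_left`-type lemmas); it is a measurable equivalence, so no measurability of `W, R, R'` is needed
   (`MeasurableEquiv`/`MeasurableEmbedding.lintegral_map`).     `ch_fk_nrm_bx`, `ch_fk_nrm_K`: elementary (`div_le_iff₀`, `abs_div`, `Real.mul_rpow`, `Real.rpow_neg`, `Real.sqrt`).   ~350 l.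
-/

set_option autoImplicit false

namespace Claimed.Agent.R256

open MeasureTheory
open scoped ENNReal ComplexConjugate

/-- the state in normalised units -/
noncomputable def chNg {E : Type} [NormedAddCommGroup E] [NormedSpace ℂ E] (φ : HyF) (T0 : ℝ) (k0 : ℕ) (g : ℝ → E) (v : ℝ) : E :=
  ((((φ.q k0) ^ (-(1 / 2) : ℝ) : ℝ) : ℂ) * Complex.exp (-(Complex.I * ((T0 * φ.H * (v / φ.q k0) ^ 2 / (2 * φ.sg) : ℝ) : ℂ)))) • g (v / φ.q k0)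

/-- rows in normalised units -/
noncomputable def chNr (φ : HyF) (k0 : ℕ) (ρ : ℝ × ℝ) : ℝ × ℝ := (ρ.1 / φ.q k0, ρ.2 / φ.d k0)

theorem ch_fk_nrm_eqns_cite : True := by
  have := @chNg.eq_1
  have := @chNr.eq_1
  trivial

section vec

variable {E : Type} [NormedAddCommGroup E] [NormedSpace ℂ E]

/-- the packet identity -/
theorem ch_fk_nrm_pk (φ : HyF) (h : φ.Ok) (T0 : ℝ) (k0 : ℕ) (T : ℝ) (j : ℕ) (ρ : ℝ × ℝ) (v : ℝ) :
    φ.pk T (k0 + j) ρ (v / φ.q k0) = ((((φ.q k0) ^ (1 / 2 : ℝ) : ℝ) : ℂ) * Complex.exp (-(Complex.I * ((T0 * φ.H * (v / φ.q k0) ^ 2 / (2 * φ.sg) : ℝ) : ℂ))))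
      * (chB φ.sg).pk ((T - T0) * 2 ^ k0) j (chNr φ k0 ρ) v := by
  obtain ⟨hq, hd, hqd, -, hq2, hd2⟩ := hy_qd φ h k0
  obtain ⟨-, -, -, -, hq2', -⟩ := hy_qd φ h (k0 + j)
  have hH := h.H_pos
  have hs : 0 < φ.sg := by linarith [h.sg_lo]
  have hpi := Real.pi_pos
  rw [ch_fk_pkB]
  unfold HyF.pk chNr
  have a1 : (φ.q (k0 + j) ^ 2 / Real.pi) ^ (1 / 4 : ℝ) = (φ.q k0) ^ (1 / 2 : ℝ) * ((2 : ℝ)⁻¹ ^ j / Real.pi) ^ (1 / 4 : ℝ) := by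
    have e : φ.q (k0 + j) ^ 2 / Real.pi = φ.q k0 ^ 2 * ((2 : ℝ)⁻¹ ^ j / Real.pi) := by
      rw [hq2', hq2, pow_add]
      ring
    rw [e, Real.mul_rpow (by positivity) (by positivity), ← Real.rpow_natCast (φ.q k0) 2, ← Real.rpow_mul hq.le]
    norm_num
  have e0 : v - φ.sg * (ρ.2 / φ.d k0) = φ.q k0 * (v / φ.q k0 - φ.sg * ρ.2 / φ.H) := by
    rw [← hqd]
    field_simp
  have a2 : φ.q (k0 + j) ^ 2 * (v / φ.q k0 - φ.sg * ρ.2 / φ.H) ^ 2 / 2 = (2 : ℝ)⁻¹ ^ j * (v - φ.sg * (ρ.2 / φ.d k0)) ^ 2 / 2 := by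
    rw [e0, hq2', mul_pow, hq2, pow_add]
    ring
  have hP : (2 : ℝ) ^ k0 = φ.H / φ.q k0 ^ 2 := by
    rw [hq2, inv_pow]
    field_simp
  have a3 : (v / φ.q k0 - φ.sg * ρ.2 / φ.H) * ρ.1 - T * φ.H * (v / φ.q k0) ^ 2 / (2 * φ.sg)
      = -(T0 * φ.H * (v / φ.q k0) ^ 2 / (2 * φ.sg)) + ((v - φ.sg * (ρ.2 / φ.d k0)) * (ρ.1 / φ.q k0) - (T - T0) * 2 ^ k0 * v ^ 2 / (2 * φ.sg)) := by
    rw [e0, hP]
    field_simp
    ring
  simp only []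
  rw [a1, a2, a3]
  push_cast
  rw [mul_add, Complex.exp_add]
  ring_nf

theorem ch_fk_nrm_row (φ : HyF) (h : φ.Ok) (T0 : ℝ) (k0 : ℕ) (g : ℝ → E) (T : ℝ) (j : ℕ) (ρ : ℝ × ℝ) :
    φ.row T (k0 + j) g ρ = (chB φ.sg).row ((T - T0) * 2 ^ k0) j (chNg φ T0 k0 g) (chNr φ k0 ρ) := by
  obtain ⟨hq, -, -, -, -, -⟩ := hy_qd φ h k0
  unfold HyF.row
  have e := MeasureTheory.Measure.integral_comp_div (fun u => φ.pk T (k0 + j) ρ u • g u) (φ.q k0)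
  have e1 : ∫ u, φ.pk T (k0 + j) ρ u • g u = (φ.q k0)⁻¹ • ∫ v, φ.pk T (k0 + j) ρ (v / φ.q k0) • g (v / φ.q k0) := by
    rw [e, abs_of_pos hq, smul_smul, inv_mul_cancel₀ hq.ne', one_smul]
  rw [e1, ← integral_smul]
  refine integral_congr_ae (Filter.Eventually.of_forall fun v => ?_)
  simp only []
  rw [ch_fk_nrm_pk φ h T0]
  unfold chNg
  rw [← Complex.coe_smul, smul_smul, smul_smul]
  congr 1
  have e2 : (φ.q k0) ^ (-(1 / 2) : ℝ) = (φ.q k0)⁻¹ * (φ.q k0) ^ (1 / 2 : ℝ) := by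
    rw [← Real.rpow_neg_one, ← Real.rpow_add hq]
    norm_num
  rw [e2]
  push_cast
  ring

theorem ch_fk_nrm_memLp (φ : HyF) (h : φ.Ok) (T0 : ℝ) (k0 : ℕ) (g : ℝ → E) (hg : MemLp g 2 volume) : MemLp (chNg φ T0 k0 g) 2 volume := by
  obtain ⟨hq, -, -, -, -, -⟩ := hy_qd φ h k0
  have hm : Measurable fun v : ℝ => v / φ.q k0 := measurable_id.div_const _
  have h1 : MemLp (fun v : ℝ => g (v / φ.q k0)) 2 volume := by
    have hmap : Measure.map (fun v : ℝ => v / φ.q k0) volume = ENNReal.ofReal |φ.q k0| • (volume : Measure ℝ) := by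
      have := Real.map_volume_mul_right (a := (φ.q k0)⁻¹) (inv_ne_zero hq.ne')
      rw [inv_inv] at this
      simpa only [div_eq_mul_inv] using this
    have h2 : MemLp g 2 (Measure.map (fun v : ℝ => v / φ.q k0) volume) := by
      rw [hmap]
      exact hg.smul_measure ENNReal.ofReal_ne_top
    exact h2.comp_of_map hm.aemeasurable
  have hc : Continuous fun v : ℝ => (((φ.q k0) ^ (-(1 / 2) : ℝ) : ℝ) : ℂ) * Complex.exp (-(Complex.I * ((T0 * φ.H * (v / φ.q k0) ^ 2 / (2 * φ.sg) : ℝ) : ℂ))) := by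
    fun_prop
  refine h1.of_le_mul (c := (φ.q k0) ^ (-(1 / 2) : ℝ)) (hc.aestronglyMeasurable.smul h1.1) (Filter.Eventually.of_forall fun v => ?_)
  unfold chNg
  rw [norm_smul, norm_mul, Complex.norm_real, Real.norm_of_nonneg (Real.rpow_pos_of_pos hq _).le]
  have : ‖Complex.exp (-(Complex.I * ((T0 * φ.H * (v / φ.q k0) ^ 2 / (2 * φ.sg) : ℝ) : ℂ)))‖ = 1 := by
    rw [← mul_neg, ← Complex.ofReal_neg, Complex.norm_exp_I_mul_ofReal]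
  rw [this, mul_one]

/-- the scaling of the rows is a measurable embedding -/
theorem ch_fk_nrm_emb (φ : HyF) (h : φ.Ok) (k0 : ℕ) : MeasurableEmbedding (chNr φ k0) := by
  obtain ⟨hq, hd, -, -, -, -⟩ := hy_qd φ h k0
  refine Continuous.measurableEmbedding ?_ ?_
  · unfold chNr
    fun_prop
  · intro a b hab
    unfold chNr at hab
    rw [Prod.mk.injEq, div_left_inj' hq.ne', div_left_inj' hd.ne'] at hab
    exact Prod.ext hab.1 hab.2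

/-- the scaling of the rows pushes `ν_φ` to `ν_{chB σ}` -/
theorem ch_fk_nrm_map (φ : HyF) (h : φ.Ok) (k0 : ℕ) : Measure.map (chNr φ k0) φ.nu = (chB φ.sg).nu := by
  obtain ⟨hq, hd, hqd, -, -, -⟩ := hy_qd φ h k0
  have hH := h.H_pos
  have hs : 0 < φ.sg := by linarith [h.sg_lo]
  have hmap : ∀ a : ℝ, 0 < a → Measure.map (fun v : ℝ => v / a) volume = ENNReal.ofReal a • (volume : Measure ℝ) := by
    intro a ha
    have := Real.map_volume_mul_right (a := a⁻¹) (inv_ne_zero ha.ne')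
    rw [inv_inv, abs_of_pos ha] at this
    simpa only [div_eq_mul_inv] using this
  have e1 : chNr φ k0 = Prod.map (fun v : ℝ => v / φ.q k0) (fun v : ℝ => v / φ.d k0) := rfl
  have e2 : Measure.map (chNr φ k0) (volume : Measure (ℝ × ℝ)) = ENNReal.ofReal φ.H • (volume : Measure (ℝ × ℝ)) := by
    have m1 : Measurable fun v : ℝ => v / φ.q k0 := measurable_id.div_const _
    have m2 : Measurable fun v : ℝ => v / φ.d k0 := measurable_id.div_const _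
    rw [e1, Measure.volume_eq_prod, ← Measure.map_prod_map _ _ m1 m2, hmap _ hq, hmap _ hd,
      Measure.prod_smul_left, Measure.prod_smul_right, smul_smul, ← ENNReal.ofReal_mul hq.le, hqd]
  unfold HyF.nu
  rw [Measure.map_smul, e2, smul_smul, ← ENNReal.ofReal_mul (by positivity)]
  congr 2
  unfold chB
  field_simp

theorem ch_fk_nrm_pair (φ φ' : HyF) (h : φ.Ok) (h' : φ'.Ok) (hH : φ'.H = φ.H) (k0 : ℕ) (W : ℝ × ℝ → ℝ≥0∞) (R R' : ℝ × ℝ → E) :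
    chPair φ.nu φ'.nu (fun z => W (chNr φ k0 z)) (fun ρ => R (chNr φ k0 ρ)) (fun ρ => R' (chNr φ' k0 ρ)) =
      chPair (chB φ.sg).nu (chB φ'.sg).nu W R R' := by
  have e0 : chNr φ' k0 = chNr φ k0 := by
    funext ρ
    unfold chNr HyF.q HyF.d
    rw [hH]
  have e1 : ∀ ρ ρ' : ℝ × ℝ, chNr φ k0 (ρ - ρ') = chNr φ k0 ρ - chNr φ' k0 ρ' := by
    intro ρ ρ'
    rw [e0]
    unfold chNr
    ext1
    · simp [sub_div]
    · simp [sub_div]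
  unfold chPair
  rw [← ch_fk_nrm_map φ h k0, ← ch_fk_nrm_map φ' h' k0, (ch_fk_nrm_emb φ h k0).lintegral_map]
  refine lintegral_congr fun ρ => ?_
  rw [(ch_fk_nrm_emb φ' h' k0).lintegral_map]
  refine lintegral_congr fun ρ' => ?_
  simp only []
  rw [e1]

end vec

theorem ch_fk_nrm_bx (φ : HyF) (h : φ.Ok) (k0 n : ℕ) (f : ℝ) (z : ℝ × ℝ) :
    chBx (2 * f) (2 * ((2 : ℝ)⁻¹ ^ (k0 + n) * f)) z = chBx (2 * (f / φ.d k0)) (2 * ((2 : ℝ)⁻¹ ^ n * (f / φ.d k0))) (chNr φ k0 z) := by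
  obtain ⟨hq, hd, -, hqd, -, -⟩ := hy_qd φ h k0
  unfold chBx chNr
  have e : (|z.2| ≤ 2 * f ∧ |z.1| ≤ 2 * ((2 : ℝ)⁻¹ ^ (k0 + n) * f)) ↔
      (|z.2 / φ.d k0| ≤ 2 * (f / φ.d k0) ∧ |z.1 / φ.q k0| ≤ 2 * ((2 : ℝ)⁻¹ ^ n * (f / φ.d k0))) := by
    rw [abs_div, abs_div, abs_of_pos hd, abs_of_pos hq, div_le_iff₀ hd, div_le_iff₀ hq]
    have e1 : 2 * (f / φ.d k0) * φ.d k0 = 2 * f := by field_simp
    have e2 : 2 * ((2 : ℝ)⁻¹ ^ n * (f / φ.d k0)) * φ.q k0 = 2 * ((2 : ℝ)⁻¹ ^ (k0 + n) * f) := by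
      rw [hqd, pow_add]
      field_simp
    rw [e1, e2]
  by_cases hz : |z.2| ≤ 2 * f ∧ |z.1| ≤ 2 * ((2 : ℝ)⁻¹ ^ (k0 + n) * f)
  · rw [Set.indicator_of_mem (by exact hz), Set.indicator_of_mem (by exact e.1 hz)]
  · rw [Set.indicator_of_notMem (by exact hz), Set.indicator_of_notMem (by exact fun hh => hz (e.2 hh))]

theorem ch_fk_nrm_K (φ : HyF) (h : φ.Ok) (k0 n : ℕ) (f : ℝ) (z : ℝ × ℝ) :
    chK (max 1 (((2 : ℝ)⁻¹ ^ n * (f / φ.d k0)) ^ 2)) (chNr φ k0 z) =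
      ENNReal.ofReal (φ.d k0) * chK (max (φ.d k0 ^ 2) (((2 : ℝ)⁻¹ ^ n * f) ^ 2)) (2 ^ k0 * z.1, z.2) := by
  obtain ⟨hq, hd, -, hqd, -, -⟩ := hy_qd φ h k0
  unfold chK chNr
  rw [← ENNReal.ofReal_mul hd.le]
  congr 1
  have hA : 0 < max (φ.d k0 ^ 2) (((2 : ℝ)⁻¹ ^ n * f) ^ 2) := lt_max_of_lt_left (by positivity)
  have hS : 0 < max (φ.d k0 ^ 2) (((2 : ℝ)⁻¹ ^ n * f) ^ 2) + (2 ^ k0 * z.1) ^ 2 + z.2 ^ 2 := by positivity
  have e1 : max 1 (((2 : ℝ)⁻¹ ^ n * (f / φ.d k0)) ^ 2) = (φ.d k0 ^ 2)⁻¹ * max (φ.d k0 ^ 2) (((2 : ℝ)⁻¹ ^ n * f) ^ 2) := by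
    rw [mul_max_of_nonneg _ _ (by positivity : (0 : ℝ) ≤ (φ.d k0 ^ 2)⁻¹), inv_mul_cancel₀ (by positivity)]
    congr 1
    field_simp
  have e2 : max 1 (((2 : ℝ)⁻¹ ^ n * (f / φ.d k0)) ^ 2) + (z.1 / φ.q k0) ^ 2 + (z.2 / φ.d k0) ^ 2
      = (φ.d k0 ^ 2)⁻¹ * (max (φ.d k0 ^ 2) (((2 : ℝ)⁻¹ ^ n * f) ^ 2) + (2 ^ k0 * z.1) ^ 2 + z.2 ^ 2) := by
    obtain ⟨A, hAd⟩ : ∃ A : ℝ, A = max (φ.d k0 ^ 2) (((2 : ℝ)⁻¹ ^ n * f) ^ 2) := ⟨_, rfl⟩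
    obtain ⟨P, hPd⟩ : ∃ P : ℝ, P = (2 : ℝ) ^ k0 := ⟨_, rfl⟩
    have hP0 : 0 < P := by rw [hPd]; positivity
    rw [e1, hqd, ← hAd, inv_pow, ← hPd]
    field_simp
  simp only []
  rw [e2, Real.mul_rpow (by positivity) hS.le]
  congr 1
  rw [← Real.rpow_natCast (φ.d k0) 2, ← Real.rpow_neg hd.le, ← Real.rpow_mul hd.le]
  norm_num

end Claimed.Agent.R256
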