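import Claimed.Agent.R256.Chan.Fk.Norm
import Claimed.Agent.R256.Chan.Fk.Nrm

/-!
# Row 256, Chan/Fk: EXIT OF THE BLOCK FK = THE FREE KERNEL ESTIMATE ON TWO FIBRES      (architect helper132; prefix `ch_fk_`)      GLUE

Two fibres `φ = (H,σ)`, `φ' = (H,σ')`, states `g, g' ∈ L²(ℝ; E)` (momentum representation, pulled back to the time `0` as everywhere), root frame `(T0,k0)`, `ℓ0 = 2^-k0`, terminal frames `(T0 + j ℓ0 τ, k0+n)`, `τ = 2^-n`, `j < 2^n`;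
one width `f ≥ d_{ℓ0 τ}`:
   `∑_j ∫∫ 1[|ΔN| ≤ 2f, |ΔD| ≤ 2 ℓ0 τ f] ‖row_j g ρ‖² ‖row_j g' ρ'‖² dν' dν  ≤  C (1 + log⁺(τ f/d_{ℓ0})) f ∫∫ (max(d_{ℓ0}², τ²f²) + ΔN² + (ΔD/ℓ0)²)^(-1/2) ‖row_0 g ρ‖² ‖row_0 g' ρ'‖² dν' dν`.
No shear: a common shear `(a,b)` per fibre is removed by the Weyl translation of `g` (helper130).   No masks.   `C` absolute.
-/

set_option autoImplicit false

namespace Claimed.Agent.R256

open MeasureTheory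
open scoped ENNReal ComplexConjugate

theorem ch_fk_pair_const {E : Type} [NormedAddCommGroup E] (ν ν' : Measure (ℝ × ℝ)) (c : ℝ≥0∞) (hc : c ≠ ⊤) (W : ℝ × ℝ → ℝ≥0∞) (R R' : ℝ × ℝ → E) :
    chPair ν ν' (fun z => c * W z) R R' = c * chPair ν ν' W R R' := by
  unfold chPair
  rw [← lintegral_const_mul' _ _ hc]
  refine lintegral_congr fun ρ => ?_
  rw [← lintegral_const_mul' _ _ hc]
  refine lintegral_congr fun ρ' => ?_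
  rw [mul_assoc]

/-- **FK on two fibres** -/
theorem ch_fk_fib : ∃ C : ℝ, 0 < C ∧ ∀ (E : Type) [NormedAddCommGroup E] [InnerProductSpace ℂ E] [CompleteSpace E] (φ φ' : HyF),
    φ.Ok → φ'.Ok → φ'.H = φ.H → ∀ g g' : ℝ → E, MemLp g 2 volume → MemLp g' 2 volume → ∀ (T0 : ℝ) (k0 n : ℕ) (f : ℝ), φ.d (k0 + n) ≤ f →
    ∑ j ∈ Finset.range (2 ^ n), chPair φ.nu φ'.nu (chBx (2 * f) (2 * ((2 : ℝ)⁻¹ ^ (k0 + n) * f)))
        (φ.row (T0 + (j : ℝ) * (2 : ℝ)⁻¹ ^ (k0 + n)) (k0 + n) g) (φ'.row (T0 + (j : ℝ) * (2 : ℝ)⁻¹ ^ (k0 + n)) (k0 + n) g') ≤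
      ENNReal.ofReal (C * f * (1 + Real.log (max 1 ((2 : ℝ)⁻¹ ^ n * f / φ.d k0)))) *
        chPair φ.nu φ'.nu (fun z => chK (max (φ.d k0 ^ 2) (((2 : ℝ)⁻¹ ^ n * f) ^ 2)) (2 ^ k0 * z.1, z.2)) (φ.row T0 k0 g) (φ'.row T0 k0 g') := by
  obtain ⟨C, hC, H⟩ := ch_fk_norm
  refine ⟨C, hC, ?_⟩
  intro E _ _ _ φ φ' h h' hH g g' hg hg' T0 k0 n f hf
  obtain ⟨hq, hd, hqd, hql, hq2, hd2⟩ := hy_qd φ h k0
  obtain ⟨-, hdn, -, -, -, hdn2⟩ := hy_qd φ h (k0 + n)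
  have hf0 : 0 < f := lt_of_lt_of_le hdn hf
  set d0 := φ.d k0 with hd0
  have hfn0 : 0 < f / d0 := by positivity
  have hfn : 1 ≤ (2 : ℝ)⁻¹ ^ n * (f / d0) ^ 2 := by
    have e1 : φ.d (k0 + n) ^ 2 ≤ f ^ 2 := pow_le_pow_left₀ hdn.le hf 2
    rw [hdn2, pow_add, ← mul_assoc, ← hd2] at e1
    rw [div_pow, inv_pow, ← div_eq_inv_mul, div_div, le_div_iff₀ (by positivity), one_mul]
    linarith
  have key := H E φ.sg φ'.sg h.sg_lo h.sg_hi h'.sg_lo h'.sg_hi (chNg φ T0 k0 g) (chNg φ' T0 k0 g')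
    (ch_fk_nrm_memLp φ h T0 k0 g hg) (ch_fk_nrm_memLp φ' h' T0 k0 g' hg') n (f / d0) hfn0 hfn
  -- the left side
  have eL : ∀ j : ℕ, chPair φ.nu φ'.nu (chBx (2 * f) (2 * ((2 : ℝ)⁻¹ ^ (k0 + n) * f)))
        (φ.row (T0 + (j : ℝ) * (2 : ℝ)⁻¹ ^ (k0 + n)) (k0 + n) g) (φ'.row (T0 + (j : ℝ) * (2 : ℝ)⁻¹ ^ (k0 + n)) (k0 + n) g') =
      chPair (chB φ.sg).nu (chB φ'.sg).nu (chBx (2 * (f / d0)) (2 * ((2 : ℝ)⁻¹ ^ n * (f / d0))))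
        ((chB φ.sg).row ((j : ℝ) * (2 : ℝ)⁻¹ ^ n) n (chNg φ T0 k0 g)) ((chB φ'.sg).row ((j : ℝ) * (2 : ℝ)⁻¹ ^ n) n (chNg φ' T0 k0 g')) := by
    intro j
    have et : (T0 + (j : ℝ) * (2 : ℝ)⁻¹ ^ (k0 + n) - T0) * 2 ^ k0 = (j : ℝ) * (2 : ℝ)⁻¹ ^ n := by
      have : (2 : ℝ)⁻¹ ^ k0 * 2 ^ k0 = 1 := by rw [← mul_pow]; norm_num
      rw [pow_add]
      linear_combination (j : ℝ) * (2 : ℝ)⁻¹ ^ n * this
    rw [← ch_fk_nrm_pair φ φ' h h' hH k0]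
    congr 1
    · funext z
      exact ch_fk_nrm_bx φ h k0 n f z
    · funext ρ
      rw [ch_fk_nrm_row φ h T0 k0 g _ n ρ, et]
    · funext ρ
      rw [ch_fk_nrm_row φ' h' T0 k0 g' _ n ρ, et]
  -- the right side
  have eR : chPair (chB φ.sg).nu (chB φ'.sg).nu (chK (max 1 (((2 : ℝ)⁻¹ ^ n * (f / d0)) ^ 2)))
        ((chB φ.sg).row 0 0 (chNg φ T0 k0 g)) ((chB φ'.sg).row 0 0 (chNg φ' T0 k0 g')) =
      ENNReal.ofReal d0 * chPair φ.nu φ'.nu (fun z => chK (max (d0 ^ 2) (((2 : ℝ)⁻¹ ^ n * f) ^ 2)) (2 ^ k0 * z.1, z.2))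
        (φ.row T0 k0 g) (φ'.row T0 k0 g') := by
    rw [← ch_fk_nrm_pair φ φ' h h' hH k0, ← ch_fk_pair_const _ _ _ ENNReal.ofReal_ne_top]
    congr 1
    · funext z
      exact ch_fk_nrm_K φ h k0 n f z
    · funext ρ
      have := ch_fk_nrm_row φ h T0 k0 g T0 0 ρ
      rw [sub_self, zero_mul] at this
      exact this.symm
    · funext ρ
      have := ch_fk_nrm_row φ' h' T0 k0 g' T0 0 ρ
      rw [sub_self, zero_mul] at this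
      exact this.symm
  simp only [eL]
  refine key.trans (le_of_eq ?_)
  rw [eR, ← mul_assoc, ← ENNReal.ofReal_mul]
  · congr 2
    have : (2 : ℝ)⁻¹ ^ n * (f / d0) = (2 : ℝ)⁻¹ ^ n * f / d0 := by ring
    rw [this]
    field_simp
  · have : 0 ≤ Real.log (max 1 ((2 : ℝ)⁻¹ ^ n * (f / d0))) := Real.log_nonneg (le_max_left _ _)
    positivity

end Claimed.Agent.R256
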