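import Claimed.Agent.R256.Chan.Fk.KlOrth

/-!
# Row 256, Chan/Fk, KEY LEMMA, leaf L-256-FK-KL5: WEIGHTED VECTOR BESSEL      (architect helper132; prefix `ch_kl_`)

PLAN.  `hy_bessel` (`Hyb/Tool.lean`, PROVED) with `Y = ℂ`, `μ = volume`, `Z = ℕ`, `ζ = Measure.count`, `L = 1`,
`k n α = chMo n α * (1+|α|²)^(1/4) / sqrt (chWn n)`,   `a α = (1+|α|²)^(-1/4) • F α`.
* `k n ∈ L²`: `‖k n α‖² = (1+|α|²)^(1/2) ‖chMo n α‖² / chWn n`, integrable by `ch_kl_mo_norm`.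
* Gram kernel: `∫ k n conj (k n') = [n = n']` (`ch_kl_mo_orth` with `ρ s = (1+s²)^(1/2)/sqrt(W_n W_n')`; definition of `chWn`), so `∫⁻ n', ‖·‖ₑ ∂count = ∑' = 1` (`lintegral_count`, `tsum_eq_single`).
* `∫ k n α • a α = (1/sqrt W_n) • ∫ chMo n α • F α`;   `‖a α‖ₑ² = ofReal ((1+|α|²)^(-1/2)) ‖F α‖ₑ²`;  `a ∈ L²` since `‖a‖ ≤ ‖F‖`.
* measurability of `uncurry k` on `ℕ × ℂ`: `measurable_from_prod_countable_right`/`measurable_from_prod_countable'`.   ~250 l.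
-/

set_option autoImplicit false

namespace Claimed.Agent.R256

open MeasureTheory
open scoped ENNReal ComplexConjugate

variable {E : Type} [NormedAddCommGroup E] [InnerProductSpace ℂ E] [CompleteSpace E]

/-- the normalised weighted monomials -/
noncomputable def chKlK (n : ℕ) (α : ℂ) : ℂ := chMo n α * (((1 + ‖α‖ ^ 2) ^ (1 / 4 : ℝ) / Real.sqrt (chWn n) : ℝ) : ℂ)

theorem ch_kl_bes_eqns_cite : True := by
  have := @chKlK.eq_1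
  trivial

theorem ch_kl_bes_x_pos (α : ℂ) : (0 : ℝ) < 1 + ‖α‖ ^ 2 := by positivity

theorem ch_kl_bes_rpow_cont (r : ℝ) : Continuous fun α : ℂ => (1 + ‖α‖ ^ 2) ^ r :=
  Continuous.rpow_const (by fun_prop) fun α => Or.inl (ch_kl_bes_x_pos α).ne'

theorem ch_kl_bes_k_cont (n : ℕ) : Continuous (chKlK n) := by
  unfold chKlK
  exact (ch_kl_mo_cont n).mul (Complex.continuous_ofReal.comp ((ch_kl_bes_rpow_cont _).div_const _))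

/-- products of two normalised monomials -/
theorem ch_kl_bes_prod (n n' : ℕ) (α : ℂ) :
    chKlK n α * conj (chKlK n' α)
      = (((1 + ‖α‖ ^ 2) ^ (1 / 2 : ℝ) / (Real.sqrt (chWn n) * Real.sqrt (chWn n')) : ℝ) : ℂ) * (chMo n α * conj (chMo n' α)) := by
  unfold chKlK
  have h : (1 + ‖α‖ ^ 2) ^ (1 / 2 : ℝ) = (1 + ‖α‖ ^ 2) ^ (1 / 4 : ℝ) * (1 + ‖α‖ ^ 2) ^ (1 / 4 : ℝ) := by
    rw [← Real.rpow_add (ch_kl_bes_x_pos α)]; norm_num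
  rw [map_mul, Complex.conj_ofReal, h]
  push_cast
  ring

theorem ch_kl_bes_norm_sq (n : ℕ) (α : ℂ) :
    ‖chKlK n α‖ ^ 2 = (1 + ‖α‖ ^ 2) ^ (1 / 2 : ℝ) * ‖chMo n α‖ ^ 2 / chWn n := by
  obtain ⟨-, hW0, -⟩ := ch_kl_mo_norm n
  have h : (1 + ‖α‖ ^ 2) ^ (1 / 2 : ℝ) = (1 + ‖α‖ ^ 2) ^ (1 / 4 : ℝ) * (1 + ‖α‖ ^ 2) ^ (1 / 4 : ℝ) := by
    rw [← Real.rpow_add (ch_kl_bes_x_pos α)]; norm_num
  unfold chKlK
  rw [norm_mul, Complex.norm_real, Real.norm_eq_abs, abs_of_nonneg (by positivity), mul_pow, div_pow, Real.sq_sqrt hW0.le, h]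
  ring

/-- the Gram matrix is the identity -/
theorem ch_kl_bes_gram (n n' : ℕ) : ∫ α : ℂ, chKlK n α * conj (chKlK n' α) = if n = n' then 1 else 0 := by
  split_ifs with h
  · subst h
    obtain ⟨-, hW0, -⟩ := ch_kl_mo_norm n
    have e : ∀ α : ℂ, chKlK n α * conj (chKlK n α) = (((1 + ‖α‖ ^ 2) ^ (1 / 2 : ℝ) * ‖chMo n α‖ ^ 2 / chWn n : ℝ) : ℂ) := by
      intro α
      rw [Complex.mul_conj, Complex.normSq_eq_norm_sq, ch_kl_bes_norm_sq]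
    simp only [e]
    rw [integral_complex_ofReal, integral_div]
    have : ∫ α : ℂ, (1 + ‖α‖ ^ 2) ^ (1 / 2 : ℝ) * ‖chMo n α‖ ^ 2 = chWn n := rfl
    rw [this, div_self hW0.ne']
    simp
  · simp only [ch_kl_bes_prod]
    exact ch_kl_mo_orth n n' h fun s => (1 + s ^ 2) ^ (1 / 2 : ℝ) / (Real.sqrt (chWn n) * Real.sqrt (chWn n'))

theorem ch_kl_bessel (F : ℂ → E) (hF : ChNice F) :
    ∑' n : ℕ, ‖∫ α, chMo n α • F α‖ₑ ^ 2 / ENNReal.ofReal (chWn n) ≤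
      ∫⁻ α, ENNReal.ofReal ((1 + ‖α‖ ^ 2) ^ (-(1 / 2) : ℝ)) * ‖F α‖ₑ ^ 2 := by
  have hF2 : MemLp F 2 volume := (ch_fk_nice_intC hF).2
  have hFm : StronglyMeasurable F := hF.1
  have hk : Measurable (Function.uncurry chKlK) :=
    measurable_from_prod_countable_right fun n => (ch_kl_bes_k_cont n).measurable
  have hk2 : ∀ n, MemLp (chKlK n) 2 volume := by
    intro n
    rw [memLp_two_iff_integrable_sq_norm (ch_kl_bes_k_cont n).aestronglyMeasurable]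
    simp only [ch_kl_bes_norm_sq]
    exact (ch_kl_mo_norm n).1.div_const _
  have hG : ∀ n, ∫⁻ n', ‖∫ α : ℂ, chKlK n α * conj (chKlK n' α)‖ₑ ∂Measure.count ≤ 1 := by
    intro n
    rw [lintegral_count, tsum_eq_single n]
    · rw [ch_kl_bes_gram, if_pos rfl]; simp
    · intro n' hn'
      rw [ch_kl_bes_gram, if_neg (Ne.symm hn')]; simp
  have hq1 : ∀ α : ℂ, (1 + ‖α‖ ^ 2) ^ (-(1 / 4) : ℝ) ≤ 1 := by
    intro α
    refine Real.rpow_le_one_of_one_le_of_nonpos ?_ (by norm_num)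
    have := sq_nonneg ‖α‖
    linarith
  have ha : MemLp (fun α : ℂ => (((1 + ‖α‖ ^ 2) ^ (-(1 / 4) : ℝ) : ℝ) : ℂ) • F α) 2 volume := by
    refine hF2.of_le ?_ (Filter.Eventually.of_forall fun α => ?_)
    · exact ((Complex.continuous_ofReal.comp (ch_kl_bes_rpow_cont _)).aestronglyMeasurable).smul hFm.aestronglyMeasurable
    · rw [norm_smul, Complex.norm_real, Real.norm_eq_abs, abs_of_nonneg (by positivity)]
      exact mul_le_of_le_one_left (norm_nonneg _) (hq1 α)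
  have hmain := hy_bessel volume Measure.count chKlK hk hk2 1 hG _ ha
  rw [lintegral_count, one_mul] at hmain
  have e1 : ∀ n : ℕ, ‖∫ α : ℂ, chKlK n α • (((1 + ‖α‖ ^ 2) ^ (-(1 / 4) : ℝ) : ℝ) : ℂ) • F α‖ₑ ^ 2
      = ‖∫ α, chMo n α • F α‖ₑ ^ 2 / ENNReal.ofReal (chWn n) := by
    intro n
    obtain ⟨-, hW0, -⟩ := ch_kl_mo_norm n
    have hpt : ∀ α : ℂ, chKlK n α • (((1 + ‖α‖ ^ 2) ^ (-(1 / 4) : ℝ) : ℝ) : ℂ) • F α
        = (((Real.sqrt (chWn n))⁻¹ : ℝ) : ℂ) • chMo n α • F α := by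
      intro α
      have h : (1 + ‖α‖ ^ 2) ^ (1 / 4 : ℝ) * (1 + ‖α‖ ^ 2) ^ (-(1 / 4) : ℝ) = 1 := by
        rw [← Real.rpow_add (ch_kl_bes_x_pos α)]; norm_num
      rw [smul_smul, smul_smul]
      congr 1
      unfold chKlK
      have h' : (((1 + ‖α‖ ^ 2) ^ (1 / 4 : ℝ) : ℝ) : ℂ) * (((1 + ‖α‖ ^ 2) ^ (-(1 / 4) : ℝ) : ℝ) : ℂ) = 1 := by
        rw [← Complex.ofReal_mul, h]; simp
      push_cast
      calc chMo n α * ((((1 + ‖α‖ ^ 2 : ℝ) ^ (1 / 4 : ℝ) : ℝ) : ℂ) / ((Real.sqrt (chWn n) : ℝ) : ℂ)) * (((1 + ‖α‖ ^ 2 : ℝ) ^ (-(1 / 4) : ℝ) : ℝ) : ℂ)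
          = chMo n α * ((((1 + ‖α‖ ^ 2) ^ (1 / 4 : ℝ) : ℝ) : ℂ) * (((1 + ‖α‖ ^ 2) ^ (-(1 / 4) : ℝ) : ℝ) : ℂ)) / ((Real.sqrt (chWn n) : ℝ) : ℂ) := by ring
        _ = ((Real.sqrt (chWn n) : ℝ) : ℂ)⁻¹ * chMo n α := by rw [h']; ring
    simp only [hpt]
    rw [integral_smul, enorm_smul, mul_pow, ← ofReal_norm, Complex.norm_real, Real.norm_eq_abs,
      abs_of_nonneg (by positivity), ← ENNReal.ofReal_pow (by positivity), inv_pow, Real.sq_sqrt hW0.le,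
      ENNReal.ofReal_inv_of_pos hW0, ENNReal.div_eq_inv_mul]
  have e2 : ∀ α : ℂ, ‖(((1 + ‖α‖ ^ 2) ^ (-(1 / 4) : ℝ) : ℝ) : ℂ) • F α‖ₑ ^ 2
      = ENNReal.ofReal ((1 + ‖α‖ ^ 2) ^ (-(1 / 2) : ℝ)) * ‖F α‖ₑ ^ 2 := by
    intro α
    have h : (1 + ‖α‖ ^ 2) ^ (-(1 / 2) : ℝ) = ((1 + ‖α‖ ^ 2) ^ (-(1 / 4) : ℝ)) ^ 2 := by
      rw [pow_two ((1 + ‖α‖ ^ 2) ^ (-(1 / 4) : ℝ)), ← Real.rpow_add (ch_kl_bes_x_pos α)]; norm_num
    rw [enorm_smul, mul_pow, ← ofReal_norm, Complex.norm_real, Real.norm_eq_abs, abs_of_nonneg (by positivity),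
      ← ENNReal.ofReal_pow (by positivity), h]
  simp only [e1, e2] at hmain
  exact hmain

end Claimed.Agent.R256
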