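import Claimed.Agent.R256.Chan.Fk.KlZeta

/-!
# Row 256, Chan/Fk, KEY LEMMA, leaf L-256-FK-KL3: the POWER SERIES in `ζ`      (architect helper132; prefix `ch_kl_`)

`chE t α = e^(-|α|²/2) exp(-α² ζ/2) = ∑_m ζ^m (-1/2)^m/m! α^(2m) e^(-|α|²/2) = ∑_m ζ^m c_m chMo (2m) α`.
PLAN.  `hasSum_integral_of_summable_integral_norm` (or `integral_tsum`) for `f_m α = (ζ^m c_m chMo (2m) α) • F α`:
`∑_m ∫ ‖f_m‖ = ∑_m ∫ (|α|²/2)^m/m! e^(-|α|²/2) ‖F α‖ ≤ ∫ ‖F‖ < ∞`   (for a nice `F`: `‖F‖ ≤ B 1_{|α| ≤ R}`, so simply `∫ ‖f_m‖ ≤ (R²/2)^m/m! ∫ ‖F‖`, summable by `Real.summable_pow_div_factorial`).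
Pointwise: `NormedSpace.exp_eq_tsum`/`Complex.exp_eq_exp_ℂ`, `Complex.hasSum_exp`-type statement for `z = -α² ζ/2`.     The first claim is the case `‖ζ‖ = 1` of the same bound.   ~250 l.
-/

set_option autoImplicit false

namespace Claimed.Agent.R256

open MeasureTheory
open scoped ENNReal ComplexConjugate

variable {E : Type} [NormedAddCommGroup E] [InnerProductSpace ℂ E] [CompleteSpace E]

/-- continuity of the monomials (local copy) -/
theorem ch_kl_ser_mo_cont (n : ℕ) : Continuous (chMo n) := by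
  unfold chMo
  fun_prop

/-- the power series of `chE` -/
theorem ch_kl_ser_pt (t : ℝ) (α : ℂ) :
    HasSum (fun m : ℕ => chZeta t ^ m * ((-1 / 2 : ℂ) ^ m / (m.factorial : ℂ)) * chMo (2 * m) α) (chE t α) := by
  have h1 := NormedSpace.expSeries_div_hasSum_exp (-1 / 2 * α ^ 2 * chZeta t : ℂ)
  rw [← Complex.exp_eq_exp_ℂ] at h1
  have h2 := h1.mul_right ((Real.exp (-(‖α‖ ^ 2 / 2)) : ℝ) : ℂ)
  have e1 : Complex.exp (-1 / 2 * α ^ 2 * chZeta t) * ((Real.exp (-(‖α‖ ^ 2 / 2)) : ℝ) : ℂ) = chE t α := by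
    unfold chE
    rw [Complex.ofReal_exp, ← Complex.exp_add]
    congr 1
    push_cast
    ring
  rw [e1] at h2
  have e2 : (fun m : ℕ => chZeta t ^ m * ((-1 / 2 : ℂ) ^ m / (m.factorial : ℂ)) * chMo (2 * m) α)
      = fun m : ℕ => (-1 / 2 * α ^ 2 * chZeta t) ^ m / (m.factorial : ℂ) * ((Real.exp (-(‖α‖ ^ 2 / 2)) : ℝ) : ℂ) := by
    funext m
    unfold chMo
    rw [mul_pow, mul_pow, ← pow_mul]
    ring
  rw [e2]
  exact h2

omit [InnerProductSpace ℂ E] [CompleteSpace E] in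
/-- the pointwise bound of the terms -/
theorem ch_kl_ser_bd [NormedSpace ℂ E] (F : ℂ → E) {B R : ℝ} (h : ∀ x, ‖F x‖ ≤ B ∧ (R < ‖x‖ → F x = 0)) (m : ℕ) (z : ℂ) (hz : ‖z‖ ≤ 1) (α : ℂ) :
    ‖(z * ((-1 / 2 : ℂ) ^ m / (m.factorial : ℂ)) * chMo (2 * m) α) • F α‖ ≤ (max R 0 ^ 2 / 2) ^ m / (m.factorial : ℝ) * ‖F α‖ := by
  by_cases hα : R < ‖α‖
  · rw [(h α).2 hα]; simp
  · have hα' : ‖α‖ ≤ max R 0 := (not_lt.1 hα).trans (le_max_left _ _)
    rw [norm_smul]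
    refine mul_le_mul_of_nonneg_right ?_ (norm_nonneg _)
    have h1 : ‖chMo (2 * m) α‖ ≤ (max R 0 ^ 2) ^ m := by
      unfold chMo
      rw [norm_mul, norm_pow, Complex.norm_real, Real.norm_eq_abs, abs_of_pos (Real.exp_pos _), pow_mul]
      have e1 : Real.exp (-(‖α‖ ^ 2 / 2)) ≤ 1 := Real.exp_le_one_iff.2 (by have := sq_nonneg ‖α‖; linarith)
      have e2 : (‖α‖ ^ 2) ^ m ≤ (max R 0 ^ 2) ^ m := by gcongr
      calc (‖α‖ ^ 2) ^ m * Real.exp (-(‖α‖ ^ 2 / 2)) ≤ (‖α‖ ^ 2) ^ m * 1 :=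
            mul_le_mul_of_nonneg_left e1 (by positivity)
        _ ≤ (max R 0 ^ 2) ^ m := by rw [mul_one]; exact e2
    have h2 : ‖((-1 / 2 : ℂ) ^ m / (m.factorial : ℂ))‖ = (1 / 2) ^ m / (m.factorial : ℝ) := by
      rw [norm_div, norm_pow, Complex.norm_natCast]
      congr 2
      rw [norm_div, norm_neg, norm_one]
      simp
    rw [norm_mul, norm_mul, h2]
    calc ‖z‖ * ((1 / 2) ^ m / (m.factorial : ℝ)) * ‖chMo (2 * m) α‖
        ≤ 1 * ((1 / 2) ^ m / (m.factorial : ℝ)) * (max R 0 ^ 2) ^ m := by gcongr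
      _ = (max R 0 ^ 2 / 2) ^ m / (m.factorial : ℝ) := by
          rw [div_pow, div_pow, one_pow]; field_simp

theorem ch_kl_series (F : ℂ → E) (hF : ChNice F) :
    (Summable fun m : ℕ => ‖((-1 / 2 : ℂ) ^ m / (m.factorial : ℂ)) • ∫ α, chMo (2 * m) α • F α‖) ∧
    ∀ t : ℝ, ∫ α, chE t α • F α = ∑' m : ℕ, chZeta t ^ m • (((-1 / 2 : ℂ) ^ m / (m.factorial : ℂ)) • ∫ α, chMo (2 * m) α • F α) := by
  have hFi : Integrable F volume := (ch_fk_nice_intC hF).1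
  obtain ⟨hFm, B, R, hBR⟩ := hF
  have hCsum : Summable fun m : ℕ => (max R 0 ^ 2 / 2) ^ m / (m.factorial : ℝ) * ∫ α, ‖F α‖ :=
    (Real.summable_pow_div_factorial _).mul_right _
  have hint : ∀ (z : ℂ), ‖z‖ ≤ 1 → ∀ m : ℕ,
      Integrable (fun α => (z * ((-1 / 2 : ℂ) ^ m / (m.factorial : ℂ)) * chMo (2 * m) α) • F α) volume := by
    intro z hz m
    refine (hFi.norm.const_mul ((max R 0 ^ 2 / 2) ^ m / (m.factorial : ℝ))).mono' ?_
      (Filter.Eventually.of_forall fun α => ch_kl_ser_bd F hBR m z hz α)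
    exact ((continuous_const.mul (ch_kl_ser_mo_cont (2 * m))).aestronglyMeasurable).smul hFm.aestronglyMeasurable
  have hnorm : ∀ (z : ℂ), ‖z‖ ≤ 1 → ∀ m : ℕ,
      ∫ α, ‖(z * ((-1 / 2 : ℂ) ^ m / (m.factorial : ℂ)) * chMo (2 * m) α) • F α‖
        ≤ (max R 0 ^ 2 / 2) ^ m / (m.factorial : ℝ) * ∫ α, ‖F α‖ := by
    intro z hz m
    rw [← integral_const_mul]
    exact integral_mono (hint z hz m).norm (hFi.norm.const_mul _) fun α => ch_kl_ser_bd F hBR m z hz α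
  have hpull : ∀ (z : ℂ) (m : ℕ), ∫ α, (z * ((-1 / 2 : ℂ) ^ m / (m.factorial : ℂ)) * chMo (2 * m) α) • F α
      = z • (((-1 / 2 : ℂ) ^ m / (m.factorial : ℂ)) • ∫ α, chMo (2 * m) α • F α) := by
    intro z m
    rw [← integral_smul, ← integral_smul]
    refine integral_congr_ae (Filter.Eventually.of_forall fun α => ?_)
    simp only [smul_smul, mul_assoc]
  constructor
  · refine Summable.of_nonneg_of_le (fun m => norm_nonneg _) (fun m => ?_) hCsum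
    have h1 := hpull 1 m
    rw [one_smul] at h1
    rw [← h1]
    exact (norm_integral_le_integral_norm _).trans (hnorm 1 (by simp) m)
  · intro t
    have hz : ∀ m : ℕ, ‖chZeta t ^ m‖ ≤ 1 := fun m => by rw [norm_pow, ch_kl_zeta_norm, one_pow]
    have hs := hasSum_integral_of_summable_integral_norm (μ := volume)
      (F := fun (m : ℕ) (α : ℂ) => (chZeta t ^ m * ((-1 / 2 : ℂ) ^ m / (m.factorial : ℂ)) * chMo (2 * m) α) • F α)
      (fun m => hint _ (hz m) m)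
      (Summable.of_nonneg_of_le (fun m => integral_nonneg fun α => norm_nonneg _) (fun m => hnorm _ (hz m) m) hCsum)
    have e1 : ∀ α : ℂ, ∑' m : ℕ, (chZeta t ^ m * ((-1 / 2 : ℂ) ^ m / (m.factorial : ℂ)) * chMo (2 * m) α) • F α = chE t α • F α :=
      fun α => ((ch_kl_ser_pt t α).smul_const (F α)).tsum_eq
    simp only [e1, hpull] at hs
    exact hs.tsum_eq.symm

end Claimed.Agent.R256
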