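import Claimed.Agent.R256.Chan.Fk.KlPars
import Claimed.Agent.R256.Chan.Fk.KlSer
import Claimed.Agent.R256.Chan.Fk.KlBes

/-!
# Row 256, Chan/Fk, KEY LEMMA, leaf L-256-FK-KL6: ASSEMBLY      (architect helper132; prefix `ch_kl_`)

   `∫_ℝ ‖∫ chE t α • F α dα‖² dt/(1+t²) ≤ 2π² ∫ (1+|α|²)^(-1/2) ‖F‖² dα`.
(By positivity a time average over a bounded interval is ENLARGED to the rotation invariant average; an absolute value Schur test would FAIL: the angular orthogonality is essential.)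
PLAN.  `B m = c_m • ∫ chMo (2m) • F`, `c_m = (-1/2)^m/m!`.   `ch_kl_series` + `ch_kl_parseval`:  LHS `≤ π ∑' ‖B m‖ₑ²`.
`‖B m‖ₑ² = ofReal (1/(4^m m!²)) ‖∫ chMo (2m) • F‖ₑ² = ofReal (chWn (2m)/(4^m m!²)) * (‖..‖ₑ²/ofReal (chWn (2m)))`,
`chWn (2m)/(4^m m!²) ≤ π (2m)!/(4^m m!²) sqrt(2m+2) = π centralBinom m/4^m sqrt(2m+2) ≤ π sqrt((2m+2)/(2m+1)) ≤ 2π`    (`ch_kl_binom`, `Nat.centralBinom_eq_two_mul_choose`, `Nat.succ_mul_centralBinom_succ`).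
`∑'_m x_{2m} ≤ ∑'_n x_n` (`ENNReal.tsum_comp_le_tsum_of_injective`);  `ch_kl_bessel`.   ~200 l.
-/

set_option autoImplicit false

namespace Claimed.Agent.R256

open MeasureTheory
open scoped ENNReal ComplexConjugate

/-- `binom(2m,m) 4^-m ≤ (2m+1)^(-1/2)`, squared form.   Induction: `((2m+1)/(2m+2))² ≤ (2m+1)/(2m+3)`. -/
theorem ch_kl_binom (m : ℕ) : ((Nat.centralBinom m : ℝ) / 4 ^ m) ^ 2 * (2 * m + 1) ≤ 1 := by
  induction m with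
  | zero => simp
  | succ m ih =>
    have h := Nat.succ_mul_centralBinom_succ m
    have h' : ((m : ℝ) + 1) * (Nat.centralBinom (m + 1) : ℝ) = 2 * (2 * m + 1) * (Nat.centralBinom m : ℝ) := by
      exact_mod_cast h
    have e : (Nat.centralBinom (m + 1) : ℝ) / 4 ^ (m + 1) = (Nat.centralBinom m : ℝ) / 4 ^ m * ((2 * m + 1) / (2 * m + 2)) := by
      have h2 : (Nat.centralBinom (m + 1) : ℝ) = 2 * (2 * m + 1) * (Nat.centralBinom m : ℝ) / (m + 1) := by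
        rw [eq_div_iff (by positivity)]; linarith
      rw [h2, pow_succ]; field_simp; ring
    rw [e]
    push_cast
    obtain ⟨a, ha⟩ : ∃ a : ℝ, a = (Nat.centralBinom m : ℝ) / 4 ^ m := ⟨_, rfl⟩
    rw [← ha] at ih ⊢
    have ha2 : 0 ≤ a ^ 2 * (2 * m + 1) := by positivity
    calc (a * ((2 * m + 1) / (2 * m + 2))) ^ 2 * (2 * ((m : ℝ) + 1) + 1)
        = a ^ 2 * (2 * m + 1) * ((2 * m + 1) * (2 * m + 3) / (2 * m + 2) ^ 2) := by field_simp; ring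
      _ ≤ a ^ 2 * (2 * m + 1) * 1 := by
          refine mul_le_mul_of_nonneg_left ?_ ha2
          rw [div_le_one (by positivity)]; nlinarith
      _ ≤ 1 := by linarith

variable {E : Type} [NormedAddCommGroup E] [InnerProductSpace ℂ E] [CompleteSpace E]

/-- the numerical constant of the key lemma -/
theorem ch_kl_main_num (m : ℕ) : chWn (2 * m) * (1 / (4 ^ m * (m.factorial : ℝ) ^ 2)) ≤ 2 * Real.pi := by
  obtain ⟨-, hW0, hW⟩ := ch_kl_mo_norm (2 * m)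
  have hf : ((2 * m).factorial : ℝ) = (Nat.centralBinom m : ℝ) * (m.factorial : ℝ) ^ 2 := by
    have h1 := Nat.choose_mul_factorial_mul_factorial (show m ≤ 2 * m by omega)
    rw [show 2 * m - m = m by omega, ← Nat.centralBinom_eq_two_mul_choose] at h1
    rw [← h1]; push_cast; ring
  have hb := ch_kl_binom m
  obtain ⟨a, ha⟩ : ∃ a : ℝ, a = (Nat.centralBinom m : ℝ) / 4 ^ m := ⟨_, rfl⟩
  rw [← ha] at hb
  have ha0 : 0 ≤ a := by rw [ha]; positivity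
  have hs0 : 0 ≤ Real.sqrt ((2 * m : ℕ) + 2) := Real.sqrt_nonneg _
  have hs2 : Real.sqrt ((2 * m : ℕ) + 2) ^ 2 = 2 * m + 2 := by
    rw [Real.sq_sqrt (by positivity)]; push_cast; ring
  have hx : a * Real.sqrt ((2 * m : ℕ) + 2) ≤ 2 := by
    have h2 : (a * Real.sqrt ((2 * m : ℕ) + 2)) ^ 2 ≤ 2 ^ 2 := by
      rw [mul_pow, hs2]
      have : 0 ≤ a ^ 2 := sq_nonneg a
      nlinarith
    exact (pow_le_pow_iff_left₀ (by positivity) (by norm_num) two_ne_zero).1 h2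
  have hfac : (0 : ℝ) < (m.factorial : ℝ) ^ 2 := by positivity
  calc chWn (2 * m) * (1 / (4 ^ m * (m.factorial : ℝ) ^ 2))
      ≤ (Real.pi * (2 * m).factorial * Real.sqrt ((2 * m : ℕ) + 2)) * (1 / (4 ^ m * (m.factorial : ℝ) ^ 2)) :=
        mul_le_mul_of_nonneg_right hW (by positivity)
    _ = Real.pi * (a * Real.sqrt ((2 * m : ℕ) + 2)) := by
        rw [hf, ha]; field_simp
    _ ≤ Real.pi * 2 := mul_le_mul_of_nonneg_left hx Real.pi_pos.le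
    _ = 2 * Real.pi := by ring

/-- **THE KEY LEMMA** -/
theorem ch_kl_main (F : ℂ → E) (hF : ChNice F) :
    ∫⁻ t : ℝ, ENNReal.ofReal (1 / (1 + t ^ 2)) * ‖∫ α, chE t α • F α‖ₑ ^ 2 ≤
      ENNReal.ofReal (2 * Real.pi ^ 2) * ∫⁻ α, ENNReal.ofReal ((1 + ‖α‖ ^ 2) ^ (-(1 / 2) : ℝ)) * ‖F α‖ₑ ^ 2 := by
  obtain ⟨hs1, hs2⟩ := ch_kl_series F hF
  have hterm : ∀ m : ℕ, ‖((-1 / 2 : ℂ) ^ m / (m.factorial : ℂ)) • ∫ α, chMo (2 * m) α • F α‖ₑ ^ 2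
      ≤ ENNReal.ofReal (2 * Real.pi) * (‖∫ α, chMo (2 * m) α • F α‖ₑ ^ 2 / ENNReal.ofReal (chWn (2 * m))) := by
    intro m
    obtain ⟨-, hW0, -⟩ := ch_kl_mo_norm (2 * m)
    have hc : ‖((-1 / 2 : ℂ) ^ m / (m.factorial : ℂ))‖ₑ ^ 2 = ENNReal.ofReal (1 / (4 ^ m * (m.factorial : ℝ) ^ 2)) := by
      rw [← ofReal_norm, ← ENNReal.ofReal_pow (norm_nonneg _)]
      congr 1
      rw [norm_div, norm_pow, Complex.norm_natCast, norm_div, norm_neg, norm_one]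
      have : ‖(2 : ℂ)‖ = 2 := by simp
      rw [this, div_pow, ← pow_mul, mul_comm m 2, pow_mul]
      norm_num
      rw [div_pow, one_pow]
      field_simp
    have hWne : ENNReal.ofReal (chWn (2 * m)) ≠ 0 := (ENNReal.ofReal_pos.2 hW0).ne'
    rw [enorm_smul, mul_pow, hc]
    calc ENNReal.ofReal (1 / (4 ^ m * (m.factorial : ℝ) ^ 2)) * ‖∫ α, chMo (2 * m) α • F α‖ₑ ^ 2
        = ENNReal.ofReal (1 / (4 ^ m * (m.factorial : ℝ) ^ 2)) *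
            (ENNReal.ofReal (chWn (2 * m)) * (‖∫ α, chMo (2 * m) α • F α‖ₑ ^ 2 / ENNReal.ofReal (chWn (2 * m)))) := by
          rw [ENNReal.mul_div_cancel hWne ENNReal.ofReal_ne_top]
      _ = ENNReal.ofReal (chWn (2 * m) * (1 / (4 ^ m * (m.factorial : ℝ) ^ 2))) *
            (‖∫ α, chMo (2 * m) α • F α‖ₑ ^ 2 / ENNReal.ofReal (chWn (2 * m))) := by
          rw [ENNReal.ofReal_mul hW0.le]; ring
      _ ≤ ENNReal.ofReal (2 * Real.pi) * (‖∫ α, chMo (2 * m) α • F α‖ₑ ^ 2 / ENNReal.ofReal (chWn (2 * m))) :=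
          mul_le_mul' (ENNReal.ofReal_le_ofReal (ch_kl_main_num m)) le_rfl
  calc ∫⁻ t : ℝ, ENNReal.ofReal (1 / (1 + t ^ 2)) * ‖∫ α, chE t α • F α‖ₑ ^ 2
      = ∫⁻ t : ℝ, ENNReal.ofReal (1 / (1 + t ^ 2)) *
          ‖∑' m : ℕ, chZeta t ^ m • (((-1 / 2 : ℂ) ^ m / (m.factorial : ℂ)) • ∫ α, chMo (2 * m) α • F α)‖ₑ ^ 2 := by
        refine lintegral_congr fun t => ?_
        rw [hs2 t]
    _ ≤ ENNReal.ofReal Real.pi * ∑' m : ℕ, ‖((-1 / 2 : ℂ) ^ m / (m.factorial : ℂ)) • ∫ α, chMo (2 * m) α • F α‖ₑ ^ 2 :=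
        ch_kl_parseval _ hs1
    _ ≤ ENNReal.ofReal Real.pi * ∑' m : ℕ, ENNReal.ofReal (2 * Real.pi) *
          (‖∫ α, chMo (2 * m) α • F α‖ₑ ^ 2 / ENNReal.ofReal (chWn (2 * m))) :=
        mul_le_mul' le_rfl (ENNReal.tsum_le_tsum hterm)
    _ = ENNReal.ofReal (2 * Real.pi ^ 2) * ∑' m : ℕ, (‖∫ α, chMo (2 * m) α • F α‖ₑ ^ 2 / ENNReal.ofReal (chWn (2 * m))) := by
        rw [ENNReal.tsum_mul_left, ← mul_assoc, ← ENNReal.ofReal_mul Real.pi_pos.le]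
        congr 2; ring
    _ ≤ ENNReal.ofReal (2 * Real.pi ^ 2) * ∑' n : ℕ, (‖∫ α, chMo n α • F α‖ₑ ^ 2 / ENNReal.ofReal (chWn n)) := by
        refine mul_le_mul' le_rfl ?_
        exact ENNReal.tsum_comp_le_tsum_of_injective (f := fun m : ℕ => 2 * m)
          (fun a b h => by simpa using h) (fun n => ‖∫ α, chMo n α • F α‖ₑ ^ 2 / ENNReal.ofReal (chWn n))
    _ ≤ ENNReal.ofReal (2 * Real.pi ^ 2) * ∫⁻ α, ENNReal.ofReal ((1 + ‖α‖ ^ 2) ^ (-(1 / 2) : ℝ)) * ‖F α‖ₑ ^ 2 :=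
        mul_le_mul' le_rfl (ch_kl_bessel F hF)

end Claimed.Agent.R256
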