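import Claimed.Agent.R256.Chan.Fk.Basic

/-!
# Row 256, Chan/Fk, KEY LEMMA, leaf L-256-FK-KL4: the monomials `α^n e^(-|α|²/2)` for RADIAL weights      (architect helper132; prefix `ch_kl_`)      Mathlib only

`ch_kl_mo_orth`: rotation invariance.  `R_θ α = e^{iθ} α` preserves `volume` on `ℂ` (`rotation : Circle →* ℂ ≃ₗᵢ[ℝ] ℂ`, `LinearIsometryEquiv.measurePreserving`), `‖R_θ α‖ = ‖α‖`,
`chMo n (R_θ α) conj (chMo n' (R_θ α)) = e^{i(n-n')θ} chMo n α conj (chMo n' α)`;  so `I = e^{i(n-n')θ} I` (`MeasurePreserving.integral_comp'`, no integrability needed);  `θ = π/(n-n')` gives `I = -I`.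
`ch_kl_mo_norm`: `‖chMo n α‖² = ‖α‖^(2n) e^(-‖α‖²)`.   `Complex.integral_rpow_mul_exp_neg_rpow : ∫ ‖x‖^q exp(-‖x‖^p) = (2π/p) Γ((q+2)/p)` (`p = 2`): `∫ ‖α‖^(2n) e^(-‖α‖²) = π n!`.
`(1+s)^(1/2) ≤ ...`:  Cauchy-Schwarz `∫ (1+|α|²)^(1/2) h ≤ (∫ h)^(1/2) (∫ (1+|α|²) h)^(1/2) = π (n!)^(1/2) (n! + (n+1)!)^(1/2) = π n! sqrt(n+2)`   (or: `(1+s)^(1/2) ≤ (λ + (1+s)/λ)/2` with `λ = sqrt(n+2)`: NO Cauchy-Schwarz needed).
Integrability: `(1+s)^(1/2) ≤ 1 + s`;  the integrals of `‖α‖^q e^(-‖α‖²)` are non zero, hence the functions are integrable (`Integrable` from `integral ≠ 0`: `not_imp_comm.1 integral_undef`).   ~250 l.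
-/

set_option autoImplicit false

namespace Claimed.Agent.R256

open MeasureTheory
open scoped ENNReal ComplexConjugate

theorem ch_kl_mo_norm_sq (n : ℕ) (α : ℂ) : ‖chMo n α‖ ^ 2 = ‖α‖ ^ (2 * n) * Real.exp (-‖α‖ ^ 2) := by
  unfold chMo
  rw [norm_mul, norm_pow, Complex.norm_real, Real.norm_eq_abs, abs_of_pos (Real.exp_pos _), mul_pow, ← pow_mul, mul_comm n 2, ← Real.exp_nat_mul]
  congr 2
  push_cast
  ring

theorem ch_kl_mo_cont (n : ℕ) : Continuous (chMo n) := by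
  unfold chMo
  fun_prop

theorem ch_kl_mo_rot (n : ℕ) (a α : ℂ) (ha : ‖a‖ = 1) : chMo n (a * α) = a ^ n * chMo n α := by
  unfold chMo
  rw [norm_mul, ha, one_mul, mul_pow, mul_assoc]

theorem ch_kl_mo_orth (n n' : ℕ) (h : n ≠ n') (ρ : ℝ → ℝ) :
    ∫ α : ℂ, ((ρ ‖α‖ : ℝ) : ℂ) * (chMo n α * conj (chMo n' α)) = 0 := by
  obtain ⟨θ, hθ⟩ : ∃ θ : ℝ, θ = Real.pi / ((n : ℝ) - n') := ⟨_, rfl⟩
  have hnn : ((n : ℝ) - n') ≠ 0 := by
    intro h0
    apply h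
    have : (n : ℝ) = n' := by linarith
    exact_mod_cast this
  obtain ⟨a, ha⟩ : ∃ a : Circle, a = Circle.exp θ := ⟨_, rfl⟩
  have hnorm : ‖(a : ℂ)‖ = 1 := Circle.norm_coe a
  have hphase : (a : ℂ) ^ n * conj ((a : ℂ) ^ n') = -1 := by
    rw [ha, Circle.coe_exp, ← Complex.exp_nat_mul, ← Complex.exp_nat_mul, ← Complex.exp_conj, ← Complex.exp_add]
    have : (n : ℂ) * (θ * Complex.I) + conj ((n' : ℂ) * (θ * Complex.I)) = Real.pi * Complex.I := by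
      simp only [map_mul, Complex.conj_ofReal, Complex.conj_I, map_natCast]
      have e : ((n : ℂ) - n') * θ = Real.pi := by
        rw [hθ]
        push_cast
        have : ((n : ℂ) - n') ≠ 0 := by exact_mod_cast hnn
        field_simp
      linear_combination Complex.I * e
    rw [this, Complex.exp_pi_mul_I]
  have hmp : MeasurePreserving (rotation a) volume volume := (rotation a).measurePreserving
  have hme : MeasurableEmbedding (rotation a) := (rotation a).toHomeomorph.measurableEmbedding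
  have key := hmp.integral_comp hme (fun α : ℂ => ((ρ ‖α‖ : ℝ) : ℂ) * (chMo n α * conj (chMo n' α)))
  have e : ∀ α : ℂ, ((ρ ‖rotation a α‖ : ℝ) : ℂ) * (chMo n (rotation a α) * conj (chMo n' (rotation a α)))
      = -(((ρ ‖α‖ : ℝ) : ℂ) * (chMo n α * conj (chMo n' α))) := by
    intro α
    rw [rotation_apply, norm_mul, hnorm, one_mul, ch_kl_mo_rot n _ _ hnorm, ch_kl_mo_rot n' _ _ hnorm, map_mul]
    linear_combination (((ρ ‖α‖ : ℝ) : ℂ) * (chMo n α * conj (chMo n' α))) * hphase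
  simp only [e] at key
  rw [integral_neg] at key
  have h2 : (2 : ℂ) * ∫ α : ℂ, ((ρ ‖α‖ : ℝ) : ℂ) * (chMo n α * conj (chMo n' α)) = 0 := by
    linear_combination -key
  rcases mul_eq_zero.1 h2 with h3 | h3
  · norm_num at h3
  · exact h3

theorem ch_kl_H_int (q : ℕ) : (∫ α : ℂ, ‖α‖ ^ (2 * q) * Real.exp (-‖α‖ ^ 2)) = Real.pi * q.factorial := by
  have := Complex.integral_rpow_mul_exp_neg_rpow (p := 2) (q := ((2 * q : ℕ) : ℝ)) (by norm_num) (by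
    have : (0 : ℝ) ≤ ((2 * q : ℕ) : ℝ) := Nat.cast_nonneg _
    linarith)
  simp only [Real.rpow_natCast, Real.rpow_two] at this
  rw [this]
  have e : (((2 * q : ℕ) : ℝ) + 2) / 2 = (q : ℝ) + 1 := by push_cast; ring
  rw [e, Real.Gamma_nat_eq_factorial]
  ring

theorem ch_kl_H_integrable (q : ℕ) : Integrable (fun α : ℂ => ‖α‖ ^ (2 * q) * Real.exp (-‖α‖ ^ 2)) := by
  by_contra hcon
  have := integral_undef hcon
  rw [ch_kl_H_int] at this
  have hp : 0 < Real.pi * (q.factorial : ℝ) := mul_pos Real.pi_pos (by exact_mod_cast Nat.factorial_pos q)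
  linarith

theorem ch_kl_sqrt_le (s lam : ℝ) (hs : 0 ≤ s) (hl : 0 < lam) : (1 + s) ^ (1 / 2 : ℝ) ≤ (lam + (1 + s) / lam) / 2 := by
  rw [← Real.sqrt_eq_rpow]
  have h1 : 0 ≤ 1 + s := by linarith
  have h2 := Real.sq_sqrt h1
  have h3 : 0 ≤ (lam - Real.sqrt (1 + s)) ^ 2 := sq_nonneg _
  rw [le_div_iff₀ (by norm_num : (0 : ℝ) < 2)]
  have : (1 + s) / lam = Real.sqrt (1 + s) ^ 2 / lam := by rw [h2]
  rw [this]
  have h4 : Real.sqrt (1 + s) * 2 * lam ≤ (lam + Real.sqrt (1 + s) ^ 2 / lam) * lam := by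
    have : (lam + Real.sqrt (1 + s) ^ 2 / lam) * lam = lam ^ 2 + Real.sqrt (1 + s) ^ 2 := by field_simp
    rw [this]
    nlinarith
  exact le_of_mul_le_mul_right h4 hl

theorem ch_kl_mo_norm (n : ℕ) :
    Integrable (fun α : ℂ => (1 + ‖α‖ ^ 2) ^ (1 / 2 : ℝ) * ‖chMo n α‖ ^ 2) volume ∧ 0 < chWn n ∧
      chWn n ≤ Real.pi * n.factorial * Real.sqrt (n + 2) := by
  obtain ⟨lam, hlam⟩ : ∃ lam : ℝ, lam = Real.sqrt (n + 2) := ⟨_, rfl⟩
  have hn2 : (0 : ℝ) < (n : ℝ) + 2 := by positivity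
  have hl : 0 < lam := by rw [hlam]; exact Real.sqrt_pos.2 hn2
  have hl2 : lam ^ 2 = (n : ℝ) + 2 := by rw [hlam]; exact Real.sq_sqrt hn2.le
  have hH0 := ch_kl_H_integrable n
  have hH1 := ch_kl_H_integrable (n + 1)
  -- the majorant
  have hmaj : Integrable (fun α : ℂ => (lam / 2 + 1 / (2 * lam)) * (‖α‖ ^ (2 * n) * Real.exp (-‖α‖ ^ 2))
      + (1 / (2 * lam)) * (‖α‖ ^ (2 * (n + 1)) * Real.exp (-‖α‖ ^ 2))) := (hH0.const_mul _).add (hH1.const_mul _)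
  have hle : ∀ α : ℂ, (1 + ‖α‖ ^ 2) ^ (1 / 2 : ℝ) * ‖chMo n α‖ ^ 2 ≤ (lam / 2 + 1 / (2 * lam)) * (‖α‖ ^ (2 * n) * Real.exp (-‖α‖ ^ 2))
      + (1 / (2 * lam)) * (‖α‖ ^ (2 * (n + 1)) * Real.exp (-‖α‖ ^ 2)) := by
    intro α
    rw [ch_kl_mo_norm_sq]
    have h1 := ch_kl_sqrt_le (‖α‖ ^ 2) lam (by positivity) hl
    have h2 : 0 ≤ ‖α‖ ^ (2 * n) * Real.exp (-‖α‖ ^ 2) := by positivity
    calc (1 + ‖α‖ ^ 2) ^ (1 / 2 : ℝ) * (‖α‖ ^ (2 * n) * Real.exp (-‖α‖ ^ 2))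
        ≤ ((lam + (1 + ‖α‖ ^ 2) / lam) / 2) * (‖α‖ ^ (2 * n) * Real.exp (-‖α‖ ^ 2)) := mul_le_mul_of_nonneg_right h1 h2
      _ = _ := by
        have : ‖α‖ ^ (2 * (n + 1)) = ‖α‖ ^ (2 * n) * ‖α‖ ^ 2 := by rw [mul_add, pow_add]
        rw [this]
        field_simp
        ring
  have hnn : ∀ α : ℂ, 0 ≤ (1 + ‖α‖ ^ 2) ^ (1 / 2 : ℝ) * ‖chMo n α‖ ^ 2 := fun α => by positivity
  have hcont : Continuous (fun α : ℂ => (1 + ‖α‖ ^ 2) ^ (1 / 2 : ℝ) * ‖chMo n α‖ ^ 2) := by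
    apply Continuous.mul
    · apply Continuous.rpow_const (by fun_prop)
      intro α
      right
      norm_num
    · exact ((ch_kl_mo_cont n).norm).pow 2
  have hint : Integrable (fun α : ℂ => (1 + ‖α‖ ^ 2) ^ (1 / 2 : ℝ) * ‖chMo n α‖ ^ 2) volume := by
    refine hmaj.mono' hcont.aestronglyMeasurable (Filter.Eventually.of_forall fun α => ?_)
    rw [Real.norm_eq_abs, abs_of_nonneg (hnn α)]
    exact hle α
  have hfac : (0 : ℝ) < n.factorial := by exact_mod_cast Nat.factorial_pos n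
  refine ⟨hint, ?_, ?_⟩
  · have hlow : ∀ α : ℂ, ‖α‖ ^ (2 * n) * Real.exp (-‖α‖ ^ 2) ≤ (1 + ‖α‖ ^ 2) ^ (1 / 2 : ℝ) * ‖chMo n α‖ ^ 2 := by
      intro α
      rw [ch_kl_mo_norm_sq]
      have h1 : (1 : ℝ) ≤ (1 + ‖α‖ ^ 2) ^ (1 / 2 : ℝ) := Real.one_le_rpow (by nlinarith [sq_nonneg ‖α‖]) (by norm_num)
      have h2 : 0 ≤ ‖α‖ ^ (2 * n) * Real.exp (-‖α‖ ^ 2) := by positivity
      nlinarith
    have := integral_mono hH0 hint hlow
    rw [ch_kl_H_int] at this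
    unfold chWn
    have hp : 0 < Real.pi * (n.factorial : ℝ) := mul_pos Real.pi_pos hfac
    linarith
  · unfold chWn
    have := integral_mono hint hmaj hle
    rw [integral_add (hH0.const_mul _) (hH1.const_mul _), integral_const_mul, integral_const_mul, ch_kl_H_int, ch_kl_H_int] at this
    refine this.trans (le_of_eq ?_)
    rw [← hlam, Nat.factorial_succ]
    push_cast
    have hl0 : lam ≠ 0 := hl.ne'
    field_simp
    have : (n : ℝ) = lam ^ 2 - 2 := by linarith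
    rw [this]
    ring

end Claimed.Agent.R256
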