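import Claimed.Agent.R256.Chan.Fk.KlZeta

/-!
# Row 256, Chan/Fk, KEY LEMMA, leaf L-256-FK-KL2: PARSEVAL in `ζ` for absolutely summable vector series      (architect helper132; prefix `ch_kl_`)

PLAN.  `S_M(t) = ∑_{m<M} ζ^m • B m`.   (i) `∫ (1+t²)⁻¹ ‖S_M‖² dt = π ∑_{m<M} ‖B m‖²`: `‖S‖² = re ⟪S,S⟫ = ∑∑ conj(ζ^m) ζ^m' ⟪B m, B m'⟫` (`sum_inner`, `inner_sum`, `inner_smul_left/right`),
`integral_finset_sum`, `ch_kl_zeta_orth`;  every term is bounded by `‖B m‖‖B m'‖/(1+t²)`, continuous, hence integrable.   Convert to `lintegral` (`ofReal_integral_eq_lintegral_ofReal`).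
(ii) `S_M(t) → ∑' m` for every `t` (`‖ζ^m • B m‖ = ‖B m‖` summable), so `‖S‖ₑ² = lim ‖S_M‖ₑ²`;  Fatou (`lintegral_liminf_le`, `S_M` continuous in `t`);  `∑_{m<M} ≤ ∑'` (`ENNReal.sum_le_tsum`).   ~250 l.
-/

set_option autoImplicit false

namespace Claimed.Agent.R256

open MeasureTheory
open scoped ENNReal ComplexConjugate

variable {E : Type} [NormedAddCommGroup E] [InnerProductSpace ℂ E] [CompleteSpace E]

/-- continuity of the weight -/
theorem ch_kl_w_cont : Continuous fun t : ℝ => (1 / (1 + t ^ 2) : ℝ) :=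
  continuous_const.div (by fun_prop) (fun t => by positivity)

/-- every term of the double sum is integrable -/
theorem ch_kl_pars_term (m m' : ℕ) (c : ℂ) :
    Integrable (fun t : ℝ => ((1 / (1 + t ^ 2) : ℝ) : ℂ) * (conj (chZeta t ^ m) * chZeta t ^ m') * c) volume := by
  have hw : Integrable (fun t : ℝ => (1 + t ^ 2)⁻¹ * ‖c‖) volume := integrable_inv_one_add_sq.mul_const _
  refine hw.mono' ?_ ?_
  · refine Continuous.aestronglyMeasurable ?_
    have h1 : Continuous fun t : ℝ => ((1 / (1 + t ^ 2) : ℝ) : ℂ) := Complex.continuous_ofReal.comp ch_kl_w_cont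
    have h2 := ch_kl_zeta_cont
    have h3 : Continuous fun t : ℝ => conj (chZeta t ^ m) := Complex.continuous_conj.comp (h2.pow m)
    exact (h1.mul (h3.mul (h2.pow m'))).mul continuous_const
  · refine Filter.Eventually.of_forall fun t => ?_
    have hpos : (0 : ℝ) < 1 + t ^ 2 := by positivity
    rw [norm_mul, norm_mul, norm_mul, RCLike.norm_conj, norm_pow, norm_pow, ch_kl_zeta_norm, one_pow, one_pow,
      Complex.norm_real, Real.norm_eq_abs, abs_of_pos (by positivity), one_div]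
    simp

omit [CompleteSpace E] in
/-- the square of the norm of a finite sum -/
theorem ch_kl_pars_sq (B : ℕ → E) (M : ℕ) (a : ℕ → ℂ) :
    ((‖∑ m ∈ Finset.range M, a m • B m‖ ^ 2 : ℝ) : ℂ)
      = ∑ m ∈ Finset.range M, ∑ m' ∈ Finset.range M, (conj (a m) * a m') * inner ℂ (B m) (B m') := by
  have h0 : inner ℂ (∑ m ∈ Finset.range M, a m • B m) (∑ m ∈ Finset.range M, a m • B m)
      = ((‖∑ m ∈ Finset.range M, a m • B m‖ : ℝ) : ℂ) ^ 2 := inner_self_eq_norm_sq_to_K _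
  rw [Complex.ofReal_pow, ← h0, sum_inner]
  refine Finset.sum_congr rfl fun m _ => ?_
  rw [inner_sum]
  refine Finset.sum_congr rfl fun m' _ => ?_
  rw [inner_smul_left, inner_smul_right]
  ring

omit [CompleteSpace E] in
/-- Parseval for finite sums -/
theorem ch_kl_pars_fin (B : ℕ → E) (M : ℕ) :
    Integrable (fun t : ℝ => 1 / (1 + t ^ 2) * ‖∑ m ∈ Finset.range M, chZeta t ^ m • B m‖ ^ 2) volume ∧
      ∫ t : ℝ, 1 / (1 + t ^ 2) * ‖∑ m ∈ Finset.range M, chZeta t ^ m • B m‖ ^ 2 = Real.pi * ∑ m ∈ Finset.range M, ‖B m‖ ^ 2 := by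
  have hpt : ∀ t : ℝ, ((1 / (1 + t ^ 2) * ‖∑ m ∈ Finset.range M, chZeta t ^ m • B m‖ ^ 2 : ℝ) : ℂ)
      = ∑ m ∈ Finset.range M, ∑ m' ∈ Finset.range M,
        ((1 / (1 + t ^ 2) : ℝ) : ℂ) * (conj (chZeta t ^ m) * chZeta t ^ m') * inner ℂ (B m) (B m') := by
    intro t
    rw [Complex.ofReal_mul, ch_kl_pars_sq, Finset.mul_sum]
    refine Finset.sum_congr rfl fun m _ => ?_
    rw [Finset.mul_sum]
    refine Finset.sum_congr rfl fun m' _ => ?_
    ring
  have hintC : Integrable (fun t : ℝ => ((1 / (1 + t ^ 2) * ‖∑ m ∈ Finset.range M, chZeta t ^ m • B m‖ ^ 2 : ℝ) : ℂ)) volume := by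
    simp only [hpt]
    exact integrable_finsetSum _ fun m _ => integrable_finsetSum _ fun m' _ => ch_kl_pars_term m m' _
  have hint : Integrable (fun t : ℝ => 1 / (1 + t ^ 2) * ‖∑ m ∈ Finset.range M, chZeta t ^ m • B m‖ ^ 2) volume := by
    refine hintC.re.congr (Filter.Eventually.of_forall fun t => ?_)
    exact Complex.ofReal_re _
  refine ⟨hint, ?_⟩
  have hC : ((∫ t : ℝ, 1 / (1 + t ^ 2) * ‖∑ m ∈ Finset.range M, chZeta t ^ m • B m‖ ^ 2 : ℝ) : ℂ)
      = ((Real.pi * ∑ m ∈ Finset.range M, ‖B m‖ ^ 2 : ℝ) : ℂ) := by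
    rw [← integral_complex_ofReal]
    simp only [hpt]
    rw [integral_finsetSum _ fun m _ => integrable_finsetSum _ fun m' _ => ch_kl_pars_term m m' _]
    rw [Complex.ofReal_mul, Complex.ofReal_sum, Finset.mul_sum]
    refine Finset.sum_congr rfl fun m hm => ?_
    rw [integral_finsetSum _ fun m' _ => ch_kl_pars_term m m' _]
    have h1 : ∀ m' ∈ Finset.range M, ∫ t : ℝ, ((1 / (1 + t ^ 2) : ℝ) : ℂ) * (conj (chZeta t ^ m) * chZeta t ^ m') * inner ℂ (B m) (B m')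
        = if m = m' then (Real.pi : ℂ) * inner ℂ (B m) (B m') else 0 := by
      intro m' _
      rw [integral_mul_const, ch_kl_zeta_orth]
      split_ifs <;> simp
    have h0 : inner ℂ (B m) (B m) = ((‖B m‖ : ℝ) : ℂ) ^ 2 := inner_self_eq_norm_sq_to_K _
    rw [Finset.sum_congr rfl h1, Finset.sum_ite_eq, if_pos hm, h0, Complex.ofReal_pow]
  exact_mod_cast hC

theorem ch_kl_parseval (B : ℕ → E) (hB : Summable fun m => ‖B m‖) :
    ∫⁻ t : ℝ, ENNReal.ofReal (1 / (1 + t ^ 2)) * ‖∑' m, chZeta t ^ m • B m‖ₑ ^ 2 ≤ ENNReal.ofReal Real.pi * ∑' m, ‖B m‖ₑ ^ 2 := by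
  -- the partial sums
  have hfin : ∀ M : ℕ, ∫⁻ t : ℝ, ENNReal.ofReal (1 / (1 + t ^ 2)) * ‖∑ m ∈ Finset.range M, chZeta t ^ m • B m‖ₑ ^ 2
      ≤ ENNReal.ofReal Real.pi * ∑' m, ‖B m‖ₑ ^ 2 := by
    intro M
    obtain ⟨hi, he⟩ := ch_kl_pars_fin B M
    have h1 : ∫⁻ t : ℝ, ENNReal.ofReal (1 / (1 + t ^ 2)) * ‖∑ m ∈ Finset.range M, chZeta t ^ m • B m‖ₑ ^ 2
        = ENNReal.ofReal (∫ t : ℝ, 1 / (1 + t ^ 2) * ‖∑ m ∈ Finset.range M, chZeta t ^ m • B m‖ ^ 2) := by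
      rw [ofReal_integral_eq_lintegral_ofReal hi (Filter.Eventually.of_forall fun t => by positivity)]
      refine lintegral_congr fun t => ?_
      rw [ENNReal.ofReal_mul (by positivity), ENNReal.ofReal_pow (norm_nonneg _), ofReal_norm]
    rw [h1, he, ENNReal.ofReal_mul Real.pi_pos.le, ENNReal.ofReal_sum_of_nonneg fun m _ => by positivity]
    refine mul_le_mul' le_rfl ?_
    calc ∑ m ∈ Finset.range M, ENNReal.ofReal (‖B m‖ ^ 2) = ∑ m ∈ Finset.range M, ‖B m‖ₑ ^ 2 := by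
          refine Finset.sum_congr rfl fun m _ => ?_
          rw [ENNReal.ofReal_pow (norm_nonneg _), ofReal_norm]
      _ ≤ ∑' m, ‖B m‖ₑ ^ 2 := ENNReal.sum_le_tsum _
  -- pointwise convergence
  have hsum : ∀ t : ℝ, Summable fun m => chZeta t ^ m • B m := by
    intro t
    refine Summable.of_norm ?_
    refine hB.congr fun m => ?_
    rw [norm_smul, norm_pow, ch_kl_zeta_norm, one_pow, one_mul]
  have hlim : ∀ t : ℝ, Filter.Tendsto
      (fun M : ℕ => ENNReal.ofReal (1 / (1 + t ^ 2)) * ‖∑ m ∈ Finset.range M, chZeta t ^ m • B m‖ₑ ^ 2) Filter.atTop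
      (nhds (ENNReal.ofReal (1 / (1 + t ^ 2)) * ‖∑' m, chZeta t ^ m • B m‖ₑ ^ 2)) := by
    intro t
    have h1 := (hsum t).hasSum.tendsto_sum_nat
    have h2 : Filter.Tendsto (fun M : ℕ => ‖∑ m ∈ Finset.range M, chZeta t ^ m • B m‖ₑ ^ 2) Filter.atTop
        (nhds (‖∑' m, chZeta t ^ m • B m‖ₑ ^ 2)) :=
      ((ENNReal.continuous_pow 2).tendsto _).comp ((continuous_enorm.tendsto _).comp h1)
    exact ENNReal.Tendsto.const_mul h2 (Or.inr ENNReal.ofReal_ne_top)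
  have hmeas : ∀ M : ℕ, Measurable fun t : ℝ =>
      ENNReal.ofReal (1 / (1 + t ^ 2)) * ‖∑ m ∈ Finset.range M, chZeta t ^ m • B m‖ₑ ^ 2 := by
    intro M
    have h1 : Continuous fun t : ℝ => ∑ m ∈ Finset.range M, chZeta t ^ m • B m :=
      continuous_finsetSum _ fun m _ => (ch_kl_zeta_cont.pow m).smul continuous_const
    have h2 : Measurable fun t : ℝ => ‖∑ m ∈ Finset.range M, chZeta t ^ m • B m‖ₑ := (continuous_enorm.comp h1).measurable
    exact (ENNReal.measurable_ofReal.comp ch_kl_w_cont.measurable).mul (h2.pow_const 2)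
  calc ∫⁻ t : ℝ, ENNReal.ofReal (1 / (1 + t ^ 2)) * ‖∑' m, chZeta t ^ m • B m‖ₑ ^ 2
      = ∫⁻ t : ℝ, Filter.liminf (fun M : ℕ => ENNReal.ofReal (1 / (1 + t ^ 2)) * ‖∑ m ∈ Finset.range M, chZeta t ^ m • B m‖ₑ ^ 2) Filter.atTop := by
        refine lintegral_congr fun t => ?_
        exact (hlim t).liminf_eq.symm
    _ ≤ Filter.liminf (fun M : ℕ => ∫⁻ t : ℝ, ENNReal.ofReal (1 / (1 + t ^ 2)) * ‖∑ m ∈ Finset.range M, chZeta t ^ m • B m‖ₑ ^ 2) Filter.atTop :=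
        lintegral_liminf_le hmeas
    _ ≤ ENNReal.ofReal Real.pi * ∑' m, ‖B m‖ₑ ^ 2 :=
        Filter.liminf_le_of_frequently_le' (Filter.Frequently.of_forall hfin)

end Claimed.Agent.R256
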