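import Claimed.Agent.R256.Chan.Fk.Basic

/-!
# Row 256, Chan/Fk, KEY LEMMA, leaf L-256-FK-KL1: the unimodular function `ζ(t) = (1-it)/(1+it)`      (architect helper132; prefix `ch_kl_`)      Mathlib only

`‖ζ‖ = 1`, continuity, and ORTHOGONALITY for the weight `dt/(1+t²)`.
PLAN for `ch_kl_zeta_orth`.  `conj ζ = ζ⁻¹`.   `d/dt ζ^k = -2ik ζ^k/(1+t²)` for `k ∈ ℤ` (or `k ∈ ℕ` and conjugate):  `dζ/dt = -2i/(1+it)²`, `ζ⁻¹/(1+it)² = 1/(1+t²)`.
So for `k ≠ 0`:  `ζ^k/(1+t²) = d/dt [(i/2k) ζ^k]`,  `ζ(t) → -1` as `t → ±∞`  ⇒ integral `= 0`   (`integral_of_hasDerivAt_of_tendsto`, `integrable_inv_one_add_sq`, `‖ζ^k/(1+t²)‖ = 1/(1+t²)`).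
`m = m'`: `integral_univ_inv_one_add_sq : ∫ (1+x²)⁻¹ = π`.     WLOG `m < m'` (take conjugates: `integral_conj`).   ~150 l.
-/

set_option autoImplicit false

namespace Claimed.Agent.R256

open MeasureTheory
open scoped ENNReal ComplexConjugate

theorem ch_kl_den_ne (t : ℝ) : (1 + t * Complex.I : ℂ) ≠ 0 := by
  intro h
  have := congrArg Complex.re h
  simp at this

theorem ch_kl_den_ne2 (t : ℝ) : (1 - t * Complex.I : ℂ) ≠ 0 := by
  intro h
  have := congrArg Complex.re h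
  simp at this

theorem ch_kl_den_mul (t : ℝ) : (1 + t * Complex.I : ℂ) * (1 - t * Complex.I) = ((1 + t ^ 2 : ℝ) : ℂ) := by
  push_cast
  have : Complex.I ^ 2 = -1 := Complex.I_sq
  linear_combination (-(t : ℂ) ^ 2) * this

theorem ch_kl_zeta_conj (t : ℝ) : conj (chZeta t) = (chZeta t)⁻¹ := by
  unfold chZeta
  rw [map_div₀, inv_div]
  simp [Complex.conj_ofReal, sub_eq_add_neg]

theorem ch_kl_zeta_norm (t : ℝ) : ‖chZeta t‖ = 1 := by
  have h1 : conj (chZeta t) * chZeta t = 1 := by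
    rw [ch_kl_zeta_conj]
    apply inv_mul_cancel₀
    unfold chZeta
    exact div_ne_zero (ch_kl_den_ne2 t) (ch_kl_den_ne t)
  have h2 : ((‖chZeta t‖ ^ 2 : ℝ) : ℂ) = 1 := by
    rw [← h1, mul_comm, Complex.mul_conj, Complex.normSq_eq_norm_sq]
  have h3 : ‖chZeta t‖ ^ 2 = 1 := by exact_mod_cast h2
  nlinarith [norm_nonneg (chZeta t)]

theorem ch_kl_zeta_cont : Continuous chZeta := by
  unfold chZeta
  apply Continuous.div
  · fun_prop
  · fun_prop
  · exact ch_kl_den_ne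

theorem ch_kl_zeta_deriv (t : ℝ) : HasDerivAt chZeta (-2 * Complex.I / (1 + t * Complex.I) ^ 2) t := by
  have h1 : HasDerivAt (fun t : ℝ => (1 - t * Complex.I : ℂ)) (-Complex.I) t := by
    have := ((Complex.ofRealCLM.hasDerivAt (x := t)).mul_const Complex.I).const_sub 1
    simpa using this
  have h2 : HasDerivAt (fun t : ℝ => (1 + t * Complex.I : ℂ)) (Complex.I) t := by
    have := ((Complex.ofRealCLM.hasDerivAt (x := t)).mul_const Complex.I).const_add 1
    simpa using this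
  have h3 : HasDerivAt (fun t : ℝ => (1 - t * Complex.I : ℂ) / (1 + t * Complex.I)) _ t := h1.div h2 (ch_kl_den_ne t)
  have h4 : chZeta = fun t : ℝ => (1 - t * Complex.I : ℂ) / (1 + t * Complex.I) := rfl
  rw [h4]
  refine h3.congr_deriv ?_
  ring

theorem ch_kl_zeta_eq (t : ℝ) : chZeta t = -1 + 2 / (1 + t * Complex.I) := by
  unfold chZeta
  have := ch_kl_den_ne t
  field_simp
  ring

theorem ch_kl_zeta_tendsto (l : Filter ℝ) (hl : Filter.Tendsto (fun t : ℝ => |t|) l Filter.atTop) : Filter.Tendsto chZeta l (nhds (-1)) := by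
  have h0 : Filter.Tendsto (fun t : ℝ => (2 / (1 + t * Complex.I) : ℂ)) l (nhds 0) := by
    rw [tendsto_zero_iff_norm_tendsto_zero]
    have hb : ∀ᶠ t : ℝ in l, ‖(2 / (1 + t * Complex.I) : ℂ)‖ ≤ 2 / |t| := by
      filter_upwards [hl.eventually_gt_atTop 0] with t ht
      rw [norm_div]
      have h2 : ‖(2 : ℂ)‖ = 2 := by simp
      rw [h2]
      apply div_le_div_of_nonneg_left (by norm_num) ht
      have := Complex.abs_im_le_norm (1 + t * Complex.I : ℂ)
      simpa using this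
    have h3 : Filter.Tendsto (fun t : ℝ => 2 / |t|) l (nhds 0) := hl.const_div_atTop 2
    exact squeeze_zero' (Filter.Eventually.of_forall fun t => norm_nonneg _) hb h3
  have : chZeta = fun t : ℝ => -1 + (2 / (1 + t * Complex.I) : ℂ) := funext ch_kl_zeta_eq
  rw [this]
  simpa using h0.const_add (-1)

theorem ch_kl_zeta_int (k : ℕ) : Integrable (fun t : ℝ => ((1 / (1 + t ^ 2) : ℝ) : ℂ) * chZeta t ^ k) := by
  have h1 : Integrable (fun t : ℝ => (1 + t ^ 2)⁻¹) := integrable_inv_one_add_sq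
  have h2 : Integrable (fun t : ℝ => (((1 + t ^ 2)⁻¹ : ℝ) : ℂ)) := h1.ofReal
  have h3 := h2.mul_bdd (g := fun t : ℝ => chZeta t ^ k) (c := 1) ((ch_kl_zeta_cont.pow k).aestronglyMeasurable)
    (Filter.Eventually.of_forall fun t => by show ‖chZeta t ^ k‖ ≤ 1; rw [norm_pow, ch_kl_zeta_norm, one_pow])
  refine h3.congr (Filter.Eventually.of_forall fun t => ?_)
  simp [one_div]

theorem ch_kl_zeta_zero (k : ℕ) (hk : k ≠ 0) : ∫ t : ℝ, ((1 / (1 + t ^ 2) : ℝ) : ℂ) * chZeta t ^ k = 0 := by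
  obtain ⟨n, rfl⟩ := Nat.exists_eq_succ_of_ne_zero hk
  have hk' : ((n + 1 : ℕ) : ℂ) ≠ 0 := by exact_mod_cast Nat.succ_ne_zero n
  have hd : ∀ t : ℝ, HasDerivAt (fun t : ℝ => Complex.I / (2 * ((n + 1 : ℕ) : ℂ)) * chZeta t ^ (n + 1))
      (((1 / (1 + t ^ 2) : ℝ) : ℂ) * chZeta t ^ (n + 1)) t := by
    intro t
    have := ((ch_kl_zeta_deriv t).fun_pow (n + 1)).const_mul (Complex.I / (2 * ((n + 1 : ℕ) : ℂ)))
    refine this.congr_deriv ?_
    symm
    have e1 := ch_kl_den_mul t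
    have e2 := ch_kl_den_ne t
    have e3 := ch_kl_den_ne2 t
    have e4 : ((1 / (1 + t ^ 2) : ℝ) : ℂ) = 1 / ((1 + t * Complex.I) * (1 - t * Complex.I)) := by
      rw [e1]; push_cast; rfl
    rw [e4, pow_succ (chZeta t) n]
    simp only [Nat.add_sub_cancel]
    have e5 : chZeta t = (1 - t * Complex.I) / (1 + t * Complex.I) := rfl
    have hI : Complex.I * Complex.I = -1 := Complex.I_mul_I
    generalize chZeta t ^ n = Z
    rw [e5]
    field_simp
    linear_combination Z * hI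
  have hb : Filter.Tendsto (fun t : ℝ => Complex.I / (2 * ((n + 1 : ℕ) : ℂ)) * chZeta t ^ (n + 1)) Filter.atBot
      (nhds (Complex.I / (2 * ((n + 1 : ℕ) : ℂ)) * (-1) ^ (n + 1))) :=
    ((ch_kl_zeta_tendsto Filter.atBot Filter.tendsto_abs_atBot_atTop).pow (n + 1)).const_mul _
  have ht : Filter.Tendsto (fun t : ℝ => Complex.I / (2 * ((n + 1 : ℕ) : ℂ)) * chZeta t ^ (n + 1)) Filter.atTop
      (nhds (Complex.I / (2 * ((n + 1 : ℕ) : ℂ)) * (-1) ^ (n + 1))) :=
    ((ch_kl_zeta_tendsto Filter.atTop Filter.tendsto_abs_atTop_atTop).pow (n + 1)).const_mul _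
  rw [integral_of_hasDerivAt_of_tendsto hd (ch_kl_zeta_int (n + 1)) hb ht, sub_self]

theorem ch_kl_zeta_orth (m m' : ℕ) :
    ∫ t : ℝ, ((1 / (1 + t ^ 2) : ℝ) : ℂ) * (conj (chZeta t ^ m) * chZeta t ^ m') = if m = m' then (Real.pi : ℂ) else 0 := by
  have hne : ∀ t, chZeta t ≠ 0 := fun t h => by
    have := ch_kl_zeta_norm t
    rw [h, norm_zero] at this
    exact zero_ne_one this
  have hle : ∀ a b : ℕ, ∀ t, conj (chZeta t ^ a) * chZeta t ^ (a + b) = chZeta t ^ b := by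
    intro a b t
    rw [map_pow, ch_kl_zeta_conj, pow_add, ← mul_assoc, ← mul_pow, inv_mul_cancel₀ (hne t), one_pow, one_mul]
  rcases lt_trichotomy m m' with h | h | h
  · obtain ⟨b, rfl⟩ := Nat.exists_eq_add_of_lt h
    rw [if_neg (by omega)]
    have : ∀ t, conj (chZeta t ^ m) * chZeta t ^ (m + b + 1) = chZeta t ^ (b + 1) := fun t => by
      rw [add_assoc]; exact hle m (b + 1) t
    simp only [this]
    exact ch_kl_zeta_zero (b + 1) (Nat.succ_ne_zero b)
  · subst h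
    rw [if_pos rfl]
    have : ∀ t, conj (chZeta t ^ m) * chZeta t ^ m = 1 := fun t => by
      have := hle m 0 t
      simpa using this
    simp only [this, mul_one]
    rw [integral_complex_ofReal]
    simp only [one_div]
    rw [integral_univ_inv_one_add_sq]
  · obtain ⟨b, rfl⟩ := Nat.exists_eq_add_of_lt h
    rw [if_neg (by omega)]
    have : ∀ t : ℝ, ((1 / (1 + t ^ 2) : ℝ) : ℂ) * (conj (chZeta t ^ (m' + b + 1)) * chZeta t ^ m')
        = conj (((1 / (1 + t ^ 2) : ℝ) : ℂ) * chZeta t ^ (b + 1)) := fun t => by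
      rw [map_mul, Complex.conj_ofReal, ← hle m' (b + 1) t, map_mul, Complex.conj_conj, add_assoc, mul_comm (chZeta t ^ m')]
    simp only [this]
    rw [integral_conj, ch_kl_zeta_zero (b + 1) (Nat.succ_ne_zero b), map_zero]

end Claimed.Agent.R256
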