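import Claimed.Agent.R256.Chan.Fk.Fib

/-!
# Row 256, Chan/Fk, LIFT, leaves L-256-FK-LIFT1 (`ch_fk_wy_*`) and L-256-FK-LIFT2 (`ch_fk_pair_sh`, `ch_fk_fib_sh`): the shear is removed by a Weyl translation      (architect helper132; prefix `ch_fk_`)

LIFT1.  `g~ u = chWy φ Tr α β g u = e^{i(β - Tr α)(u + κ)} g(u + κ)`, `κ = σα/H`.    `row T k g~ (D,N) = e^{iϑ} row T k g (D + β + (T-Tr)α, N + α)`:
   substitute `u' = u + κ` (`integral_add_right_eq_self`);   `pk T k (D,N) (u'-κ) e^{i(β - Tr α)u'} = e^{iϑ} pk T k (D + β + (T-Tr)α, N+α) u'`,   `ϑ = κ'(β + (T-Tr)α) - Tσα²/(2H)`, `κ' = σ(N+α)/H`: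
   the Gaussian factor: `u' - κ - σN/H = u' - κ'`;   phase: `(u'-κ')D - TH(u'-κ)²/(2σ) + (β - Tr α)u' = (u'-κ')(D + β + (T-Tr)α) - THu'²/(2σ) + ϑ`   (`THκ/σ = Tα`; `field_simp; ring`).   `‖e^{iϑ}‖ = 1`.
   `MemLp`: `‖g~ u‖ = ‖g (u+κ)‖`, translation invariance (`MemLp.comp_measurePreserving (measurePreserving_add_right ..)`).   ~250 l.
LIFT2.  `ch_fk_pair_sh`: `ν = c • volume` is translation invariant: `∫⁻ F(ρ) dν = ∫⁻ F(ρ + s) dν` (`lintegral_add_right_eq_self`), in both variables.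
   `ch_fk_fib_sh` = `ch_fk_fib` for `chWy φ Tr α β g`, `chWy φ' Tr α' β' g'`, rewritten by `ch_fk_pair_sh` and `ch_fk_wy_row` (the pair functional only sees `‖·‖ₑ`).   ~250 l.
-/

set_option autoImplicit false

namespace Claimed.Agent.R256

open MeasureTheory
open scoped ENNReal ComplexConjugate

/-- Weyl translation of a fibre state: velocity shift `α`, position shift `β` at the reference time `Tr` -/
noncomputable def chWy {E : Type} [NormedAddCommGroup E] [NormedSpace ℂ E] (φ : HyF) (Tr α β : ℝ) (g : ℝ → E) (u : ℝ) : E :=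
  Complex.exp (Complex.I * (((β - Tr * α) * (u + φ.sg * α / φ.H) : ℝ) : ℂ)) • g (u + φ.sg * α / φ.H)

/-- the shift of the rows at the time `T` -/
def chSh (Tr α β T : ℝ) : ℝ × ℝ := (β + (T - Tr) * α, α)

/-- the pair functional in sheared coordinates -/
noncomputable def chPairS {E : Type} [NormedAddCommGroup E] (ν ν' : Measure (ℝ × ℝ)) (W : ℝ × ℝ → ℝ≥0∞) (s s' : ℝ × ℝ) (R R' : ℝ × ℝ → E) : ℝ≥0∞ :=
  ∫⁻ ρ, ∫⁻ ρ', W ((ρ - s) - (ρ' - s')) * (‖R ρ‖ₑ ^ 2 * ‖R' ρ'‖ₑ ^ 2) ∂ν' ∂ν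

theorem ch_fk_liftw_eqns_cite : True := by
  have := @chWy.eq_1
  have := @chSh.eq_1
  have := @chPairS.eq_1
  trivial

/-- helper of LIFT1 (helper42): the packet identity -/
theorem ch_fk_wy_pk (φ : HyF) (h : φ.Ok) (Tr α β T : ℝ) (k : ℕ) (ρ : ℝ × ℝ) (u : ℝ) :
    φ.pk T k ρ (u - φ.sg * α / φ.H) * Complex.exp (Complex.I * (((β - Tr * α) * u : ℝ) : ℂ))
      = Complex.exp (Complex.I * ((φ.sg * (ρ.2 + α) / φ.H * (β + (T - Tr) * α) - T * φ.sg * α ^ 2 / (2 * φ.H) : ℝ) : ℂ)) * φ.pk T k (ρ + chSh Tr α β T) u := by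
  have hH := h.H_pos
  have hσ : 0 < φ.sg := lt_of_lt_of_le one_pos h.sg_lo
  unfold HyF.pk chSh
  have e1 : u - φ.sg * α / φ.H - φ.sg * ρ.2 / φ.H = u - φ.sg * (ρ + (β + (T - Tr) * α, α)).2 / φ.H := by
    show u - φ.sg * α / φ.H - φ.sg * ρ.2 / φ.H = u - φ.sg * (ρ.2 + α) / φ.H
    ring
  rw [e1]
  rw [mul_assoc, ← Complex.exp_add, mul_left_comm, ← Complex.exp_add, ← mul_add, ← mul_add, ← Complex.ofReal_add, ← Complex.ofReal_add]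
  congr 4
  show (u - φ.sg * (ρ.2 + α) / φ.H) * ρ.1 - T * φ.H * (u - φ.sg * α / φ.H) ^ 2 / (2 * φ.sg) + (β - Tr * α) * u
    = φ.sg * (ρ.2 + α) / φ.H * (β + (T - Tr) * α) - T * φ.sg * α ^ 2 / (2 * φ.H) + ((u - φ.sg * (ρ.2 + α) / φ.H) * (ρ.1 + (β + (T - Tr) * α)) - T * φ.H * u ^ 2 / (2 * φ.sg))
  field_simp
  ring

section vec

variable {E : Type} [NormedAddCommGroup E] [NormedSpace ℂ E]

theorem ch_fk_wy_row (φ : HyF) (h : φ.Ok) (Tr α β : ℝ) (g : ℝ → E) (T : ℝ) (k : ℕ) (ρ : ℝ × ℝ) :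
    ‖φ.row T k (chWy φ Tr α β g) ρ‖ₑ = ‖φ.row T k g (ρ + chSh Tr α β T)‖ₑ := by
  obtain ⟨θ, hθ⟩ : ∃ θ : ℝ, θ = φ.sg * (ρ.2 + α) / φ.H * (β + (T - Tr) * α) - T * φ.sg * α ^ 2 / (2 * φ.H) := ⟨_, rfl⟩
  have key : φ.row T k (chWy φ Tr α β g) ρ = Complex.exp (Complex.I * (θ : ℂ)) • φ.row T k g (ρ + chSh Tr α β T) := by
    unfold HyF.row chWy
    rw [← integral_smul]
    have e := integral_add_right_eq_self (μ := (volume : Measure ℝ))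
      (fun u => (φ.pk T k ρ (u - φ.sg * α / φ.H) * Complex.exp (Complex.I * (((β - Tr * α) * u : ℝ) : ℂ))) • g u) (φ.sg * α / φ.H)
    simp only [add_sub_cancel_right] at e
    simp only [smul_smul]
    rw [e]
    refine integral_congr_ae (Filter.Eventually.of_forall fun u => ?_)
    show (φ.pk T k ρ (u - φ.sg * α / φ.H) * Complex.exp (Complex.I * (((β - Tr * α) * u : ℝ) : ℂ))) • g u = _
    rw [ch_fk_wy_pk φ h, ← hθ]
  rw [key, enorm_smul]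
  have : ‖Complex.exp (Complex.I * (θ : ℂ))‖ₑ = 1 := by
    rw [← ofReal_norm, mul_comm, Complex.norm_exp_ofReal_mul_I, ENNReal.ofReal_one]
  rw [this, one_mul]

theorem ch_fk_wy_memLp (φ : HyF) (Tr α β : ℝ) (g : ℝ → E) (hg : MemLp g 2 volume) : MemLp (chWy φ Tr α β g) 2 volume := by
  have h1 : MemLp (g ∘ fun u => u + φ.sg * α / φ.H) 2 volume := hg.comp_measurePreserving (measurePreserving_add_right volume (φ.sg * α / φ.H))
  have hc : Continuous fun u : ℝ => Complex.exp (Complex.I * (((β - Tr * α) * (u + φ.sg * α / φ.H) : ℝ) : ℂ)) := by fun_prop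
  refine h1.of_le (hc.aestronglyMeasurable.smul h1.aestronglyMeasurable) (Filter.Eventually.of_forall fun u => ?_)
  show ‖Complex.exp (Complex.I * (((β - Tr * α) * (u + φ.sg * α / φ.H) : ℝ) : ℂ)) • g (u + φ.sg * α / φ.H)‖ ≤ ‖g (u + φ.sg * α / φ.H)‖
  rw [norm_smul, mul_comm Complex.I, Complex.norm_exp_ofReal_mul_I, one_mul]

theorem ch_fk_pair_sh (φ φ' : HyF) (W : ℝ × ℝ → ℝ≥0∞) (s s' : ℝ × ℝ) (R R' : ℝ × ℝ → E) :
    chPairS φ.nu φ'.nu W s s' R R' = chPair φ.nu φ'.nu W (fun ρ => R (ρ + s)) (fun ρ => R' (ρ + s')) := by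
  unfold chPairS chPair HyF.nu
  simp only [lintegral_smul_measure]
  congr 1
  rw [← lintegral_add_right_eq_self _ s]
  refine lintegral_congr fun ρ => ?_
  congr 1
  rw [← lintegral_add_right_eq_self _ s']
  refine lintegral_congr fun ρ' => ?_
  simp only [add_sub_cancel_right]

end vec

/-- **FK on two fibres, sheared coordinates** -/
theorem ch_fk_fib_sh : ∃ C : ℝ, 0 < C ∧ ∀ (E : Type) [NormedAddCommGroup E] [InnerProductSpace ℂ E] [CompleteSpace E] (φ φ' : HyF),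
    φ.Ok → φ'.Ok → φ'.H = φ.H → ∀ g g' : ℝ → E, MemLp g 2 volume → MemLp g' 2 volume → ∀ (Tr α β α' β' : ℝ) (T0 : ℝ) (k0 n : ℕ) (f : ℝ), φ.d (k0 + n) ≤ f →
    ∑ j ∈ Finset.range (2 ^ n), chPairS φ.nu φ'.nu (chBx (2 * f) (2 * ((2 : ℝ)⁻¹ ^ (k0 + n) * f)))
        (chSh Tr α β (T0 + (j : ℝ) * (2 : ℝ)⁻¹ ^ (k0 + n))) (chSh Tr α' β' (T0 + (j : ℝ) * (2 : ℝ)⁻¹ ^ (k0 + n)))
        (φ.row (T0 + (j : ℝ) * (2 : ℝ)⁻¹ ^ (k0 + n)) (k0 + n) g) (φ'.row (T0 + (j : ℝ) * (2 : ℝ)⁻¹ ^ (k0 + n)) (k0 + n) g') ≤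
      ENNReal.ofReal (C * f * (1 + Real.log (max 1 ((2 : ℝ)⁻¹ ^ n * f / φ.d k0)))) *
        chPairS φ.nu φ'.nu (fun z => chK (max (φ.d k0 ^ 2) (((2 : ℝ)⁻¹ ^ n * f) ^ 2)) (2 ^ k0 * z.1, z.2))
          (chSh Tr α β T0) (chSh Tr α' β' T0) (φ.row T0 k0 g) (φ'.row T0 k0 g') := by
  obtain ⟨C, hC, H⟩ := ch_fk_fib
  refine ⟨C, hC, ?_⟩
  intro E _ _ _ φ φ' h h' hH g g' hg hg' Tr α β α' β' T0 k0 n f hf
  have key := H E φ φ' h h' hH (chWy φ Tr α β g) (chWy φ' Tr α' β' g') (ch_fk_wy_memLp φ Tr α β g hg) (ch_fk_wy_memLp φ' Tr α' β' g' hg') T0 k0 n f hf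
  have e : ∀ (W : ℝ × ℝ → ℝ≥0∞) (T : ℝ) (k : ℕ), chPairS φ.nu φ'.nu W (chSh Tr α β T) (chSh Tr α' β' T) (φ.row T k g) (φ'.row T k g') =
      chPair φ.nu φ'.nu W (φ.row T k (chWy φ Tr α β g)) (φ'.row T k (chWy φ' Tr α' β' g')) := by
    intro W T k
    rw [ch_fk_pair_sh]
    unfold chPair
    simp only [ch_fk_wy_row φ h, ch_fk_wy_row φ' h']
  simp only [e]
  exact key

end Claimed.Agent.R256
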