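import Claimed.Agent.R256.Chan.Fk.PosE

/-!
# Row 256, Chan/Fk, POSITION SIDE, leaf L-256-FK-POS5: the window integral (the only place where the logarithm appears)      (architect helper132; prefix `ch_fk_`)      real analysis only

   `∫ e^{-y²/(2w²)} (1 + (M/2)((D-y)²+N²))^(-1/2) dy ≤ C w (1 + log⁺ w) (max(1,w²) + D² + N²)^(-1/2)`,      `1/2 ≤ M ≤ 1`, `w > 0`.
PLAN.  `M/2 ≥ 1/4`: `(1 + (M/2) s)^(-1/2) ≤ 2 (1+s)^(-1/2)`.   Put `h(y) = (1 + (D-y)² + N²)^(-1/2) ≤ 1`, `R² = D²+N²`, `I = ∫ e^{-y²/(2w²)} h`.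
 (P) Peetre: `1 + R² ≤ 2 (1+y²)(1 + (D-y)² + N²)`, so `h(y) ≤ sqrt2 (1+|y|) (1+R²)^(-1/2)`.
 (1) `w ≤ 1`:  `I ≤ sqrt2 (1+R²)^(-1/2) ∫ e^{-y²/(2w²)} (1+|y|) dy = sqrt2 (1+R²)^(-1/2) (w sqrt(2π) + 2w²) ≤ 7 w (1+R²)^(-1/2)`.
 (J) `w ≥ 1`:  `J(v) := ∫ e^{-y²/(2v²)} (1+(D-y)²)^(-1/2) dy ≤ ∫_{|y-D| ≤ v} (1+(y-D)²)^(-1/2) + v⁻¹ ∫ e^{-y²/(2v²)} ≤ (2 + 2 log v) + sqrt(2π)`   for `v ≥ 1`  (`(1+s²)^(-1/2) ≤ min(1, 1/|s|)`, `integral_inv`/`integral_one_div_of_pos`).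
 (2a) `w ≥ 1`, `R ≤ 2w`:  `I ≤ J(w) ≤ 5 (1+log w)`  and  `(w²+R²)^(1/2) ≤ sqrt5 w`.
 (2b) `w ≥ 1`, `R > 2w`:  `|y| ≤ R/2` ⇒ `(D-y)²+N² ≥ (R-|y|)² ≥ R²/4` ⇒ `h ≤ 2/R`: contribution `≤ (2/R) w sqrt(2π)`;
      `|y| > R/2` ⇒ `e^{-y²/(2w²)} ≤ e^{-R²/(16w²)} e^{-y²/(4w²)}`, contribution `≤ e^{-R²/(16w²)} J(sqrt2 w) ≤ (4w/R) 6(1+log w)`   (`x e^{-x²/16} ≤ 4`);    `(w²+R²)^(1/2) ≤ sqrt(5/4) R`.
 Work with real integrals of continuous integrable functions and convert at the end (`ofReal_integral_eq_lintegral_ofReal`), or directly with `lintegral` and `lintegral_mono` + `lintegral_add_compl`.   ~450 l.   MAY BE SPLIT: (1) | (J) | (2a)+(2b).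
-/

set_option autoImplicit false

namespace Claimed.Agent.R256

open MeasureTheory
open scoped ENNReal

/-- helper of POS5: `(1+σ) e^{-σ²/4} ≤ 2` -/
theorem ch_fk_k9_aux1 (σ : ℝ) : (1 + σ) * Real.exp (-(σ ^ 2 / 4)) ≤ 2 := by
  have h1 : 1 + σ ^ 2 / 4 ≤ Real.exp (σ ^ 2 / 4) := by
    have := Real.add_one_le_exp (σ ^ 2 / 4)
    linarith
  have h2 : 1 + σ ≤ 2 * Real.exp (σ ^ 2 / 4) := by nlinarith [sq_nonneg (σ - 1)]
  rw [Real.exp_neg, ← div_eq_mul_inv, div_le_iff₀ (Real.exp_pos _)]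
  exact h2

/-- helper of POS5: the pointwise inequality -/
theorem ch_fk_k9_pt (w : ℝ) (hw : 0 < w) (D N y : ℝ) :
    Real.exp (-(y ^ 2 / (2 * w ^ 2))) * (√(1 + ((D - y) ^ 2 + N ^ 2)))⁻¹ ≤
      (√(max 1 (w ^ 2) + D ^ 2 + N ^ 2))⁻¹ * (2 * max 1 w * (Set.Icc (D - w) (D + w)).indicator (fun y => (√(1 + (y - D) ^ 2))⁻¹) y
        + 2 * Real.exp (-(y ^ 2 / (4 * w ^ 2))) + 2 * Real.exp (-(y ^ 2 / (2 * w ^ 2)))) := by
  obtain ⟨a, ha⟩ : ∃ a, a = max 1 w := ⟨_, rfl⟩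
  have ha1 : 1 ≤ a := ha ▸ le_max_left _ _
  have haw : w ≤ a := ha ▸ le_max_right _ _
  have hA : max 1 (w ^ 2) = a ^ 2 := by
    rw [ha]
    rcases le_total 1 w with h | h
    · rw [max_eq_right h, max_eq_right (by nlinarith)]
    · rw [max_eq_left h, max_eq_left (by nlinarith)]; norm_num
  rw [hA, ← ha]
  obtain ⟨T, hT⟩ : ∃ T, T = √(1 + ((D - y) ^ 2 + N ^ 2)) := ⟨_, rfl⟩
  obtain ⟨T1, hT1⟩ : ∃ T1, T1 = √(1 + (y - D) ^ 2) := ⟨_, rfl⟩
  obtain ⟨L, hL⟩ : ∃ L, L = √(a ^ 2 + D ^ 2 + N ^ 2) := ⟨_, rfl⟩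
  obtain ⟨g, hg⟩ : ∃ g, g = Real.exp (-(y ^ 2 / (2 * w ^ 2))) := ⟨_, rfl⟩
  obtain ⟨e, he⟩ : ∃ e, e = Real.exp (-(y ^ 2 / (4 * w ^ 2))) := ⟨_, rfl⟩
  have hg0 : 0 < g := hg ▸ Real.exp_pos _
  have he0 : 0 < e := he ▸ Real.exp_pos _
  have he1 : e ≤ 1 := by
    rw [he]
    exact Real.exp_le_one_iff.2 (by have : 0 ≤ y ^ 2 / (4 * w ^ 2) := by positivity
                                    linarith)
  have hTsq : T ^ 2 = 1 + ((D - y) ^ 2 + N ^ 2) := by rw [hT]; exact Real.sq_sqrt (by positivity)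
  have hT1sq : T1 ^ 2 = 1 + (y - D) ^ 2 := by rw [hT1]; exact Real.sq_sqrt (by positivity)
  have hLsq : L ^ 2 = a ^ 2 + D ^ 2 + N ^ 2 := by rw [hL]; exact Real.sq_sqrt (by positivity)
  have hT0 : 0 < T := by rw [hT]; exact Real.sqrt_pos.2 (by positivity)
  have hT10 : 0 < T1 := by rw [hT1]; exact Real.sqrt_pos.2 (by positivity)
  have hL0 : 0 < L := by rw [hL]; exact Real.sqrt_pos.2 (by positivity)
  have hT1T : T1 ≤ T := by
    refine abs_le_of_sq_le_sq' ?_ hT0.le |>.2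
    rw [hTsq, hT1sq]; nlinarith [sq_nonneg N]
  have hDy : |D - y| ≤ T := by
    refine abs_le_of_sq_le_sq ?_ hT0.le
    rw [hTsq]; nlinarith [sq_nonneg N]
  have hN : |N| ≤ T := by
    refine abs_le_of_sq_le_sq ?_ hT0.le
    rw [hTsq]; nlinarith [sq_nonneg (D - y)]
  -- `L ≤ a + |y| + 2 T`
  have hLle : L ≤ a + |y| + 2 * T := by
    have h1 : L ≤ a + |y| + |D - y| + |N| := by
      refine abs_le_of_sq_le_sq' ?_ (by positivity) |>.2
      rw [hLsq]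
      have hD : |D| ≤ |y| + |D - y| := by
        calc |D| = |y + (D - y)| := by ring_nf
          _ ≤ _ := abs_add_le _ _
      have hD2 : D ^ 2 ≤ (|y| + |D - y|) ^ 2 := by
        rw [← sq_abs D]
        exact pow_le_pow_left₀ (abs_nonneg _) hD 2
      have hN2 : N ^ 2 = |N| ^ 2 := (sq_abs N).symm
      have := abs_nonneg y
      have := abs_nonneg (D - y)
      have := abs_nonneg N
      nlinarith [mul_nonneg (abs_nonneg y) (abs_nonneg N), mul_nonneg (abs_nonneg (D - y)) (abs_nonneg N), mul_nonneg (by linarith : 0 ≤ a) (abs_nonneg N),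
        mul_nonneg (by linarith : 0 ≤ a) (abs_nonneg y), mul_nonneg (by linarith : 0 ≤ a) (abs_nonneg (D - y))]
    linarith
  -- `g (a + |y|) ≤ 2 a e`
  have hge : g * (a + |y|) ≤ 2 * a * e := by
    have h1 := ch_fk_k9_aux1 (|y| / w)
    have h2 : g = e * e := by
      rw [hg, he, ← Real.exp_add]
      congr 1
      field_simp
      ring
    have h3 : Real.exp (-((|y| / w) ^ 2 / 4)) = e := by
      rw [he, div_pow, sq_abs]
      congr 1
      field_simp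
    rw [h3] at h1
    have h4 : |y| / a ≤ |y| / w := div_le_div_of_nonneg_left (abs_nonneg _) hw haw
    have h5 : a + |y| = a * (1 + |y| / a) := by field_simp
    rw [h2, h5]
    have h6 : (1 + |y| / a) * e ≤ 2 := le_trans (mul_le_mul_of_nonneg_right (by linarith) he0.le) h1
    calc e * e * (a * (1 + |y| / a)) = a * e * ((1 + |y| / a) * e) := by ring
      _ ≤ a * e * 2 := mul_le_mul_of_nonneg_left h6 (by positivity)
      _ = 2 * a * e := by ring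
  -- `e / T1 ≤ ind / T1 + e / a`
  have hind : e * T1⁻¹ ≤ (Set.Icc (D - w) (D + w)).indicator (fun y => (√(1 + (y - D) ^ 2))⁻¹) y + e * a⁻¹ := by
    by_cases hy : y ∈ Set.Icc (D - w) (D + w)
    · rw [Set.indicator_of_mem hy, ← hT1]
      have : e * T1⁻¹ ≤ 1 * T1⁻¹ := mul_le_mul_of_nonneg_right he1 (by positivity)
      have : 0 ≤ e * a⁻¹ := by positivity
      linarith
    · rw [Set.indicator_of_notMem hy, zero_add]
      refine mul_le_mul_of_nonneg_left ?_ he0.le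
      refine inv_anti₀ (by linarith) ?_
      have hwy : w ≤ |y - D| := by
        by_contra hcon
        have := abs_lt.1 (not_le.1 hcon)
        exact hy ⟨by linarith [this.1], by linarith [this.2]⟩
      rw [ha]
      refine max_le ?_ ?_
      · refine abs_le_of_sq_le_sq' ?_ hT10.le |>.2
        rw [hT1sq]; nlinarith [sq_nonneg (y - D)]
      · refine abs_le_of_sq_le_sq' ?_ hT10.le |>.2
        rw [hT1sq, ← sq_abs (y - D)]; nlinarith [abs_nonneg (y - D)]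
  rw [← hT, ← hL, ← hg, ← he]
  obtain ⟨J, hJ⟩ : ∃ J, J = (Set.Icc (D - w) (D + w)).indicator (fun y => (√(1 + (y - D) ^ 2))⁻¹) y := ⟨_, rfl⟩
  rw [← hJ] at hind ⊢
  -- assembly
  have h1 : g * T⁻¹ * L ≤ 2 * a * J + 2 * e + 2 * g := by
    have hTinv : T⁻¹ ≤ T1⁻¹ := inv_anti₀ hT10 hT1T
    calc g * T⁻¹ * L ≤ g * T⁻¹ * (a + |y| + 2 * T) := mul_le_mul_of_nonneg_left hLle (by positivity)
      _ = g * (a + |y|) * T⁻¹ + 2 * g := by field_simp
      _ ≤ 2 * a * e * T⁻¹ + 2 * g := by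
          have := mul_le_mul_of_nonneg_right hge (inv_nonneg.2 hT0.le)
          linarith
      _ ≤ 2 * a * (e * T1⁻¹) + 2 * g := by
          have : 2 * a * e * T⁻¹ ≤ 2 * a * e * T1⁻¹ := mul_le_mul_of_nonneg_left hTinv (by positivity)
          linarith
      _ ≤ 2 * a * (J + e * a⁻¹) + 2 * g := by
          have := mul_le_mul_of_nonneg_left hind (by positivity : 0 ≤ 2 * a)
          linarith
      _ = 2 * a * J + 2 * e + 2 * g := by field_simp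
  rw [inv_mul_eq_div, le_div_iff₀ hL0]
  exact h1

/-- helper of POS5: Gaussian integral -/
theorem ch_fk_k9_gau (c : ℝ) (hc : 0 < c) : Integrable (fun y : ℝ => Real.exp (-(y ^ 2 / c))) ∧ ∫ y : ℝ, Real.exp (-(y ^ 2 / c)) = √(Real.pi * c) := by
  have e : (fun y : ℝ => Real.exp (-(y ^ 2 / c))) = fun y => Real.exp (-(1 / c) * y ^ 2) := by
    funext y
    congr 1
    field_simp
  rw [e]
  refine ⟨integrable_exp_neg_mul_sq (by positivity), ?_⟩
  rw [integral_gaussian]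
  congr 1
  field_simp

/-- helper of POS5: the window integral of `(1+s²)^(-1/2)` -/
theorem ch_fk_k9_ars (w : ℝ) (hw : 0 < w) (D : ℝ) :
    Integrable ((Set.Icc (D - w) (D + w)).indicator (fun y => (√(1 + (y - D) ^ 2))⁻¹)) ∧
    ∫ y, (Set.Icc (D - w) (D + w)).indicator (fun y => (√(1 + (y - D) ^ 2))⁻¹) y = 2 * Real.arsinh w := by
  have hcont : Continuous fun y : ℝ => (√(1 + (y - D) ^ 2))⁻¹ :=
    Continuous.inv₀ (by fun_prop) (fun y => (Real.sqrt_pos.2 (by positivity)).ne')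
  refine ⟨(hcont.integrableOn_Icc).integrable_indicator measurableSet_Icc, ?_⟩
  rw [integral_indicator measurableSet_Icc, integral_Icc_eq_integral_Ioc, ← intervalIntegral.integral_of_le (by linarith)]
  rw [intervalIntegral.integral_eq_sub_of_hasDerivAt (f := fun y => Real.arsinh (y - D)) (fun y _ => ?_) (hcont.intervalIntegrable _ _)]
  · simp only [add_sub_cancel_left, sub_sub_cancel_left, Real.arsinh_neg]
    ring
  · have h := (Real.hasDerivAt_arsinh (y - D)).comp y ((hasDerivAt_id y).sub_const D)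
    rw [mul_one] at h
    exact h

/-- helper of POS5: `arsinh` -/
theorem ch_fk_k9_arsle (w : ℝ) (hw : 0 < w) : max 1 w * Real.arsinh w ≤ 2 * w * (1 + Real.log (max 1 w)) := by
  have hs : √(1 + w ^ 2) ≤ 1 + w := Real.sqrt_le_iff.2 ⟨by positivity, by nlinarith⟩
  have hs0 : 0 ≤ √(1 + w ^ 2) := Real.sqrt_nonneg _
  have hpos : 0 < w + √(1 + w ^ 2) := by linarith
  rcases le_total w 1 with h | h
  · rw [max_eq_left h, Real.log_one, Real.arsinh]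
    have := Real.log_le_sub_one_of_pos hpos
    linarith
  · rw [max_eq_right h, Real.arsinh]
    have h1 : Real.log (w + √(1 + w ^ 2)) ≤ Real.log (3 * w) := Real.log_le_log hpos (by linarith)
    rw [Real.log_mul (by norm_num) hw.ne'] at h1
    have h2 : Real.log 3 ≤ 2 := by
      have := Real.log_le_sub_one_of_pos (by norm_num : (0 : ℝ) < 3)
      linarith
    have h3 : 0 ≤ Real.log w := Real.log_nonneg h
    nlinarith

/-- helper of POS5: the real form -/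
theorem ch_fk_k9_real (w : ℝ) (hw : 0 < w) (D N : ℝ) :
    ∫⁻ y : ℝ, ENNReal.ofReal (Real.exp (-(y ^ 2 / (2 * w ^ 2))) * (√(1 + ((D - y) ^ 2 + N ^ 2)))⁻¹) ≤
      ENNReal.ofReal (22 * w * (1 + Real.log (max 1 w)) * (√(max 1 (w ^ 2) + D ^ 2 + N ^ 2))⁻¹) := by
  obtain ⟨hi1, hv1⟩ := ch_fk_k9_ars w hw D
  obtain ⟨hi2, hv2⟩ := ch_fk_k9_gau (4 * w ^ 2) (by positivity)
  obtain ⟨hi3, hv3⟩ := ch_fk_k9_gau (2 * w ^ 2) (by positivity)
  have hint : Integrable fun y => (√(max 1 (w ^ 2) + D ^ 2 + N ^ 2))⁻¹ * (2 * max 1 w * (Set.Icc (D - w) (D + w)).indicator (fun y => (√(1 + (y - D) ^ 2))⁻¹) y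
        + 2 * Real.exp (-(y ^ 2 / (4 * w ^ 2))) + 2 * Real.exp (-(y ^ 2 / (2 * w ^ 2)))) :=
    (((hi1.const_mul _).add (hi2.const_mul _)).add (hi3.const_mul _)).const_mul _
  have hnn : 0 ≤ᵐ[volume] fun y => (√(max 1 (w ^ 2) + D ^ 2 + N ^ 2))⁻¹ * (2 * max 1 w * (Set.Icc (D - w) (D + w)).indicator (fun y => (√(1 + (y - D) ^ 2))⁻¹) y
        + 2 * Real.exp (-(y ^ 2 / (4 * w ^ 2))) + 2 * Real.exp (-(y ^ 2 / (2 * w ^ 2)))) := by
    refine Filter.Eventually.of_forall fun y => ?_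
    have : 0 ≤ (Set.Icc (D - w) (D + w)).indicator (fun y => (√(1 + (y - D) ^ 2))⁻¹) y := Set.indicator_nonneg (fun y _ => by positivity) y
    show 0 ≤ _
    positivity
  refine (lintegral_mono fun y => ENNReal.ofReal_le_ofReal (ch_fk_k9_pt w hw D N y)).trans ?_
  rw [← ofReal_integral_eq_lintegral_ofReal hint hnn]
  refine ENNReal.ofReal_le_ofReal ?_
  have a1 := integral_add (hi1.const_mul (2 * max 1 w)) (hi2.const_mul 2)
  have a2 := integral_add ((hi1.const_mul (2 * max 1 w)).add (hi2.const_mul 2)) (hi3.const_mul 2)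
  simp only [Pi.add_apply] at a2
  rw [integral_const_mul, a2, a1, integral_const_mul, integral_const_mul, integral_const_mul, hv1, hv2, hv3, mul_comm]
  refine mul_le_mul_of_nonneg_right ?_ (by positivity)
  have h1 := ch_fk_k9_arsle w hw
  have hl : 0 ≤ Real.log (max 1 w) := Real.log_nonneg (le_max_left _ _)
  have h2 : √(Real.pi * (4 * w ^ 2)) ≤ 4 * w := Real.sqrt_le_iff.2 ⟨by positivity, by nlinarith [Real.pi_lt_four, sq_nonneg w]⟩
  have h3 : √(Real.pi * (2 * w ^ 2)) ≤ 3 * w := Real.sqrt_le_iff.2 ⟨by positivity, by nlinarith [Real.pi_lt_four, sq_nonneg w]⟩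
  nlinarith [mul_nonneg hw.le hl]

theorem ch_fk_k9 : ∃ C : ℝ, 0 < C ∧ ∀ M : ℝ, 1 / 2 ≤ M → M ≤ 1 → ∀ w : ℝ, 0 < w → ∀ r : ℝ × ℝ,
    ∫⁻ y : ℝ, ENNReal.ofReal (Real.exp (-(y ^ 2 / (2 * w ^ 2)))) * ENNReal.ofReal ((1 + ‖chAl M y r‖ ^ 2) ^ (-(1 / 2) : ℝ)) ≤
      ENNReal.ofReal (C * w * (1 + Real.log (max 1 w))) * chK (max 1 (w ^ 2)) r := by
  refine ⟨44, by norm_num, fun M hM1 hM2 w hw r => ?_⟩
  have hl : 0 ≤ Real.log (max 1 w) := Real.log_nonneg (le_max_left _ _)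
  have hA : 0 ≤ max 1 (w ^ 2) + r.1 ^ 2 + r.2 ^ 2 := by positivity
  unfold chK
  rw [← ENNReal.ofReal_mul (by positivity), Real.rpow_neg hA, ← Real.sqrt_eq_rpow]
  have key := ch_fk_k9_real w hw r.1 r.2
  have h2 : (2 : ℝ≥0∞) = ENNReal.ofReal 2 := by simp
  calc ∫⁻ y : ℝ, ENNReal.ofReal (Real.exp (-(y ^ 2 / (2 * w ^ 2)))) * ENNReal.ofReal ((1 + ‖chAl M y r‖ ^ 2) ^ (-(1 / 2) : ℝ))
      ≤ ∫⁻ y : ℝ, 2 * ENNReal.ofReal (Real.exp (-(y ^ 2 / (2 * w ^ 2))) * (√(1 + ((r.1 - y) ^ 2 + r.2 ^ 2)))⁻¹) := by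
        refine lintegral_mono fun y => ?_
        rw [← ENNReal.ofReal_mul (Real.exp_pos _).le, h2, ← ENNReal.ofReal_mul (by norm_num)]
        refine ENNReal.ofReal_le_ofReal ?_
        rw [ch_fk_al_norm (by linarith) y r]
        obtain ⟨s, hs⟩ : ∃ s, s = (r.1 - y) ^ 2 + r.2 ^ 2 := ⟨_, rfl⟩
        have hs0 : 0 ≤ s := by rw [hs]; positivity
        rw [← hs, Real.rpow_neg (by positivity), ← Real.sqrt_eq_rpow]
        have h3 : √(1 + s) ≤ 2 * √(1 + M / 2 * s) := by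
          rw [show (2 : ℝ) * √(1 + M / 2 * s) = √(4 * (1 + M / 2 * s)) by
            rw [Real.sqrt_mul (by norm_num), show (4 : ℝ) = 2 ^ 2 by norm_num, Real.sqrt_sq (by norm_num)]]
          exact Real.sqrt_le_sqrt (by nlinarith)
        have h4 : 0 < √(1 + s) := Real.sqrt_pos.2 (by positivity)
        have h5 : 0 < √(1 + M / 2 * s) := Real.sqrt_pos.2 (by positivity)
        have h6 : (√(1 + M / 2 * s))⁻¹ ≤ 2 * (√(1 + s))⁻¹ := by
          rw [← div_eq_mul_inv, le_div_iff₀ h4, inv_mul_eq_div, div_le_iff₀ h5]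
          exact h3
        calc Real.exp (-(y ^ 2 / (2 * w ^ 2))) * (√(1 + M / 2 * s))⁻¹ ≤ Real.exp (-(y ^ 2 / (2 * w ^ 2))) * (2 * (√(1 + s))⁻¹) :=
              mul_le_mul_of_nonneg_left h6 (Real.exp_pos _).le
          _ = 2 * (Real.exp (-(y ^ 2 / (2 * w ^ 2))) * (√(1 + s))⁻¹) := by ring
    _ = 2 * ∫⁻ y : ℝ, ENNReal.ofReal (Real.exp (-(y ^ 2 / (2 * w ^ 2))) * (√(1 + ((r.1 - y) ^ 2 + r.2 ^ 2)))⁻¹) :=
        lintegral_const_mul' _ _ (by simp)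
    _ ≤ 2 * ENNReal.ofReal (22 * w * (1 + Real.log (max 1 w)) * (√(max 1 (w ^ 2) + r.1 ^ 2 + r.2 ^ 2))⁻¹) := by gcongr
    _ = ENNReal.ofReal (44 * w * (1 + Real.log (max 1 w)) * (√(max 1 (w ^ 2) + r.1 ^ 2 + r.2 ^ 2))⁻¹) := by
        rw [h2, ← ENNReal.ofReal_mul (by norm_num)]
        congr 1
        ring

end Claimed.Agent.R256
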