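import Claimed.Agent.R256.Chan.Fk.PosKly
import Claimed.Agent.R256.Chan.Fk.PosK9

/-!
# Row 256, Chan/Fk, POSITION SIDE, leaf L-256-FK-POS6: the key lemma with a Gaussian window      (architect helper132; prefix `ch_fk_`)

PLAN.  Tonelli `t ↔ y` (`ch_fk_psi_meas`; `lintegral_lintegral_swap` on `volume.restrict (Icc 0 1)` and `volume`), `ch_fk_kly` for every `y`, Tonelli `y ↔ r` (the weight `(y,r) ↦ (1+‖chAl M y r‖²)^(-1/2)` is continuous), `ch_fk_k9` for every `r`.   ~150 l.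
-/

set_option autoImplicit false

namespace Claimed.Agent.R256

open MeasureTheory
open scoped ENNReal ComplexConjugate

theorem ch_fk_klw : ∃ C : ℝ, 0 < C ∧ ∀ (E : Type) [NormedAddCommGroup E] [InnerProductSpace ℂ E] [CompleteSpace E] (M : ℝ), 1 / 2 ≤ M → M ≤ 1 →
    ∀ F : ℝ × ℝ → E, ChNice F → ∀ w : ℝ, 0 < w →
    ∫⁻ t in Set.Icc (0 : ℝ) 1, ∫⁻ y : ℝ, ENNReal.ofReal (Real.exp (-(y ^ 2 / (2 * w ^ 2)))) * ‖chPsi M t F y‖ₑ ^ 2 ≤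
      ENNReal.ofReal (C * w * (1 + Real.log (max 1 w))) * ∫⁻ r, chK (max 1 (w ^ 2)) r * ‖F r‖ₑ ^ 2 ∂(chN M).nu := by
  obtain ⟨C1, hC1, h1⟩ := ch_fk_kly
  obtain ⟨C2, hC2, h2⟩ := ch_fk_k9
  refine ⟨C1 * C2, by positivity, ?_⟩
  intro E _ _ _ M hM hM1 F hF w hw
  have hM0 : 0 < M := by linarith
  obtain ⟨g, hg⟩ : ∃ g : ℝ → ℝ≥0∞, g = fun y => ENNReal.ofReal (Real.exp (-(y ^ 2 / (2 * w ^ 2)))) := ⟨_, rfl⟩
  obtain ⟨W, hW⟩ : ∃ W : ℝ → ℝ × ℝ → ℝ≥0∞, W = fun y r => ENNReal.ofReal ((1 + ‖chAl M y r‖ ^ 2) ^ (-(1 / 2) : ℝ)) := ⟨_, rfl⟩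
  have hg_meas : Measurable g := by
    rw [hg]
    apply ENNReal.measurable_ofReal.comp
    fun_prop
  have hg_top : ∀ y, g y ≠ ∞ := by
    intro y; rw [hg]; exact ENNReal.ofReal_ne_top
  have hW_meas : Measurable fun z : ℝ × (ℝ × ℝ) => W z.1 z.2 := by
    rw [hW]
    apply ENNReal.measurable_ofReal.comp
    apply Measurable.pow_const
    unfold chAl
    fun_prop
  have hFm : Measurable fun r : ℝ × ℝ => ‖F r‖ₑ ^ 2 := (hF.1.enorm).pow_const 2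
  have hPm : Measurable fun z : ℝ × ℝ => ‖chPsi M z.1 F z.2‖ₑ ^ 2 := ((ch_fk_psi_meas M hF.1).enorm).pow_const 2
  have hlog : 0 ≤ 1 + Real.log (max 1 w) := by
    have := Real.log_nonneg (le_max_left 1 w)
    linarith
  show ∫⁻ t in Set.Icc (0 : ℝ) 1, ∫⁻ y : ℝ, ENNReal.ofReal (Real.exp (-(y ^ 2 / (2 * w ^ 2)))) * ‖chPsi M t F y‖ₑ ^ 2 ≤ _
  calc ∫⁻ t in Set.Icc (0 : ℝ) 1, ∫⁻ y : ℝ, ENNReal.ofReal (Real.exp (-(y ^ 2 / (2 * w ^ 2)))) * ‖chPsi M t F y‖ₑ ^ 2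
      = ∫⁻ t in Set.Icc (0 : ℝ) 1, ∫⁻ y : ℝ, g y * ‖chPsi M t F y‖ₑ ^ 2 := by rw [hg]
    _ = ∫⁻ y : ℝ, ∫⁻ t in Set.Icc (0 : ℝ) 1, g y * ‖chPsi M t F y‖ₑ ^ 2 := by
        apply lintegral_lintegral_swap
        exact ((hg_meas.comp measurable_snd).mul hPm).aemeasurable
    _ = ∫⁻ y : ℝ, g y * ∫⁻ t in Set.Icc (0 : ℝ) 1, ‖chPsi M t F y‖ₑ ^ 2 :=
        lintegral_congr fun y => lintegral_const_mul' _ _ (hg_top y)
    _ ≤ ∫⁻ y : ℝ, g y * (ENNReal.ofReal C1 * ∫⁻ r, W y r * ‖F r‖ₑ ^ 2 ∂(chN M).nu) := by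
        refine lintegral_mono fun y => mul_le_mul' le_rfl ?_
        rw [hW]
        exact h1 E M hM0 hM1 F hF y
    _ = ∫⁻ y : ℝ, ENNReal.ofReal C1 * ∫⁻ r, g y * W y r * ‖F r‖ₑ ^ 2 ∂(chN M).nu := by
        refine lintegral_congr fun y => ?_
        rw [mul_left_comm, ← lintegral_const_mul' _ _ (hg_top y)]
        congr 1
        refine lintegral_congr fun r => ?_
        rw [mul_assoc]
    _ = ENNReal.ofReal C1 * ∫⁻ y : ℝ, ∫⁻ r, g y * W y r * ‖F r‖ₑ ^ 2 ∂(chN M).nu :=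
        lintegral_const_mul' _ _ ENNReal.ofReal_ne_top
    _ = ENNReal.ofReal C1 * ∫⁻ r, (∫⁻ y : ℝ, g y * W y r * ‖F r‖ₑ ^ 2) ∂(chN M).nu := by
        congr 1
        apply lintegral_lintegral_swap
        exact (((hg_meas.comp measurable_fst).mul hW_meas).mul (hFm.comp measurable_snd)).aemeasurable
    _ = ENNReal.ofReal C1 * ∫⁻ r, (∫⁻ y : ℝ, g y * W y r) * ‖F r‖ₑ ^ 2 ∂(chN M).nu := by
        congr 1
        refine lintegral_congr fun r => ?_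
        exact lintegral_mul_const' _ _ (by simp)
    _ ≤ ENNReal.ofReal C1 * ∫⁻ r, (ENNReal.ofReal (C2 * w * (1 + Real.log (max 1 w))) * chK (max 1 (w ^ 2)) r) * ‖F r‖ₑ ^ 2 ∂(chN M).nu := by
        refine mul_le_mul' le_rfl (lintegral_mono fun r => mul_le_mul' ?_ le_rfl)
        rw [hg, hW]
        exact h2 M hM hM1 w hw r
    _ = ENNReal.ofReal (C1 * C2 * w * (1 + Real.log (max 1 w))) * ∫⁻ r, chK (max 1 (w ^ 2)) r * ‖F r‖ₑ ^ 2 ∂(chN M).nu := by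
        have e : ∀ r : ℝ × ℝ, (ENNReal.ofReal (C2 * w * (1 + Real.log (max 1 w))) * chK (max 1 (w ^ 2)) r) * ‖F r‖ₑ ^ 2 =
            ENNReal.ofReal (C2 * w * (1 + Real.log (max 1 w))) * (chK (max 1 (w ^ 2)) r * ‖F r‖ₑ ^ 2) := fun r => mul_assoc _ _ _
        rw [lintegral_congr e, lintegral_const_mul' _ _ ENNReal.ofReal_ne_top, ← mul_assoc, ← ENNReal.ofReal_mul hC1.le]
        congr 2
        ring

end Claimed.Agent.R256
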