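import Claimed.Agent.R256.Chan.Fk.RepBes
import Claimed.Agent.R256.Chan.Fk.PosKlw

/-!
# Row 256, Chan/Fk, REPRESENTATION, leaf L-256-FK-REP3: THE KEY LEMMA FOR THE TRANSFER OF THE RELATIVE MODE      (architect helper132; prefix `ch_fk_`)

   `∫_0^1 dt ∫ e^{-D'²/w²} ‖tr 0 0 t n F (D',N')‖² dν_M ≤ C w (1+log⁺ w) ∫ (max(1,w²)+|r|²)^(-1/2) ‖F r‖² dν_M`,       `1/2 ≤ M ≤ 1`,  `w² ≥ 8·2^-n` (`≥ 4q²`, `q² = 2^-n/M ≤ 2·2^-n`).
PLAN.  Fix `t`; `ψ = chPsi M t F` (bounded: `ch_fk_psi_bd`; measurable: `ch_fk_psi_meas`).   `ν_M = M/(2π) dD' dN'` (`ch_fk_nuN`, `lintegral_smul_measure`, `volume_eq_prod`, `lintegral_prod`).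
 `‖tr F (D',N')‖ₑ² = ofReal ((πq²)^(-1/2)) ‖∫ chWp • ψ‖ₑ²` (`ch_fk_rep_tr`);   `ch_fk_rep_bes` in `N'`:
 `∫ e^{-D'²/w²} ‖tr F‖² dν ≤ (πq²)^(-1/2) ∫ dD' e^{-D'²/w²} ∫ dx e^{-(x-D')²/(2q²)} ‖ψ x‖²`.    Tonelli.
 `x² ≤ 2D'² + 2(x-D')²` ⇒ `e^{-D'²/w²} e^{-(x-D')²/(2q²)} ≤ e^{-x²/(2w²)} e^{-(x-D')²(1/(2q²) - 1/w²)} ≤ e^{-x²/(2w²)} e^{-(x-D')²/(4q²)}`,   `∫ e^{-(x-D')²/(4q²)} dD' = sqrt(4πq²)`:
 `∫ e^{-D'²/w²} ‖tr F‖² dν ≤ 2 ∫ e^{-x²/(2w²)} ‖ψ x‖² dx`.      Integrate in `t`, `ch_fk_klw`.   ~300 l.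
-/

set_option autoImplicit false

namespace Claimed.Agent.R256

open MeasureTheory
open scoped ENNReal ComplexConjugate

/-- REP3 helper: the pointwise Gaussian inequality -/
theorem ch_fk_klt_pt {w q2 : ℝ} (hw : 0 < w) (hq : 0 < q2) (h4 : 4 * q2 ≤ w ^ 2) (D x : ℝ) :
    Real.exp (-(D ^ 2 / w ^ 2)) * Real.exp (-((x - D) ^ 2 / (2 * q2))) ≤ Real.exp (-(x ^ 2 / (2 * w ^ 2))) * Real.exp (-(1 / (4 * q2)) * (D - x) ^ 2) := by
  rw [← Real.exp_add, ← Real.exp_add]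
  apply Real.exp_le_exp.2
  have hw2 : 0 < w ^ 2 := by positivity
  have h1 : x ^ 2 / (2 * w ^ 2) ≤ D ^ 2 / w ^ 2 + (x - D) ^ 2 / w ^ 2 := by
    rw [← add_div, div_le_div_iff₀ (by positivity) hw2]
    nlinarith [sq_nonneg (x - 2 * D), sq_nonneg w]
  have h2 : (x - D) ^ 2 / w ^ 2 ≤ (x - D) ^ 2 / (4 * q2) := div_le_div_of_nonneg_left (sq_nonneg _) (by positivity) h4
  have h3 : (x - D) ^ 2 / (2 * q2) = (x - D) ^ 2 / (4 * q2) + (x - D) ^ 2 / (4 * q2) := by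
    field_simp
    ring
  have h5 : -(1 / (4 * q2)) * (D - x) ^ 2 = -((x - D) ^ 2 / (4 * q2)) := by
    field_simp
    ring
  rw [h3, h5]
  linarith

/-- REP3 helper: the constants -/
theorem ch_fk_klt_c {q2 : ℝ} (hq : 0 < q2) : (Real.pi * q2) ^ (-(1 / 2) : ℝ) * Real.sqrt (Real.pi / (1 / (4 * q2))) = 2 := by
  have hπ := Real.pi_pos
  have h0 : 0 < Real.pi * q2 := by positivity
  rw [Real.rpow_neg h0.le, ← Real.sqrt_eq_rpow]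
  have e : Real.pi / (1 / (4 * q2)) = 2 ^ 2 * (Real.pi * q2) := by
    field_simp
    ring
  rw [e, Real.sqrt_mul (by positivity : (0 : ℝ) ≤ 2 ^ 2) (Real.pi * q2), Real.sqrt_sq (by norm_num)]
  have hs : Real.sqrt (Real.pi * q2) ≠ 0 := (Real.sqrt_pos.2 h0).ne'
  field_simp

/-- REP3 helper: the wave function at one time -/
theorem ch_fk_klt_psi {E : Type} [NormedAddCommGroup E] [NormedSpace ℂ E] (M : ℝ) {F : ℝ × ℝ → E} (hF : StronglyMeasurable F) (t : ℝ) :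
    StronglyMeasurable fun x : ℝ => chPsi M t F x := by
  have h0 := ch_fk_psi_meas M hF
  have h1 : Measurable fun x : ℝ => (t, x) := by fun_prop
  have h2 := h0.comp_measurable h1
  exact h2

section vec

variable {E : Type} [NormedAddCommGroup E] [InnerProductSpace ℂ E] [CompleteSpace E]

omit [CompleteSpace E] in
/-- REP3 helper: measurability of the rows -/
theorem ch_fk_klt_meas (M : ℝ) (n : ℕ) (ψ : ℝ → E) (hψ : StronglyMeasurable ψ) :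
    Measurable fun r' : ℝ × ℝ => ‖∫ x : ℝ, chWp M n r' x • ψ x‖ₑ ^ 2 := by
  have h : StronglyMeasurable fun z : (ℝ × ℝ) × ℝ => chWp M n z.1 z.2 • ψ z.2 :=
    (ch_fk_wp_cont M n).measurable.stronglyMeasurable.smul (hψ.comp_measurable measurable_snd)
  exact (h.integral_prod_right'.enorm).pow_const 2

/-- REP3 helper: one time, abstract wave function -/
theorem ch_fk_klt_abs {M : ℝ} (hM : 0 < M) (n : ℕ) {w : ℝ} (hw : 0 < w) (h4 : 4 * ((2 : ℝ)⁻¹ ^ n / M) ≤ w ^ 2)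
    (ψ : ℝ → E) (hψ : StronglyMeasurable ψ) (B : ℝ) (hB : ∀ x, ‖ψ x‖ ≤ B) :
    ∫⁻ r' : ℝ × ℝ, chGs w r' * (ENNReal.ofReal ((Real.pi * ((2 : ℝ)⁻¹ ^ n / M)) ^ (-(1 / 2) : ℝ)) * ‖∫ x : ℝ, chWp M n r' x • ψ x‖ₑ ^ 2) ∂(chN M).nu ≤
      2 * ∫⁻ y : ℝ, ENNReal.ofReal (Real.exp (-(y ^ 2 / (2 * w ^ 2)))) * ‖ψ y‖ₑ ^ 2 := by
  obtain ⟨q2, hq2⟩ : ∃ q2 : ℝ, q2 = (2 : ℝ)⁻¹ ^ n / M := ⟨_, rfl⟩
  have hq : 0 < q2 := by rw [hq2]; positivity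
  have hπ := Real.pi_pos
  have hbes := ch_fk_rep_bes hM n ψ hψ B hB
  rw [← hq2] at h4 hbes ⊢
  obtain ⟨c2, hc2⟩ : ∃ c2 : ℝ≥0∞, c2 = ENNReal.ofReal ((Real.pi * q2) ^ (-(1 / 2) : ℝ)) := ⟨_, rfl⟩
  have hc2t : c2 ≠ ∞ := by rw [hc2]; exact ENNReal.ofReal_ne_top
  rw [← hc2]
  obtain ⟨P, hP⟩ : ∃ P : ℝ → ℝ≥0∞, P = fun x => ‖ψ x‖ₑ ^ 2 := ⟨_, rfl⟩
  have hPm : Measurable P := by rw [hP]; exact hψ.enorm.pow_const 2
  obtain ⟨g, hg⟩ : ∃ g : ℝ → ℝ≥0∞, g = fun D => ENNReal.ofReal (Real.exp (-(D ^ 2 / w ^ 2))) := ⟨_, rfl⟩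
  have hgt : ∀ D, g D ≠ ∞ := fun D => by rw [hg]; exact ENNReal.ofReal_ne_top
  obtain ⟨g2, hg2⟩ : ∃ g2 : ℝ → ℝ≥0∞, g2 = fun x => ENNReal.ofReal (Real.exp (-(x ^ 2 / (2 * w ^ 2)))) := ⟨_, rfl⟩
  have hg2m : Measurable g2 := by
    rw [hg2]
    apply ENNReal.measurable_ofReal.comp
    fun_prop
  obtain ⟨k, hk⟩ : ∃ k : ℝ → ℝ≥0∞, k = fun y => ENNReal.ofReal (Real.exp (-(1 / (4 * q2)) * y ^ 2)) := ⟨_, rfl⟩
  have hkm : Measurable k := by rw [hk]; exact hy_g_gauss0_meas _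
  have hkI : ∀ x : ℝ, ∫⁻ D : ℝ, k (D - x) = ENNReal.ofReal (Real.sqrt (Real.pi / (1 / (4 * q2)))) := by
    intro x
    rw [lintegral_sub_right_eq_self k x, hk]
    exact hy_g_gauss0 (by positivity)
  have hGm := ch_fk_klt_meas M n ψ hψ
  have hm1 : Measurable fun r' : ℝ × ℝ => chGs w r' * (c2 * ‖∫ x : ℝ, chWp M n r' x • ψ x‖ₑ ^ 2) :=
    (ch_fk_Gs_meas w).mul (hGm.const_mul _)
  rw [ch_fk_nuN hM, lintegral_smul_measure, Measure.volume_eq_prod, lintegral_prod _ hm1.aemeasurable, smul_eq_mul]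
  calc ENNReal.ofReal (M / (2 * Real.pi)) * ∫⁻ D : ℝ, ∫⁻ N : ℝ, chGs w (D, N) * (c2 * ‖∫ x : ℝ, chWp M n (D, N) x • ψ x‖ₑ ^ 2)
      = ENNReal.ofReal (M / (2 * Real.pi)) * ∫⁻ D : ℝ, g D * (c2 * ∫⁻ N : ℝ, ‖∫ x : ℝ, chWp M n (D, N) x • ψ x‖ₑ ^ 2) := by
        congr 1
        refine lintegral_congr fun D => ?_
        have e : ∀ N : ℝ, chGs w (D, N) = g D := fun N => by rw [hg]; rfl
        simp_rw [e]
        rw [lintegral_const_mul' _ _ (hgt D), lintegral_const_mul' _ _ hc2t]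
    _ ≤ ENNReal.ofReal (M / (2 * Real.pi)) * ∫⁻ D : ℝ, g D * (c2 * (ENNReal.ofReal (2 * Real.pi / M) *
          ∫⁻ x : ℝ, ENNReal.ofReal (Real.exp (-((x - D) ^ 2 / (2 * q2)))) * P x)) := by
        refine mul_le_mul' le_rfl (lintegral_mono fun D => mul_le_mul' le_rfl (mul_le_mul' le_rfl ?_))
        rw [hP]
        exact hbes D
    _ = ∫⁻ D : ℝ, ∫⁻ x : ℝ, c2 * (g D * ENNReal.ofReal (Real.exp (-((x - D) ^ 2 / (2 * q2)))) * P x) := by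
        rw [← lintegral_const_mul' _ _ ENNReal.ofReal_ne_top]
        refine lintegral_congr fun D => ?_
        rw [lintegral_const_mul' _ _ hc2t]
        have e : ∀ x : ℝ, g D * ENNReal.ofReal (Real.exp (-((x - D) ^ 2 / (2 * q2)))) * P x = g D * (ENNReal.ofReal (Real.exp (-((x - D) ^ 2 / (2 * q2)))) * P x) :=
          fun x => mul_assoc _ _ _
        simp_rw [e]
        rw [lintegral_const_mul' _ _ (hgt D)]
        have e1 : ENNReal.ofReal (M / (2 * Real.pi)) * ENNReal.ofReal (2 * Real.pi / M) = 1 := by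
          rw [← ENNReal.ofReal_mul (by positivity)]
          have : M / (2 * Real.pi) * (2 * Real.pi / M) = 1 := by field_simp
          rw [this, ENNReal.ofReal_one]
        calc ENNReal.ofReal (M / (2 * Real.pi)) * (g D * (c2 * (ENNReal.ofReal (2 * Real.pi / M) * ∫⁻ x : ℝ, ENNReal.ofReal (Real.exp (-((x - D) ^ 2 / (2 * q2)))) * P x)))
            = (ENNReal.ofReal (M / (2 * Real.pi)) * ENNReal.ofReal (2 * Real.pi / M)) * (c2 * (g D * ∫⁻ x : ℝ, ENNReal.ofReal (Real.exp (-((x - D) ^ 2 / (2 * q2)))) * P x)) := by ring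
          _ = _ := by rw [e1, one_mul]
    _ ≤ ∫⁻ D : ℝ, ∫⁻ x : ℝ, c2 * (g2 x * k (D - x) * P x) := by
        refine lintegral_mono fun D => lintegral_mono fun x => mul_le_mul' le_rfl (mul_le_mul' ?_ le_rfl)
        rw [hg, hg2, hk]
        simp only
        rw [← ENNReal.ofReal_mul (Real.exp_pos _).le, ← ENNReal.ofReal_mul (Real.exp_pos _).le]
        exact ENNReal.ofReal_le_ofReal (ch_fk_klt_pt hw hq h4 D x)
    _ = ∫⁻ x : ℝ, ∫⁻ D : ℝ, c2 * (g2 x * k (D - x) * P x) := by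
        apply lintegral_lintegral_swap
        apply Measurable.aemeasurable
        apply Measurable.const_mul
        exact ((hg2m.comp measurable_snd).mul (hkm.comp (measurable_fst.sub measurable_snd))).mul (hPm.comp measurable_snd)
    _ = ∫⁻ x : ℝ, (c2 * ENNReal.ofReal (Real.sqrt (Real.pi / (1 / (4 * q2))))) * (g2 x * P x) := by
        refine lintegral_congr fun x => ?_
        have e : ∀ D : ℝ, c2 * (g2 x * k (D - x) * P x) = (c2 * (g2 x * P x)) * k (D - x) := fun D => by ring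
        simp_rw [e]
        rw [lintegral_const_mul _ (show Measurable fun D : ℝ => k (D - x) from hkm.comp (measurable_id.sub_const x)), hkI x]
        ring
    _ = 2 * ∫⁻ y : ℝ, g2 y * P y := by
        rw [lintegral_const_mul _ (show Measurable fun x : ℝ => g2 x * P x from hg2m.mul hPm), hc2, ← ENNReal.ofReal_mul (by positivity), ch_fk_klt_c hq]
        norm_num
    _ = _ := by rw [hg2, hP]

end vec

theorem ch_fk_klt : ∃ C : ℝ, 0 < C ∧ ∀ (E : Type) [NormedAddCommGroup E] [InnerProductSpace ℂ E] [CompleteSpace E] (M : ℝ), 1 / 2 ≤ M → M ≤ 1 →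
    ∀ F : ℝ × ℝ → E, ChNice F → ∀ (n : ℕ) (w : ℝ), 0 < w → 8 * (2 : ℝ)⁻¹ ^ n ≤ w ^ 2 →
    ∫⁻ t in Set.Icc (0 : ℝ) 1, ∫⁻ r', chGs w r' * ‖(chN M).tr 0 0 t n F r'‖ₑ ^ 2 ∂(chN M).nu ≤
      ENNReal.ofReal (C * w * (1 + Real.log (max 1 w))) * ∫⁻ r, chK (max 1 (w ^ 2)) r * ‖F r‖ₑ ^ 2 ∂(chN M).nu := by
  obtain ⟨C, hC, h⟩ := ch_fk_klw
  refine ⟨2 * C, by positivity, ?_⟩
  intro E _ _ _ M hM hM1 F hF n w hw hnw
  have hM0 : 0 < M := by linarith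
  have h4 : 4 * ((2 : ℝ)⁻¹ ^ n / M) ≤ w ^ 2 := by
    refine le_trans ?_ hnw
    have hp : (0 : ℝ) < (2 : ℝ)⁻¹ ^ n := by positivity
    rw [← mul_div_assoc, div_le_iff₀ hM0]
    nlinarith
  have hlog : 0 ≤ 1 + Real.log (max 1 w) := by
    have := Real.log_nonneg (le_max_left 1 w)
    linarith
  have hπ := Real.pi_pos
  have hq : 0 < Real.pi * ((2 : ℝ)⁻¹ ^ n / M) := by positivity
  have ht : ∀ t : ℝ, ∫⁻ r', chGs w r' * ‖(chN M).tr 0 0 t n F r'‖ₑ ^ 2 ∂(chN M).nu ≤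
      2 * ∫⁻ y : ℝ, ENNReal.ofReal (Real.exp (-(y ^ 2 / (2 * w ^ 2)))) * ‖chPsi M t F y‖ₑ ^ 2 := by
    intro t
    have hψ : StronglyMeasurable fun x : ℝ => chPsi M t F x := ch_fk_klt_psi M hF.1 t
    refine le_trans (le_of_eq (lintegral_congr fun r' => ?_))
      (ch_fk_klt_abs hM0 n hw h4 (fun x => chPsi M t F x) hψ _ (fun x => ch_fk_psi_bd hM0 hM1 hF t x))
    congr 1
    rw [ch_fk_rep_tr hM0 hM1 t n hF r', enorm_smul, mul_pow]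
    congr 1
    rw [← ofReal_norm, Complex.norm_real, Real.norm_of_nonneg (by positivity), ← ENNReal.ofReal_pow (by positivity),
      ← Real.rpow_natCast, ← Real.rpow_mul hq.le]
    norm_num
  calc ∫⁻ t in Set.Icc (0 : ℝ) 1, ∫⁻ r', chGs w r' * ‖(chN M).tr 0 0 t n F r'‖ₑ ^ 2 ∂(chN M).nu
      ≤ ∫⁻ t in Set.Icc (0 : ℝ) 1, 2 * ∫⁻ y : ℝ, ENNReal.ofReal (Real.exp (-(y ^ 2 / (2 * w ^ 2)))) * ‖chPsi M t F y‖ₑ ^ 2 := lintegral_mono fun t => ht t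
    _ = 2 * ∫⁻ t in Set.Icc (0 : ℝ) 1, ∫⁻ y : ℝ, ENNReal.ofReal (Real.exp (-(y ^ 2 / (2 * w ^ 2)))) * ‖chPsi M t F y‖ₑ ^ 2 :=
        lintegral_const_mul' _ _ (by norm_num)
    _ ≤ 2 * (ENNReal.ofReal (C * w * (1 + Real.log (max 1 w))) * ∫⁻ r, chK (max 1 (w ^ 2)) r * ‖F r‖ₑ ^ 2 ∂(chN M).nu) :=
        mul_le_mul' le_rfl (h E M hM hM1 F hF w hw)
    _ = _ := by
        rw [← mul_assoc]
        congr 1
        rw [show (2 : ℝ≥0∞) = ENNReal.ofReal 2 by norm_num, ← ENNReal.ofReal_mul (by norm_num)]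
        congr 1
        ring

end Claimed.Agent.R256
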