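import Claimed.Agent.R256.Chan.Fk.TwoCore
import Claimed.Agent.R256.Chan.Fk.RepMain

/-!
# Row 256, Chan/Fk, TWO PARTICLES, leaves L-256-FK-TWO5 (`ch_fk_s3_nice`) and L-256-FK-TWO6 (`ch_fk_s3`): THE CORE ESTIMATE IN NATURAL FRAMES      (architect helper132; prefix `ch_fk_`)

   `∫_0^1 chPair (e^{-D²/w²}) (tr_σ 0 0 t n F) (tr_σ' 0 0 t n F') dt ≤ C w (1+log⁺ w) chPair ((max(1,w²)+|z|²)^(-1/2)) F F'`.
TWO5 (nice `F, F'`).  `ch_fk_core` for every `t`;  Tonelli `t ↔ c` (`ch_fk_tr_meas` with `X = ℝ × ℝ`, `G = chFF σ σ' F F'`, `ch_fk_ff_meas`; `Measurable.lintegral_prod_right`);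
   `ch_fk_klt` for every `c` with the Hilbert space `HyT E`, `M = chRm σ σ' ∈ [1/2, 1]` and the nice function `chFF σ σ' F F' c` (`ch_fk_ff_nice`);  `ch_fk_back`.   ~200 l.
TWO6 (`F, F' ∈ L²`, strongly measurable).  `F_R = chTr R F` nice (`ch_fk_nice_tr`), `‖F_R‖ ≤ ‖F‖` so RHS(`F_R, F'_R`) `≤` RHS(`F, F'`).
   `tr F_R ρ' → tr F ρ'` for every `(t,ρ')`: dominated convergence (`tendsto_integral_of_dominated_convergence`, bound `‖kr ρ' ρ‖ ‖F ρ‖`, integrable by `hy_tr_int`.norm; `ch_fk_tr_eventually`).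
   Fatou on `volume.restrict (Icc 0 1)`, `ν_σ`, `ν_σ'` successively (`lintegral_liminf_le`; measurability by `ch_fk_tr_meas` with `X = Unit`/`hy_tr_meas` and `Measurable.lintegral_prod_right`), or once on the product measure.   ~350 l.
-/

set_option autoImplicit false

namespace Claimed.Agent.R256

open MeasureTheory
open scoped ENNReal ComplexConjugate

theorem ch_fk_rm_range {σ σ' : ℝ} (h1 : 1 ≤ σ) (h2 : σ ≤ 2) (h1' : 1 ≤ σ') (h2' : σ' ≤ 2) : 1 / 2 ≤ chRm σ σ' ∧ chRm σ σ' ≤ 1 := by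
  unfold chRm
  have hS : 0 < σ + σ' := by linarith
  constructor
  · rw [div_le_div_iff₀ (by norm_num) hS]
    nlinarith
  · rw [div_le_one hS]
    nlinarith

theorem ch_fk_s3_nice : ∃ C : ℝ, 0 < C ∧ ∀ (E : Type) [NormedAddCommGroup E] [InnerProductSpace ℂ E] [CompleteSpace E] (σ σ' : ℝ),
    1 ≤ σ → σ ≤ 2 → 1 ≤ σ' → σ' ≤ 2 → ∀ F F' : ℝ × ℝ → E, ChNice F → ChNice F' → ∀ (n : ℕ) (w : ℝ), 0 < w → 8 * (2 : ℝ)⁻¹ ^ n ≤ w ^ 2 →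
    ∫⁻ t in Set.Icc (0 : ℝ) 1, chPair (chN σ).nu (chN σ').nu (chGs w) ((chN σ).tr 0 0 t n F) ((chN σ').tr 0 0 t n F') ≤
      ENNReal.ofReal (C * w * (1 + Real.log (max 1 w))) * chPair (chN σ).nu (chN σ').nu (chK (max 1 (w ^ 2))) F F' := by
  obtain ⟨C, hC, hklt⟩ := ch_fk_klt
  refine ⟨C, hC, ?_⟩
  intro E _ _ _ σ σ' h1 h2 h1' h2' F F' hF hF' n w hw hwn
  have hσ : 0 < σ := by linarith
  have hσ' : 0 < σ' := by linarith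
  obtain ⟨hm1, hm2⟩ := ch_fk_rm_range h1 h2 h1' h2'
  have := hy_nu_sfinite (chN (σ + σ'))
  have := hy_nu_sfinite (chN (chRm σ σ'))
  have hTm : StronglyMeasurable fun x : (ℝ × (ℝ × ℝ)) × (ℝ × ℝ) => (chN (chRm σ σ')).tr 0 0 x.1.1 n (chFF σ σ' F F' x.1.2) x.2 :=
    ch_fk_tr_meas (chN (chRm σ σ')) n (chFF σ σ' F F') (ch_fk_ff_meas σ σ' hF.1 hF'.1)
  have hIm : Measurable fun x : (ℝ × (ℝ × ℝ)) × (ℝ × ℝ) => chGs w x.2 * ‖(chN (chRm σ σ')).tr 0 0 x.1.1 n (chFF σ σ' F F' x.1.2) x.2‖ₑ ^ 2 :=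
    ((ch_fk_Gs_meas w).comp measurable_snd).mul (hTm.enorm.pow_const 2)
  have hJm : Measurable fun y : ℝ × (ℝ × ℝ) => ∫⁻ r', chGs w r' * ‖(chN (chRm σ σ')).tr 0 0 y.1 n (chFF σ σ' F F' y.2) r'‖ₑ ^ 2 ∂(chN (chRm σ σ')).nu :=
    hIm.lintegral_prod_right'
  have hKm : Measurable fun x : (ℝ × ℝ) × (ℝ × ℝ) => chK (max 1 (w ^ 2)) x.2 * ‖chFF σ σ' F F' x.1 x.2‖ₑ ^ 2 :=
    ((ch_fk_K_meas _).comp measurable_snd).mul ((ch_fk_ff_meas σ σ' hF.1 hF'.1).enorm.pow_const 2)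
  calc ∫⁻ t in Set.Icc (0 : ℝ) 1, chPair (chN σ).nu (chN σ').nu (chGs w) ((chN σ).tr 0 0 t n F) ((chN σ').tr 0 0 t n F')
      ≤ ∫⁻ t in Set.Icc (0 : ℝ) 1, ∫⁻ c, ∫⁻ r', chGs w r' * ‖(chN (chRm σ σ')).tr 0 0 t n (chFF σ σ' F F' c) r'‖ₑ ^ 2 ∂(chN (chRm σ σ')).nu ∂(chN (σ + σ')).nu :=
        lintegral_mono fun t => ch_fk_core hσ hσ' hF hF' t n _ (ch_fk_Gs_meas w)
    _ = ∫⁻ c, (∫⁻ t in Set.Icc (0 : ℝ) 1, ∫⁻ r', chGs w r' * ‖(chN (chRm σ σ')).tr 0 0 t n (chFF σ σ' F F' c) r'‖ₑ ^ 2 ∂(chN (chRm σ σ')).nu) ∂(chN (σ + σ')).nu :=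
        lintegral_lintegral_swap (f := fun t c => ∫⁻ r', chGs w r' * ‖(chN (chRm σ σ')).tr 0 0 t n (chFF σ σ' F F' c) r'‖ₑ ^ 2 ∂(chN (chRm σ σ')).nu)
          hJm.aemeasurable
    _ ≤ ∫⁻ c, ENNReal.ofReal (C * w * (1 + Real.log (max 1 w))) * ∫⁻ r, chK (max 1 (w ^ 2)) r * ‖chFF σ σ' F F' c r‖ₑ ^ 2 ∂(chN (chRm σ σ')).nu ∂(chN (σ + σ')).nu :=
        lintegral_mono fun c => hklt (HyT E) (chRm σ σ') hm1 hm2 _ (ch_fk_ff_nice hσ hσ' hF hF' c) n w hw hwn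
    _ = ENNReal.ofReal (C * w * (1 + Real.log (max 1 w))) * ∫⁻ c, ∫⁻ r, chK (max 1 (w ^ 2)) r * ‖chFF σ σ' F F' c r‖ₑ ^ 2 ∂(chN (chRm σ σ')).nu ∂(chN (σ + σ')).nu :=
        lintegral_const_mul _ hKm.lintegral_prod_right'
    _ = _ := by rw [ch_fk_back hσ hσ' hF.1 hF'.1 _ (ch_fk_K_meas _)]

/-- the transfers of the truncations converge pointwise -/
theorem ch_fk_tr_lim {E : Type} [NormedAddCommGroup E] [InnerProductSpace ℂ E] [CompleteSpace E] (φ : HyF) (h : φ.Ok) (t : ℝ) (n : ℕ)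
    (F : ℝ × ℝ → E) (hFm : StronglyMeasurable F) (hF : MemLp F 2 φ.nu) (ρ' : ℝ × ℝ) :
    Filter.Tendsto (fun R : ℕ => φ.tr 0 0 t n (chTr R F) ρ') Filter.atTop (nhds (φ.tr 0 0 t n F ρ')) := by
  unfold HyF.tr
  refine tendsto_integral_of_dominated_convergence (fun ρ => ‖φ.kr 0 0 t n ρ' ρ • F ρ‖) (fun R => ?_) (hy_tr_int φ h 0 0 t n F hF ρ').norm
    (fun R => Filter.Eventually.of_forall fun ρ => ?_) (Filter.Eventually.of_forall fun ρ => ?_)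
  · exact (hy_tr_int φ h 0 0 t n _ (ch_fk_nice_int φ (ch_fk_nice_tr hFm R)).2 ρ').aestronglyMeasurable
  · rw [norm_smul, norm_smul]
    exact mul_le_mul_of_nonneg_left (ch_fk_tr_le F R ρ) (norm_nonneg _)
  · refine tendsto_const_nhds.congr' ?_
    filter_upwards [ch_fk_tr_eventually F ρ] with R hR
    rw [hR]

/-- joint measurability of the integrand of the time-integrated pair functional -/
theorem ch_fk_s3_meas {E : Type} [NormedAddCommGroup E] [InnerProductSpace ℂ E] [CompleteSpace E] (φ φ' : HyF) (n : ℕ) (W : ℝ × ℝ → ℝ≥0∞) (hW : Measurable W)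
    (F F' : ℝ × ℝ → E) (hF : StronglyMeasurable F) (hF' : StronglyMeasurable F') :
    Measurable fun x : ℝ × (ℝ × ℝ) × (ℝ × ℝ) => W (x.2.1 - x.2.2) * (‖φ.tr 0 0 x.1 n F x.2.1‖ₑ ^ 2 * ‖φ'.tr 0 0 x.1 n F' x.2.2‖ₑ ^ 2) := by
  have a1 : StronglyMeasurable fun x : ℝ × (ℝ × ℝ) × (ℝ × ℝ) => φ.tr 0 0 x.1 n F x.2.1 :=
    (ch_fk_tr_meas φ n (X := Unit) (fun _ => F) (hF.comp_measurable measurable_snd)).comp_measurable
      (g := fun x : ℝ × (ℝ × ℝ) × (ℝ × ℝ) => ((x.1, ()), x.2.1)) (by fun_prop)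
  have a2 : StronglyMeasurable fun x : ℝ × (ℝ × ℝ) × (ℝ × ℝ) => φ'.tr 0 0 x.1 n F' x.2.2 :=
    (ch_fk_tr_meas φ' n (X := Unit) (fun _ => F') (hF'.comp_measurable measurable_snd)).comp_measurable
      (g := fun x : ℝ × (ℝ × ℝ) × (ℝ × ℝ) => ((x.1, ()), x.2.2)) (by fun_prop)
  have a3 : Measurable fun x : ℝ × (ℝ × ℝ) × (ℝ × ℝ) => W (x.2.1 - x.2.2) := hW.comp (by fun_prop)
  exact a3.mul ((a1.enorm.pow_const 2).mul (a2.enorm.pow_const 2))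

/-- the time-integrated pair functional as ONE integral -/
theorem ch_fk_s3_prod {E : Type} [NormedAddCommGroup E] [InnerProductSpace ℂ E] [CompleteSpace E] (φ φ' : HyF) (n : ℕ) (W : ℝ × ℝ → ℝ≥0∞) (hW : Measurable W)
    (F F' : ℝ × ℝ → E) (hF : StronglyMeasurable F) (hF' : StronglyMeasurable F') :
    ∫⁻ t in Set.Icc (0 : ℝ) 1, chPair φ.nu φ'.nu W (φ.tr 0 0 t n F) (φ'.tr 0 0 t n F') =
      ∫⁻ x : ℝ × (ℝ × ℝ) × (ℝ × ℝ), W (x.2.1 - x.2.2) * (‖φ.tr 0 0 x.1 n F x.2.1‖ₑ ^ 2 * ‖φ'.tr 0 0 x.1 n F' x.2.2‖ₑ ^ 2)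
        ∂(((volume : Measure ℝ).restrict (Set.Icc 0 1)).prod (φ.nu.prod φ'.nu)) := by
  have := hy_nu_sfinite φ
  have := hy_nu_sfinite φ'
  have hm := ch_fk_s3_meas φ φ' n W hW F F' hF hF'
  rw [lintegral_prod _ hm.aemeasurable]
  refine lintegral_congr fun t => ?_
  unfold chPair
  have hm2 : Measurable fun y : (ℝ × ℝ) × (ℝ × ℝ) => W (y.1 - y.2) * (‖φ.tr 0 0 t n F y.1‖ₑ ^ 2 * ‖φ'.tr 0 0 t n F' y.2‖ₑ ^ 2) :=
    hm.comp (f := fun y : (ℝ × ℝ) × (ℝ × ℝ) => (t, y)) (by fun_prop)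
  rw [lintegral_prod _ hm2.aemeasurable]

theorem ch_fk_pair_le {E : Type} [NormedAddCommGroup E] (ν ν' : Measure (ℝ × ℝ)) (W : ℝ × ℝ → ℝ≥0∞) {R R' S S' : ℝ × ℝ → E}
    (h : ∀ z, ‖R z‖ ≤ ‖S z‖) (h' : ∀ z, ‖R' z‖ ≤ ‖S' z‖) : chPair ν ν' W R R' ≤ chPair ν ν' W S S' := by
  unfold chPair
  refine lintegral_mono fun ρ => lintegral_mono fun ρ' => ?_
  have e1 : ‖R ρ‖ₑ ≤ ‖S ρ‖ₑ := by
    rw [← ofReal_norm, ← ofReal_norm]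
    exact ENNReal.ofReal_le_ofReal (h ρ)
  have e2 : ‖R' ρ'‖ₑ ≤ ‖S' ρ'‖ₑ := by
    rw [← ofReal_norm, ← ofReal_norm]
    exact ENNReal.ofReal_le_ofReal (h' ρ')
  gcongr

theorem ch_fk_s3 : ∃ C : ℝ, 0 < C ∧ ∀ (E : Type) [NormedAddCommGroup E] [InnerProductSpace ℂ E] [CompleteSpace E] (σ σ' : ℝ),
    1 ≤ σ → σ ≤ 2 → 1 ≤ σ' → σ' ≤ 2 → ∀ F F' : ℝ × ℝ → E, StronglyMeasurable F → StronglyMeasurable F' → MemLp F 2 (chN σ).nu → MemLp F' 2 (chN σ').nu →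
    ∀ (n : ℕ) (w : ℝ), 0 < w → 8 * (2 : ℝ)⁻¹ ^ n ≤ w ^ 2 →
    ∫⁻ t in Set.Icc (0 : ℝ) 1, chPair (chN σ).nu (chN σ').nu (chGs w) ((chN σ).tr 0 0 t n F) ((chN σ').tr 0 0 t n F') ≤
      ENNReal.ofReal (C * w * (1 + Real.log (max 1 w))) * chPair (chN σ).nu (chN σ').nu (chK (max 1 (w ^ 2))) F F' := by
  obtain ⟨C, hC, hn⟩ := ch_fk_s3_nice
  refine ⟨C, hC, ?_⟩
  intro E _ _ _ σ σ' h1 h2 h1' h2' F F' hFm hFm' hF hF' n w hw hwn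
  have hσ : 0 < σ := by linarith
  have hσ' : 0 < σ' := by linarith
  set μ : Measure (ℝ × (ℝ × ℝ) × (ℝ × ℝ)) := ((volume : Measure ℝ).restrict (Set.Icc 0 1)).prod ((chN σ).nu.prod (chN σ').nu) with hμ
  set f : ℕ → ℝ × (ℝ × ℝ) × (ℝ × ℝ) → ℝ≥0∞ := fun R x =>
    chGs w (x.2.1 - x.2.2) * (‖(chN σ).tr 0 0 x.1 n (chTr R F) x.2.1‖ₑ ^ 2 * ‖(chN σ').tr 0 0 x.1 n (chTr R F') x.2.2‖ₑ ^ 2) with hf
  have hfm : ∀ R, Measurable (f R) := fun R =>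
    ch_fk_s3_meas (chN σ) (chN σ') n _ (ch_fk_Gs_meas w) _ _ (ch_fk_nice_tr hFm R).1 (ch_fk_nice_tr hFm' R).1
  have hlim : ∀ x : ℝ × (ℝ × ℝ) × (ℝ × ℝ), Filter.Tendsto (fun R => f R x) Filter.atTop
      (nhds (chGs w (x.2.1 - x.2.2) * (‖(chN σ).tr 0 0 x.1 n F x.2.1‖ₑ ^ 2 * ‖(chN σ').tr 0 0 x.1 n F' x.2.2‖ₑ ^ 2))) := by
    intro x
    have t1 : Filter.Tendsto (fun R : ℕ => ‖(chN σ).tr 0 0 x.1 n (chTr R F) x.2.1‖ₑ ^ 2) Filter.atTop (nhds (‖(chN σ).tr 0 0 x.1 n F x.2.1‖ₑ ^ 2)) :=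
      ((ENNReal.continuous_pow 2).tendsto _).comp ((continuous_enorm.tendsto _).comp (ch_fk_tr_lim _ (ch_fk_okN hσ) x.1 n F hFm hF x.2.1))
    have t2 : Filter.Tendsto (fun R : ℕ => ‖(chN σ').tr 0 0 x.1 n (chTr R F') x.2.2‖ₑ ^ 2) Filter.atTop (nhds (‖(chN σ').tr 0 0 x.1 n F' x.2.2‖ₑ ^ 2)) :=
      ((ENNReal.continuous_pow 2).tendsto _).comp ((continuous_enorm.tendsto _).comp (ch_fk_tr_lim _ (ch_fk_okN hσ') x.1 n F' hFm' hF' x.2.2))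
    have t3 := ENNReal.Tendsto.mul t1 (Or.inr (ENNReal.pow_ne_top enorm_ne_top)) t2 (Or.inr (ENNReal.pow_ne_top enorm_ne_top))
    refine ENNReal.Tendsto.const_mul t3 (Or.inr ?_)
    unfold chGs
    exact ENNReal.ofReal_ne_top
  rw [ch_fk_s3_prod _ _ n _ (ch_fk_Gs_meas w) F F' hFm hFm']
  calc ∫⁻ x, chGs w (x.2.1 - x.2.2) * (‖(chN σ).tr 0 0 x.1 n F x.2.1‖ₑ ^ 2 * ‖(chN σ').tr 0 0 x.1 n F' x.2.2‖ₑ ^ 2) ∂μ
      = ∫⁻ x, Filter.liminf (fun R => f R x) Filter.atTop ∂μ := lintegral_congr fun x => (hlim x).liminf_eq.symm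
    _ ≤ Filter.liminf (fun R => ∫⁻ x, f R x ∂μ) Filter.atTop := lintegral_liminf_le hfm
    _ ≤ Filter.liminf (fun _ : ℕ => ENNReal.ofReal (C * w * (1 + Real.log (max 1 w))) * chPair (chN σ).nu (chN σ').nu (chK (max 1 (w ^ 2))) F F') Filter.atTop := by
        refine Filter.liminf_le_liminf (Filter.Eventually.of_forall fun R => ?_)
        show ∫⁻ x, f R x ∂μ ≤ _
        rw [hf, hμ, ← ch_fk_s3_prod _ _ n _ (ch_fk_Gs_meas w) _ _ (ch_fk_nice_tr hFm R).1 (ch_fk_nice_tr hFm' R).1]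
        refine (hn E σ σ' h1 h2 h1' h2' _ _ (ch_fk_nice_tr hFm R) (ch_fk_nice_tr hFm' R) n w hw hwn).trans ?_
        gcongr
        exact ch_fk_pair_le _ _ _ (ch_fk_tr_le F R) (ch_fk_tr_le F' R)
    _ = _ := Filter.liminf_const _

end Claimed.Agent.R256
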