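import Claimed.Agent.R256.Chan.Fk.CrsS
import Claimed.Agent.R256.Chan.Fk.TwoMain

/-!
# Row 256, Chan/Fk: THE FREE KERNEL ESTIMATE IN NORMALISED UNITS      (architect helper132; prefix `ch_fk_`)      GLUE (no leaf)

`H = 1`, root frame `(0,0)`, `τ = 2^-n`, terminal frames `(jτ, n)`, `j < 2^n`;  widths `(f, τf)`, `τ f² ≥ 1` (i.e. `f ≥ d_τ`).
   `∑_j chPair 1[|ΔN| ≤ 2f, |ΔD| ≤ 2τf] (row (jτ) n g) (row (jτ) n g') ≤ C f (1+log⁺(τf)) chPair (max(1,τ²f²)+|z|²)^(-1/2) (row 0 0 g) (row 0 0 g')`.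
S1 (frame switch + time average) → `hy_tr_row` → S3 (core) → S4 (frame switch at the root).
-/

set_option autoImplicit false

namespace Claimed.Agent.R256

open MeasureTheory
open scoped ENNReal ComplexConjugate

theorem ch_fk_log8 (x : ℝ) : 1 + Real.log (max 1 (8 * x)) ≤ 4 * (1 + Real.log (max 1 x)) := by
  have h1 : max 1 (8 * x) ≤ 8 * max 1 x := by
    refine max_le ?_ ?_
    · have := le_max_left 1 x
      linarith
    · have := le_max_right 1 x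
      linarith
  have hm : 0 < max 1 x := lt_of_lt_of_le one_pos (le_max_left _ _)
  have h2 : Real.log (max 1 (8 * x)) ≤ Real.log 8 + Real.log (max 1 x) := by
    rw [← Real.log_mul (by norm_num) hm.ne']
    exact Real.log_le_log (lt_of_lt_of_le one_pos (le_max_left _ _)) h1
  have h3 : Real.log 8 ≤ 3 := by
    have e : (8 : ℝ) = 2 ^ 3 := by norm_num
    rw [e, Real.log_pow]
    have := Real.log_two_lt_d9
    push_cast
    linarith
  have h4 : 0 ≤ Real.log (max 1 x) := Real.log_nonneg (le_max_left _ _)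
  linarith

/-- sum over the time steps ≤ time average -/
theorem ch_fk_time_avg (n : ℕ) (B : ℕ → ℝ≥0∞) (A : ℝ → ℝ≥0∞) (c : ℝ≥0∞)
    (h : ∀ j : ℕ, j < 2 ^ n → ∀ t : ℝ, (j : ℝ) * (2 : ℝ)⁻¹ ^ n ≤ t → t ≤ (j : ℝ) * (2 : ℝ)⁻¹ ^ n + (2 : ℝ)⁻¹ ^ n → B j ≤ c * A t) :
    ENNReal.ofReal ((2 : ℝ)⁻¹ ^ n) * ∑ j ∈ Finset.range (2 ^ n), B j ≤ ∫⁻ t in Set.Icc (0 : ℝ) 1, c * A t := by
  set τ : ℝ := (2 : ℝ)⁻¹ ^ n with hτ
  have hτ0 : 0 < τ := by positivity
  have hτ1 : τ * 2 ^ n = 1 := by rw [hτ, ← mul_pow]; norm_num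
  let I : ℕ → Set ℝ := fun j => Set.Ioc ((j : ℝ) * τ) ((j : ℝ) * τ + τ)
  have hIm : ∀ j ∈ Finset.range (2 ^ n), MeasurableSet (I j) := fun j _ => measurableSet_Ioc
  have hId : Set.PairwiseDisjoint (↑(Finset.range (2 ^ n))) I := by
    intro i _ j _ hij
    rw [Function.onFun, Set.disjoint_left]
    intro x hx hx'
    rcases lt_or_gt_of_ne hij with hlt | hlt
    · have : (i : ℝ) + 1 ≤ j := by exact_mod_cast hlt
      have h3 : ((i : ℝ) + 1) * τ ≤ j * τ := mul_le_mul_of_nonneg_right this hτ0.le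
      have := hx.2
      have := hx'.1
      linarith
    · have : (j : ℝ) + 1 ≤ i := by exact_mod_cast hlt
      have h3 : ((j : ℝ) + 1) * τ ≤ i * τ := mul_le_mul_of_nonneg_right this hτ0.le
      have := hx.1
      have := hx'.2
      linarith
  have hsub : (⋃ j ∈ Finset.range (2 ^ n), I j) ⊆ Set.Icc (0 : ℝ) 1 := by
    intro x hx
    simp only [Set.mem_iUnion, Finset.mem_range] at hx
    obtain ⟨j, hj, hx1, hx2⟩ := hx
    have hj0 : (0 : ℝ) ≤ (j : ℝ) * τ := by positivity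
    have hj1 : (j : ℝ) + 1 ≤ 2 ^ n := by exact_mod_cast hj
    have h3 : ((j : ℝ) + 1) * τ ≤ 2 ^ n * τ := mul_le_mul_of_nonneg_right hj1 hτ0.le
    constructor
    · linarith
    · nlinarith
  calc ENNReal.ofReal τ * ∑ j ∈ Finset.range (2 ^ n), B j = ∑ j ∈ Finset.range (2 ^ n), ENNReal.ofReal τ * B j := Finset.mul_sum _ _ _
    _ ≤ ∑ j ∈ Finset.range (2 ^ n), ∫⁻ t in I j, c * A t := by
        refine Finset.sum_le_sum fun j hj => ?_
        have hv : volume (I j) = ENNReal.ofReal τ := by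
          rw [Real.volume_Ioc]; congr 1; ring
        calc ENNReal.ofReal τ * B j = ∫⁻ _t in I j, B j := by rw [setLIntegral_const, hv, mul_comm]
          _ ≤ ∫⁻ t in I j, c * A t := setLIntegral_mono' measurableSet_Ioc fun t ht =>
              h j (Finset.mem_range.1 hj) t ht.1.le ht.2
    _ = ∫⁻ t in ⋃ j ∈ Finset.range (2 ^ n), I j, c * A t := (lintegral_biUnion_finset hId hIm _).symm
    _ ≤ ∫⁻ t in Set.Icc (0 : ℝ) 1, c * A t := lintegral_mono_set hsub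

/-- **FK, normalised** -/
theorem ch_fk_norm : ∃ C : ℝ, 0 < C ∧ ∀ (E : Type) [NormedAddCommGroup E] [InnerProductSpace ℂ E] [CompleteSpace E] (σ σ' : ℝ),
    1 ≤ σ → σ ≤ 2 → 1 ≤ σ' → σ' ≤ 2 → ∀ g g' : ℝ → E, MemLp g 2 volume → MemLp g' 2 volume → ∀ (n : ℕ) (f : ℝ), 0 < f → 1 ≤ (2 : ℝ)⁻¹ ^ n * f ^ 2 →
    ∑ j ∈ Finset.range (2 ^ n), chPair (chB σ).nu (chB σ').nu (chBx (2 * f) (2 * ((2 : ℝ)⁻¹ ^ n * f)))
        ((chB σ).row ((j : ℝ) * (2 : ℝ)⁻¹ ^ n) n g) ((chB σ').row ((j : ℝ) * (2 : ℝ)⁻¹ ^ n) n g') ≤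
      ENNReal.ofReal (C * f * (1 + Real.log (max 1 ((2 : ℝ)⁻¹ ^ n * f)))) *
        chPair (chB σ).nu (chB σ').nu (chK (max 1 (((2 : ℝ)⁻¹ ^ n * f) ^ 2))) ((chB σ).row 0 0 g) ((chB σ').row 0 0 g') := by
  obtain ⟨C3, hC3, H3⟩ := ch_fk_s3
  refine ⟨9 * 9 * 400 * (C3 * 8 * 4) * (4 * 4 * 400), by positivity, ?_⟩
  intro E _ _ _ σ σ' h1 h2 h1' h2' g g' hg hg' n f hf hnf
  have hσ : 0 < σ := by linarith
  have hσ' : 0 < σ' := by linarith
  set τ : ℝ := (2 : ℝ)⁻¹ ^ n with hτ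
  have hτ0 : 0 < τ := by positivity
  set w : ℝ := 8 * (τ * f) with hw
  have hw0 : 0 < w := by positivity
  have hw8 : 8 * τ ≤ w ^ 2 := by
    have : w ^ 2 = 64 * τ * (τ * f ^ 2) := by rw [hw]; ring
    rw [this]
    nlinarith
  set P := chPair (chB σ).nu (chB σ').nu (chK (max 1 ((τ * f) ^ 2))) ((chB σ).row 0 0 g) ((chB σ').row 0 0 g') with hP
  set F := (chN σ).row 0 0 g with hF
  set F' := (chN σ').row 0 0 g' with hF'
  -- the time average
  have a1 := ch_fk_time_avg n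
    (fun j => chPair (chB σ).nu (chB σ').nu (chBx (2 * f) (2 * (τ * f))) ((chB σ).row ((j : ℝ) * τ) n g) ((chB σ').row ((j : ℝ) * τ) n g'))
    (fun t => chPair (chN σ).nu (chN σ').nu (chGs w) ((chN σ).row t n g) ((chN σ').row t n g'))
    (ENNReal.ofReal 9 * ENNReal.ofReal 9 * ENNReal.ofReal 400)
    (fun j _ t ht ht' => ch_fk_s1 h1 h2 h1' h2' g g' hg hg' n f _ t hf hnf ht ht')
  -- rows at the time t are transfers of the root rows
  have e1 : ∀ t : ℝ, (chN σ).row t n g = (chN σ).tr 0 0 t n F := fun t => by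
    funext ρ'
    exact (hy_tr_row (chN σ) (ch_fk_okN hσ) 0 0 t n g hg ρ').symm
  have e1' : ∀ t : ℝ, (chN σ').row t n g' = (chN σ').tr 0 0 t n F' := fun t => by
    funext ρ'
    exact (hy_tr_row (chN σ') (ch_fk_okN hσ') 0 0 t n g' hg' ρ').symm
  have a3 := H3 E σ σ' h1 h2 h1' h2' F F' (hy_row_meas _ _ _ _ hg.1) (hy_row_meas _ _ _ _ hg'.1)
    (hy_row_memLp _ (ch_fk_okN hσ) _ _ _ hg) (hy_row_memLp _ (ch_fk_okN hσ') _ _ _ hg') n w hw0 hw8
  have hA1 : (1 : ℝ) ≤ max 1 ((τ * f) ^ 2) := le_max_left _ _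
  have a4 := ch_fk_s4 h1 h2 h1' h2' g g' hg hg' hA1
  have a5 : chPair (chN σ).nu (chN σ').nu (chK (max 1 (w ^ 2))) F F' ≤ chPair (chN σ).nu (chN σ').nu (chK (max 1 ((τ * f) ^ 2))) F F' := by
    refine ch_fk_pair_mono _ _ (fun z => ch_fk_K_anti (by positivity) ?_ z) _ _
    refine max_le_max le_rfl ?_
    have : w ^ 2 = 64 * (τ * f) ^ 2 := by rw [hw]; ring
    rw [this]
    nlinarith [sq_nonneg (τ * f)]
  set c1 : ℝ≥0∞ := ENNReal.ofReal 9 * ENNReal.ofReal 9 * ENNReal.ofReal 400 with hc1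
  set c4 : ℝ≥0∞ := ENNReal.ofReal 4 * ENNReal.ofReal 4 * ENNReal.ofReal 400 with hc4
  set L : ℝ := 1 + Real.log (max 1 (τ * f)) with hL
  have hL0 : 0 < L := by
    have : 0 ≤ Real.log (max 1 (τ * f)) := Real.log_nonneg (le_max_left _ _)
    linarith
  have hLw : 1 + Real.log (max 1 w) ≤ 4 * L := ch_fk_log8 _
  have hLw0 : 0 ≤ 1 + Real.log (max 1 w) := by
    have : 0 ≤ Real.log (max 1 w) := Real.log_nonneg (le_max_left _ _)
    linarith
  set Sm := ∑ j ∈ Finset.range (2 ^ n), chPair (chB σ).nu (chB σ').nu (chBx (2 * f) (2 * (τ * f)))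
        ((chB σ).row ((j : ℝ) * τ) n g) ((chB σ').row ((j : ℝ) * τ) n g') with hSm
  have b1 : ENNReal.ofReal τ * Sm ≤ c1 * (ENNReal.ofReal (C3 * w * (1 + Real.log (max 1 w))) * (c4 * P)) := by
    refine a1.trans ?_
    rw [lintegral_const_mul' _ _ (by rw [hc1]; exact ENNReal.mul_ne_top (ENNReal.mul_ne_top ENNReal.ofReal_ne_top ENNReal.ofReal_ne_top) ENNReal.ofReal_ne_top)]
    refine mul_le_mul_right ?_ _
    simp only [e1, e1']
    refine a3.trans (mul_le_mul_right (a5.trans a4) _)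
  have b2 : Sm = ENNReal.ofReal τ⁻¹ * (ENNReal.ofReal τ * Sm) := by
    rw [← mul_assoc, ← ENNReal.ofReal_mul (by positivity), inv_mul_cancel₀ hτ0.ne', ENNReal.ofReal_one, one_mul]
  rw [b2]
  refine (mul_le_mul_right b1 _).trans ?_
  have hc1' : c1 = ENNReal.ofReal (9 * 9 * 400) := by
    rw [hc1, ← ENNReal.ofReal_mul (by norm_num), ← ENNReal.ofReal_mul (by norm_num)]
  have hc4' : c4 = ENNReal.ofReal (4 * 4 * 400) := by
    rw [hc4, ← ENNReal.ofReal_mul (by norm_num), ← ENNReal.ofReal_mul (by norm_num)]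
  have hX0 : 0 ≤ C3 * w * (1 + Real.log (max 1 w)) := by positivity
  have e5 : ENNReal.ofReal τ⁻¹ * (c1 * (ENNReal.ofReal (C3 * w * (1 + Real.log (max 1 w))) * (c4 * P))) =
      ENNReal.ofReal (τ⁻¹ * (9 * 9 * 400 * ((C3 * w * (1 + Real.log (max 1 w))) * (4 * 4 * 400)))) * P := by
    rw [hc1', hc4', ENNReal.ofReal_mul (inv_nonneg.2 hτ0.le), ENNReal.ofReal_mul (by norm_num : (0 : ℝ) ≤ 9 * 9 * 400),
      ENNReal.ofReal_mul hX0]
    ring
  rw [e5]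
  refine mul_le_mul_left (ENNReal.ofReal_le_ofReal ?_) _
  have e6 : τ⁻¹ * (9 * 9 * 400 * ((C3 * w * (1 + Real.log (max 1 w))) * (4 * 4 * 400))) =
      9 * 9 * 400 * (C3 * 8) * (4 * 4 * 400) * f * (1 + Real.log (max 1 w)) := by
    rw [hw]
    field_simp
  rw [e6]
  have e7 : 9 * 9 * 400 * (C3 * 8 * 4) * (4 * 4 * 400) * f * L = 9 * 9 * 400 * (C3 * 8) * (4 * 4 * 400) * f * (4 * L) := by ring
  rw [e7]
  exact mul_le_mul_of_nonneg_left hLw (by positivity)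

end Claimed.Agent.R256
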