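import Claimed.Agent.R256.Chan.Fk.Basic

/-!
# Row 256, Chan/Fk, POSITION SIDE, leaf L-256-FK-POS1: closed form of the evolved natural coherent state      (architect helper132; prefix `ch_fk_`)      checked numerically

`chPhi M t (D,N) x = (2π)^(-1/2) ∫ e^{i(ux - tu²/(2M))} conj (pk_M 0 0 (D,N) u) du`,  `conj pk = (1/(Mπ))^(1/4) exp(-(u-MN)²/(2M) - i(u-MN)D)`   (`ch_fk_pkN`, black box).
With `v = u - MN`:  exponent `= -v²(1+it)/(2M) + iv(x-D-tN) + iMNx - itMN²/2`;    `∫ exp(-a v² + i b v) dv = sqrt(π/a) exp(-b²/(4a))`, `a = (1+it)/(2M)`    (`integral_cexp_quadratic`, as in `Hyb/Ker.lean`).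
So  `chPhi M t r x = c(M,t) exp(M chQ t r x)`,  `c(M,t) = (2π)^(-1/2) (1/(Mπ))^(1/4) (π/a)^(1/2 : ℂ)` does NOT depend on `(r,x)`, and `chQ t (0,0) 0 = 0`: this gives `ch_fk_phi_cf` WITHOUT touching the branch of the root.
`‖c‖² = (2π)⁻¹ (Mπ)^(-1/2) π ‖a‖⁻¹ = sqrt(M/π)/sqrt(1+t²)`   (`Complex.norm_cpow_real`-type lemma, `‖1+it‖ = sqrt(1+t²)`).
`re (chQ t r x) = -(x-D-tN)²/(2(1+t²)) ≤ 0`.    Measurability: `StronglyMeasurable.integral_prod_right` of a continuous integrand (`ch_fk_pk_cont`), or from the closed form.    ~350 l.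
-/

set_option autoImplicit false

namespace Claimed.Agent.R256

open MeasureTheory
open scoped ENNReal ComplexConjugate

/-- helper of POS1: `1 + it ≠ 0` -/
theorem ch_fk_cf_ne (t : ℝ) : (1 + (t : ℂ) * Complex.I) ≠ 0 := by
  intro h
  have := congrArg Complex.re h
  simp at this

/-- helper of POS1: the integrand as the exponential of a quadratic polynomial -/
theorem ch_fk_cf_intg {M : ℝ} (hM : 0 < M) (t : ℝ) (r : ℝ × ℝ) (x u : ℝ) :
    Complex.exp (Complex.I * ((u * x - t * u ^ 2 / (2 * M) : ℝ) : ℂ)) * conj ((chN M).pk 0 0 r u)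
      = (((1 / (M * Real.pi)) ^ (1 / 4 : ℝ) : ℝ) : ℂ) * Complex.exp (-((1 + (t : ℂ) * Complex.I) / (2 * (M : ℂ))) * (u : ℂ) ^ 2 +
        ((r.2 : ℂ) + Complex.I * ((x : ℂ) - (r.1 : ℂ))) * (u : ℂ) + (-((M : ℂ) * (r.2 : ℂ) ^ 2 / 2) + Complex.I * ((M : ℂ) * (r.2 : ℂ) * (r.1 : ℂ)))) := by
  have hMc : (M : ℂ) ≠ 0 := Complex.ofReal_ne_zero.2 hM.ne'
  rw [ch_fk_pkN hM, map_mul, Complex.conj_ofReal, ← Complex.exp_conj, map_mul, Complex.conj_I, Complex.conj_ofReal, Complex.ofReal_mul, Complex.ofReal_exp,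
    pow_zero]
  rw [show ∀ a b c d : ℂ, a * (b * c * d) = b * (a * c * d) from fun a b c d => by ring, ← Complex.exp_add, ← Complex.exp_add]
  congr 2
  push_cast
  field_simp
  ring

/-- helper of POS1: the exponent -/
theorem ch_fk_cf_expo {M : ℝ} (hM : 0 < M) (t : ℝ) (r : ℝ × ℝ) (x : ℝ) :
    (-((M : ℂ) * (r.2 : ℂ) ^ 2 / 2) + Complex.I * ((M : ℂ) * (r.2 : ℂ) * (r.1 : ℂ))) - ((r.2 : ℂ) + Complex.I * ((x : ℂ) - (r.1 : ℂ))) ^ 2 / (4 * -((1 + (t : ℂ) * Complex.I) / (2 * (M : ℂ))))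
      = M * chQ t r x := by
  have hMc : (M : ℂ) ≠ 0 := Complex.ofReal_ne_zero.2 hM.ne'
  have h1 := ch_fk_cf_ne t
  unfold chQ
  push_cast
  obtain ⟨z, hz⟩ : ∃ z : ℂ, z = 1 + (t : ℂ) * Complex.I := ⟨_, rfl⟩
  rw [← hz] at h1 ⊢
  field_simp
  rw [hz]
  ring_nf
  simp only [Complex.I_sq]
  ring

/-- helper of POS1: the amplitude -/
noncomputable def chCfK (M t : ℝ) : ℂ :=
  (((2 * Real.pi) ^ (-(1 / 2) : ℝ) : ℝ) : ℂ) * ((((1 / (M * Real.pi)) ^ (1 / 4 : ℝ) : ℝ) : ℂ) * ((Real.pi : ℂ) / ((1 + (t : ℂ) * Complex.I) / (2 * (M : ℂ)))) ^ (1 / 2 : ℂ))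

theorem ch_fk_cf_cite : True := by
  have := @chCfK.eq_1
  trivial

/-- helper of POS1: the closed form -/
theorem ch_fk_cf_closed {M : ℝ} (hM : 0 < M) (t : ℝ) (r : ℝ × ℝ) (x : ℝ) : chPhi M t r x = chCfK M t * Complex.exp (M * chQ t r x) := by
  unfold chPhi chCfK
  simp_rw [ch_fk_cf_intg hM t r x]
  have hre : (-((1 + (t : ℂ) * Complex.I) / (2 * (M : ℂ)))).re < 0 := by
    have e : (1 + (t : ℂ) * Complex.I) / (2 * (M : ℂ)) = (((1 / (2 * M) : ℝ) : ℂ)) * (1 + (t : ℂ) * Complex.I) := by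
      push_cast
      ring
    rw [e, Complex.neg_re, Complex.re_ofReal_mul]
    simp
    exact hM
  rw [integral_const_mul, integral_cexp_quadratic hre, ch_fk_cf_expo hM, neg_neg]
  ring

theorem ch_fk_Q_zero (t : ℝ) : chQ t (0, 0) 0 = 0 := by
  unfold chQ
  simp

theorem ch_fk_cf_K {M : ℝ} (hM : 0 < M) (t : ℝ) : chPhi M t (0, 0) 0 = chCfK M t := by
  rw [ch_fk_cf_closed hM, ch_fk_Q_zero, mul_zero, Complex.exp_zero, mul_one]

theorem ch_fk_phi_cf {M : ℝ} (hM : 0 < M) (t : ℝ) (r : ℝ × ℝ) (x : ℝ) :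
    chPhi M t r x = chPhi M t (0, 0) 0 * Complex.exp (M * chQ t r x) := by
  rw [ch_fk_cf_K hM, ch_fk_cf_closed hM]

theorem ch_fk_phi_amp {M : ℝ} (hM : 0 < M) (t : ℝ) : ‖chPhi M t (0, 0) 0‖ ^ 2 = Real.sqrt (M / Real.pi) / Real.sqrt (1 + t ^ 2) := by
  rw [ch_fk_cf_K hM]
  unfold chCfK
  have hpi := Real.pi_pos
  have h2 : (1 / 2 : ℂ) = ((1 / 2 : ℝ) : ℂ) := by push_cast; rfl
  have h3 : ‖(1 : ℂ) + (t : ℂ) * Complex.I‖ = Real.sqrt (1 + t ^ 2) := by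
    have := Complex.norm_add_mul_I 1 t
    rw [Complex.ofReal_one, one_pow] at this
    exact this
  rw [norm_mul, norm_mul, Complex.norm_real, Complex.norm_real, h2, Complex.norm_cpow_real, norm_div, norm_div, norm_mul, Complex.norm_real, Complex.norm_real, h3,
    Real.norm_of_nonneg (by positivity), Real.norm_of_nonneg (by positivity), Real.norm_of_nonneg hpi.le, Real.norm_of_nonneg hM.le, Complex.norm_ofNat,
    mul_pow, mul_pow, ← Real.rpow_natCast, ← Real.rpow_natCast, ← Real.rpow_natCast, ← Real.rpow_mul (by positivity), ← Real.rpow_mul (by positivity), ← Real.rpow_mul (by positivity)]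
  have hs : 0 < Real.sqrt (1 + t ^ 2) := Real.sqrt_pos.2 (by positivity)
  norm_num
  have key : √(Real.pi⁻¹ * M⁻¹) * M = √(M / Real.pi) := by
    rw [show M / Real.pi = (Real.pi⁻¹ * M⁻¹) * M ^ 2 by field_simp, Real.sqrt_mul (x := Real.pi⁻¹ * M⁻¹) (by positivity) (M ^ 2), Real.sqrt_sq hM.le]
  rw [Real.rpow_neg_one, ← Real.sqrt_eq_rpow, ← key]
  field_simp

theorem ch_fk_Q_re (t : ℝ) (r : ℝ × ℝ) (x : ℝ) : (chQ t r x).re = -((x - r.1 - t * r.2) ^ 2 / (2 * (1 + t ^ 2))) := by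
  unfold chQ
  have h1 : (-((x - r.1 - t * r.2 : ℝ) : ℂ) ^ 2 / (2 * (1 + (t : ℂ) * Complex.I))) = ((-((x - r.1 - t * r.2) ^ 2 / (2 * (1 + t ^ 2))) : ℝ) : ℂ) * (1 - (t : ℂ) * Complex.I) := by
    have hne := ch_fk_cf_ne t
    have hne2 : ((1 : ℂ) + (t : ℂ) ^ 2) ≠ 0 := by
      have : (0 : ℝ) < 1 + t ^ 2 := by positivity
      exact_mod_cast this.ne'
    push_cast
    field_simp
    ring_nf
    simp only [Complex.I_sq]
    ring
  rw [h1, Complex.sub_re, Complex.add_re, Complex.re_ofReal_mul, Complex.I_mul_re, Complex.I_mul_re, Complex.ofReal_im, Complex.ofReal_im]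
  simp

/-- `‖chPhi‖ ≤ 1` for `M ≤ π` -/
theorem ch_fk_phi_le {M : ℝ} (hM : 0 < M) (hM1 : M ≤ 1) (t : ℝ) (r : ℝ × ℝ) (x : ℝ) : ‖chPhi M t r x‖ ≤ 1 := by
  rw [ch_fk_phi_cf hM, norm_mul, Complex.norm_exp, Complex.re_ofReal_mul, ch_fk_Q_re]
  have h1 : ‖chPhi M t (0, 0) 0‖ ≤ 1 := by
    refine abs_le_of_sq_le_sq' ?_ zero_le_one |>.2
    rw [ch_fk_phi_amp hM, one_pow, div_le_one (Real.sqrt_pos.2 (by positivity))]
    refine Real.sqrt_le_sqrt ?_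
    have : M / Real.pi ≤ 1 := by
      rw [div_le_one Real.pi_pos]
      linarith [Real.pi_gt_three]
    nlinarith [sq_nonneg t]
  have h2 : Real.exp (M * -((x - r.1 - t * r.2) ^ 2 / (2 * (1 + t ^ 2)))) ≤ 1 := by
    refine Real.exp_le_one_iff.2 ?_
    have : 0 ≤ M * ((x - r.1 - t * r.2) ^ 2 / (2 * (1 + t ^ 2))) := by positivity
    linarith
  calc ‖chPhi M t (0, 0) 0‖ * Real.exp (M * -((x - r.1 - t * r.2) ^ 2 / (2 * (1 + t ^ 2)))) ≤ 1 * 1 :=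
        mul_le_mul h1 h2 (Real.exp_pos _).le zero_le_one
    _ = 1 := one_mul 1

theorem ch_fk_phi_meas (M : ℝ) : Measurable fun z : ℝ × (ℝ × ℝ) × ℝ => chPhi M z.1 z.2.1 z.2.2 := by
  unfold chPhi
  refine measurable_const.mul ?_
  have h1 := ch_fk_pk_cont (chN M) 0
  have h0 : Continuous fun p : (ℝ × (ℝ × ℝ) × ℝ) × ℝ => ((0 : ℝ), p.1.2.1, p.2) := by fun_prop
  have h2 := h1.comp h0
  simp only [Function.comp_def] at h2
  have hc : Continuous fun p : (ℝ × (ℝ × ℝ) × ℝ) × ℝ =>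
      Complex.exp (Complex.I * ((p.2 * p.1.2.2 - p.1.1 * p.2 ^ 2 / (2 * M) : ℝ) : ℂ)) * conj ((chN M).pk 0 0 p.1.2.1 p.2) := by
    refine Continuous.mul (by fun_prop) ?_
    exact Complex.continuous_conj.comp h2
  exact (hc.stronglyMeasurable.integral_prod_right' (ν := volume)).measurable

end Claimed.Agent.R256
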