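import Claimed.Agent.R256.Chan.Fk.Basic

/-!
# Row 256, Chan/Fk, POSITION SIDE, leaf L-256-FK-POS2: the exponent in the complex coordinate; change of variables `r ↦ α`      (architect helper132; prefix `ch_fk_`)      checked numerically

`ch_fk_phi_E`:  with `α = chAl M y (D,N) = sqrt(M/2)((D-y) + iN)`:   `M chQ t (D,N) y = i M N (D+y)/2 - |α|²/2 - α² ζ(t)/2`.
   Pure algebra in `ℂ`: `α² = (M/2)((D-y)+iN)²`, `|α|² = (M/2)((D-y)²+N²)`, `ζ = 2/(1+it) - 1`, `1 + it ≠ 0`; `Real.sq_sqrt`; `field_simp; ring_nf; I² = -1`.   Prove the equality of the exponents, then `Complex.exp_add`.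
`ch_fk_cv_*`:  `r ↦ chAl M y r` is a bijection `ℝ × ℝ → ℂ` (inverse `chAlInv M y`), = `Complex.measurableEquivRealProd.symm ∘ (scaling by s = sqrt(M/2)) ∘ (translation by (y,0))`;
   `Complex.volume_preserving_equiv_real_prod`, `Measure.addHaar_smul`/`lintegral_comp_smul`-type lemmas or twice `integral_comp_mul_left` + Tonelli;   Jacobian `s² = M/2`,  `ν_M = M/(2π) dD dN`  ⇒  `dν_M = dα/π`.   ~300 l.
-/

set_option autoImplicit false

namespace Claimed.Agent.R256

open MeasureTheory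
open scoped ENNReal ComplexConjugate

/-- the algebraic identity of the exponents -/
theorem ch_fk_phi_E_alg (d N t y M : ℂ) (hu : 1 + t * Complex.I ≠ 0) :
    M * (-(y - (d + y) - t * N) ^ 2 / (2 * (1 + t * Complex.I)) + Complex.I * (N * y) - Complex.I * (t * N ^ 2 / 2))
      = Complex.I * (M * N * ((d + y) + y) / 2)
        + (-(M / 2 * (d ^ 2 + N ^ 2) / 2) - (M / 2 * (d + N * Complex.I) ^ 2) * ((1 - t * Complex.I) / (1 + t * Complex.I)) / 2) := by
  field_simp
  linear_combination (M * (N ^ 2 - 4 * d * t * N - 2 * t ^ 2 * N ^ 2 - Complex.I * t * N ^ 2)) * Complex.I_sq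

theorem ch_fk_phi_E {M : ℝ} (hM : 0 < M) (t : ℝ) (r : ℝ × ℝ) (y : ℝ) :
    Complex.exp (M * chQ t r y) = Complex.exp (Complex.I * ((M * r.2 * (r.1 + y) / 2 : ℝ) : ℂ)) * chE t (chAl M y r) := by
  have hu : (1 : ℂ) + (t : ℂ) * Complex.I ≠ 0 := by
    intro h
    have := congrArg Complex.re h
    simp at this
  have hs : ((Real.sqrt (M / 2) : ℝ) : ℂ) ^ 2 = (M : ℂ) / 2 := by
    rw [← Complex.ofReal_pow, Real.sq_sqrt (by positivity)]; push_cast; ring
  have hα2 : (chAl M y r) ^ 2 = (M : ℂ) / 2 * (((r.1 : ℂ) - y) + (r.2 : ℂ) * Complex.I) ^ 2 := by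
    unfold chAl; rw [mul_pow, hs]; push_cast; ring
  have hn : ‖chAl M y r‖ ^ 2 = M / 2 * ((r.1 - y) ^ 2 + r.2 ^ 2) := by
    unfold chAl
    rw [norm_mul, mul_pow, Complex.norm_real, Real.norm_eq_abs, sq_abs, Real.sq_sqrt (by positivity), Complex.sq_norm,
      Complex.normSq_apply]
    congr 1
    simp
    ring
  unfold chE
  rw [← Complex.exp_add]
  congr 1
  unfold chQ chZeta
  rw [hα2, hn]
  have h := ch_fk_phi_E_alg ((r.1 : ℂ) - y) r.2 t y M hu
  push_cast
  rw [show ((r.1 : ℂ) - y + y) = r.1 by ring] at h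
  linear_combination h

theorem ch_fk_al_inv {M : ℝ} (hM : 0 < M) (y : ℝ) (α : ℂ) : chAl M y (chAlInv M y α) = α := by
  have hs : Real.sqrt (M / 2) ≠ 0 := (Real.sqrt_pos.2 (by positivity)).ne'
  have hs' : ((Real.sqrt (M / 2) : ℝ) : ℂ) ≠ 0 := Complex.ofReal_ne_zero.2 hs
  unfold chAl chAlInv
  simp only
  push_cast
  have : ((Real.sqrt (M / 2) : ℝ) : ℂ) * ((y : ℂ) + (α.re : ℂ) / ((Real.sqrt (M / 2) : ℝ) : ℂ) - y + (α.im : ℂ) / ((Real.sqrt (M / 2) : ℝ) : ℂ) * Complex.I)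
      = (α.re : ℂ) + (α.im : ℂ) * Complex.I := by
    field_simp
    ring
  rw [this, Complex.re_add_im]

theorem ch_fk_inv_al {M : ℝ} (hM : 0 < M) (y : ℝ) (r : ℝ × ℝ) : chAlInv M y (chAl M y r) = r := by
  have hs : Real.sqrt (M / 2) ≠ 0 := (Real.sqrt_pos.2 (by positivity)).ne'
  unfold chAlInv chAl
  ext
  · simp
    field_simp
    ring
  · simp
    field_simp

theorem ch_fk_al_norm {M : ℝ} (hM : 0 < M) (y : ℝ) (r : ℝ × ℝ) : ‖chAl M y r‖ ^ 2 = M / 2 * ((r.1 - y) ^ 2 + r.2 ^ 2) := by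
  unfold chAl
  rw [norm_mul, mul_pow, Complex.norm_real, Real.norm_eq_abs, sq_abs, Real.sq_sqrt (by positivity), Complex.sq_norm,
    Complex.normSq_apply]
  congr 1
  simp
  ring

theorem ch_fk_al_cont (M y : ℝ) : Continuous (chAl M y) := by
  unfold chAl
  fun_prop

theorem ch_fk_alinv_cont (M y : ℝ) : Continuous (chAlInv M y) := by
  unfold chAlInv
  fun_prop

/-- `chAl M y` is a measurable embedding -/
theorem ch_fk_al_emb {M : ℝ} (hM : 0 < M) (y : ℝ) : MeasurableEmbedding (chAl M y) :=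
  (⟨⟨chAl M y, chAlInv M y, ch_fk_inv_al hM y, ch_fk_al_inv hM y⟩, (ch_fk_al_cont M y).measurable,
    (ch_fk_alinv_cont M y).measurable⟩ : (ℝ × ℝ) ≃ᵐ ℂ).measurableEmbedding

/-- the image of the row measure is `dα/π` -/
theorem ch_fk_al_map {M : ℝ} (hM : 0 < M) (y : ℝ) :
    Measure.map (chAl M y) (chN M).nu = ENNReal.ofReal (1 / Real.pi) • (volume : Measure ℂ) := by
  have hs0 : 0 < Real.sqrt (M / 2) := Real.sqrt_pos.2 (by positivity)
  have hfun : chAl M y = Complex.measurableEquivRealProd.symm ∘ ((fun x : ℝ × ℝ => Real.sqrt (M / 2) • x) ∘ (fun x : ℝ × ℝ => x - (y, 0))) := by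
    funext r
    apply Complex.measurableEquivRealProd.injective
    simp only [Function.comp_apply, MeasurableEquiv.apply_symm_apply]
    unfold chAl
    ext <;> simp [Complex.measurableEquivRealProd]
  have hm1 : Measurable (fun x : ℝ × ℝ => x - (y, (0 : ℝ))) := measurable_id.sub_const _
  have hm2 : Measurable (fun x : ℝ × ℝ => Real.sqrt (M / 2) • x) := measurable_const_smul _
  rw [ch_fk_nuN hM, Measure.map_smul, hfun, ← Measure.map_map Complex.measurableEquivRealProd.symm.measurable (hm2.comp hm1),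
    ← Measure.map_map hm2 hm1, map_sub_right_eq_self, Measure.map_addHaar_smul volume hs0.ne', Measure.map_smul,
    (Complex.volume_preserving_equiv_real_prod.symm).map_eq, smul_smul]
  congr 1
  have hfr : Module.finrank ℝ (ℝ × ℝ) = 2 := by simp
  rw [hfr, Real.sq_sqrt (by positivity), abs_of_pos (by positivity), ← ENNReal.ofReal_mul (by positivity)]
  congr 1
  field_simp

theorem ch_fk_cv_int {M : ℝ} (hM : 0 < M) (y : ℝ) {E' : Type} [NormedAddCommGroup E'] [NormedSpace ℝ E'] (G : ℂ → E') :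
    ∫ r, G (chAl M y r) ∂(chN M).nu = (1 / Real.pi) • ∫ α, G α := by
  rw [← (ch_fk_al_emb hM y).integral_map, ch_fk_al_map hM y, integral_smul_measure,
    ENNReal.toReal_ofReal (by positivity)]

theorem ch_fk_cv_lint {M : ℝ} (hM : 0 < M) (y : ℝ) (G : ℂ → ℝ≥0∞) :
    ∫⁻ r, G (chAl M y r) ∂(chN M).nu = ENNReal.ofReal (1 / Real.pi) * ∫⁻ α, G α := by
  rw [← (ch_fk_al_emb hM y).lintegral_map, ch_fk_al_map hM y, lintegral_smul_measure, smul_eq_mul]

end Claimed.Agent.R256
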