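import Claimed.Agent.R256.Chan.Fk.PosCf

/-!
# Row 256, Chan/Fk, POSITION SIDE, leaf L-256-FK-POS3: the wave function `chPsi`      (architect helper132; prefix `ch_fk_`)

`chPsi M t F x = ∫ chPhi M t r x • F r dν_M(r)`.    Boundedness: `‖chPhi‖ ≤ 1` (`ch_fk_phi_le`), `F ∈ L¹(ν)` (`ch_fk_nice_int`).
Joint measurability with a parameter: `StronglyMeasurable.integral_prod_right'` applied to `((t,p,x), r) ↦ chPhi M t r x • G p r` (`ch_fk_phi_meas`).   ~120 l.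
-/

set_option autoImplicit false

namespace Claimed.Agent.R256

open MeasureTheory
open scoped ENNReal ComplexConjugate

variable {E : Type} [NormedAddCommGroup E] [NormedSpace ℂ E]

theorem ch_fk_psi_int {M : ℝ} (hM : 0 < M) (hM1 : M ≤ 1) (t : ℝ) {F : ℝ × ℝ → E} (hF : ChNice F) (x : ℝ) :
    Integrable (fun r => chPhi M t r x • F r) (chN M).nu := by
  have hFi := (ch_fk_nice_int (chN M) hF).1
  have hm : Measurable fun r : ℝ × ℝ => chPhi M t r x :=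
    Measurable.comp (g := fun z : ℝ × (ℝ × ℝ) × ℝ => chPhi M z.1 z.2.1 z.2.2) (f := fun r : ℝ × ℝ => (t, r, x))
      (ch_fk_phi_meas M) (by fun_prop)
  refine Integrable.mono' hFi.norm (hm.aestronglyMeasurable.smul hFi.aestronglyMeasurable)
    (Filter.Eventually.of_forall fun r => ?_)
  rw [norm_smul]
  calc ‖chPhi M t r x‖ * ‖F r‖ ≤ 1 * ‖F r‖ := mul_le_mul_of_nonneg_right (ch_fk_phi_le hM hM1 t r x) (norm_nonneg _)
    _ = ‖F r‖ := one_mul _

theorem ch_fk_psi_bd {M : ℝ} (hM : 0 < M) (hM1 : M ≤ 1) {F : ℝ × ℝ → E} (hF : ChNice F) (t x : ℝ) :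
    ‖chPsi M t F x‖ ≤ ∫ r, ‖F r‖ ∂(chN M).nu := by
  unfold chPsi
  refine norm_integral_le_of_norm_le (ch_fk_nice_int (chN M) hF).1.norm (Filter.Eventually.of_forall fun r => ?_)
  rw [norm_smul]
  calc ‖chPhi M t r x‖ * ‖F r‖ ≤ 1 * ‖F r‖ := mul_le_mul_of_nonneg_right (ch_fk_phi_le hM hM1 t r x) (norm_nonneg _)
    _ = ‖F r‖ := one_mul _

theorem ch_fk_psi_meas (M : ℝ) {F : ℝ × ℝ → E} (hF : StronglyMeasurable F) :
    StronglyMeasurable fun z : ℝ × ℝ => chPsi M z.1 F z.2 := by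
  unfold chPsi
  have hm : Measurable fun w : (ℝ × ℝ) × (ℝ × ℝ) => chPhi M w.1.1 w.2 w.1.2 :=
    Measurable.comp (g := fun z : ℝ × (ℝ × ℝ) × ℝ => chPhi M z.1 z.2.1 z.2.2)
      (f := fun w : (ℝ × ℝ) × (ℝ × ℝ) => (w.1.1, w.2, w.1.2)) (ch_fk_phi_meas M) (by fun_prop)
  have h : StronglyMeasurable fun w : (ℝ × ℝ) × (ℝ × ℝ) => chPhi M w.1.1 w.2 w.1.2 • F w.2 :=
    hm.stronglyMeasurable.smul (hF.comp_measurable measurable_snd)
  exact h.integral_prod_right'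

end Claimed.Agent.R256
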