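import Claimed.Agent.R256.Chan.Fk.KlMain
import Claimed.Agent.R256.Chan.Fk.PosE
import Claimed.Agent.R256.Chan.Fk.PosPsi

/-!
# Row 256, Chan/Fk, POSITION SIDE, leaf L-256-FK-POS4: the key lemma at a point `y`      (architect helper132; prefix `ch_fk_`)

   `∫_0^1 ‖chPsi M t F y‖² dt ≤ C ∫ (1 + |α_y(r)|²)^(-1/2) ‖F r‖² dν_M(r)`,   `α_y = chAl M y`.
PLAN.  `chPhi M t r y = c(t) e^{iθ(r)} chE t (α_y r)`, `c(t) = chPhi M t (0,0) 0`, `θ(r) = M N (D+y)/2`   (`ch_fk_phi_cf`, `ch_fk_phi_E`).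
`F~ α := e^{iθ(r)} • F r` at `r = chAlInv M y α`: NICE on `ℂ` (`ch_fk_nice_smul`; bounded support: `‖r‖ ≤ |y| + ‖α‖/s`..., i.e. `‖α‖ > s(2R + |y|)`-type bound ⇒ `‖r‖ > R`; measurability by `ch_fk_alinv_cont`).
`chPsi M t F y = c(t) • ∫ chE t (α_y r) • F~(α_y r) dν = (c(t)/π) • ∫ chE t α • F~ α dα`   (`ch_fk_cv_int`, `ch_fk_inv_al`).
`‖c(t)‖² = sqrt(M/π)/sqrt(1+t²) ≤ sqrt2/(1+t²)` on `[0,1]` (`M ≤ 1`).    `ch_kl_main` for `F~`;  back by `ch_fk_cv_lint`:  `∫ (1+|α|²)^(-1/2) ‖F~ α‖² dα = π ∫ (1+|α_y r|²)^(-1/2) ‖F r‖² dν`.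
`C = sqrt2 π⁻² 2π² π = 2 sqrt2 π`;  any constant is fine.   ~300 l.
-/

set_option autoImplicit false

namespace Claimed.Agent.R256

open MeasureTheory
open scoped ENNReal ComplexConjugate

theorem ch_fk_kly : ∃ C : ℝ, 0 < C ∧ ∀ (E : Type) [NormedAddCommGroup E] [InnerProductSpace ℂ E] [CompleteSpace E] (M : ℝ), 0 < M → M ≤ 1 →
    ∀ F : ℝ × ℝ → E, ChNice F → ∀ y : ℝ,
    ∫⁻ t in Set.Icc (0 : ℝ) 1, ‖chPsi M t F y‖ₑ ^ 2 ≤
      ENNReal.ofReal C * ∫⁻ r, ENNReal.ofReal ((1 + ‖chAl M y r‖ ^ 2) ^ (-(1 / 2) : ℝ)) * ‖F r‖ₑ ^ 2 ∂(chN M).nu := by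
  refine ⟨4 * Real.pi, by positivity, ?_⟩
  intro E _ _ _ M hM hM1 F hF y
  -- the transported amplitude
  obtain ⟨a, ha⟩ : ∃ a : ℂ → ℂ, a = fun α =>
      Complex.exp (Complex.I * ((M * (chAlInv M y α).2 * ((chAlInv M y α).1 + y) / 2 : ℝ) : ℂ)) := ⟨_, rfl⟩
  have ha_norm : ∀ α, ‖a α‖ = 1 := by
    intro α
    rw [ha]
    show ‖Complex.exp (Complex.I * ((M * (chAlInv M y α).2 * ((chAlInv M y α).1 + y) / 2 : ℝ) : ℂ))‖ = 1
    rw [mul_comm]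
    exact Complex.norm_exp_ofReal_mul_I _
  have ha_meas : Measurable a := by
    rw [ha]
    have hc := ch_fk_alinv_cont M y
    have : Continuous fun α : ℂ =>
        Complex.exp (Complex.I * ((M * (chAlInv M y α).2 * ((chAlInv M y α).1 + y) / 2 : ℝ) : ℂ)) := by
      fun_prop
    exact this.measurable
  have hF0 : ChNice fun α : ℂ => F (chAlInv M y α) := by
    obtain ⟨hm, B, R, h⟩ := hF
    refine ⟨hm.comp_measurable (ch_fk_alinv_cont M y).measurable, B, R + |y|, fun α => ⟨(h _).1, fun hα => ?_⟩⟩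
    apply (h _).2
    by_contra hcon
    have hr : ‖chAlInv M y α‖ ≤ R := not_lt.1 hcon
    obtain ⟨r, hr'⟩ : ∃ r, r = chAlInv M y α := ⟨_, rfl⟩
    rw [← hr'] at hr
    have hα' : chAl M y r = α := by rw [hr']; exact ch_fk_al_inv hM y α
    have hn := ch_fk_al_norm hM y r
    rw [hα'] at hn
    have h1 : |r.1| ≤ R := (norm_fst_le r).trans hr
    have h2 : |r.2| ≤ R := (norm_snd_le r).trans hr
    have hR0 : 0 ≤ R := (abs_nonneg _).trans h1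
    have h3 : |r.1 - y| ≤ R + |y| := (abs_sub _ _).trans (add_le_add h1 le_rfl)
    have h4 : (r.1 - y) ^ 2 ≤ (R + |y|) ^ 2 := by
      rw [← sq_abs (r.1 - y)]
      exact pow_le_pow_left₀ (abs_nonneg _) h3 2
    have h5 : r.2 ^ 2 ≤ (R + |y|) ^ 2 := by
      rw [← sq_abs r.2]
      exact pow_le_pow_left₀ (abs_nonneg _) (h2.trans (le_add_of_nonneg_right (abs_nonneg _))) 2
    have h6 : ‖α‖ ^ 2 ≤ (R + |y|) ^ 2 := by
      rw [hn]
      have : 0 ≤ (R + |y|) ^ 2 := sq_nonneg _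
      nlinarith
    have h7 : ‖α‖ ≤ R + |y| := (pow_le_pow_iff_left₀ (norm_nonneg _) (by positivity) two_ne_zero).1 h6
    exact absurd hα (not_lt.2 h7)
  have hFt : ChNice fun α : ℂ => a α • F (chAlInv M y α) :=
    ch_fk_nice_smul hF0 a ha_meas 1 (fun α => (ha_norm α).le)
  have hkl := ch_kl_main (fun α : ℂ => a α • F (chAlInv M y α)) hFt
  -- the wave function in the complex coordinate
  have hpsi : ∀ t : ℝ, chPsi M t F y =
      (1 / Real.pi : ℝ) • (chPhi M t (0, 0) 0 • ∫ α, chE t α • (a α • F (chAlInv M y α))) := by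
    intro t
    rw [← integral_smul, ← ch_fk_cv_int hM y (fun α => chPhi M t (0, 0) 0 • (chE t α • (a α • F (chAlInv M y α))))]
    unfold chPsi
    refine integral_congr_ae (Filter.Eventually.of_forall fun r => ?_)
    show chPhi M t r y • F r = chPhi M t (0, 0) 0 • (chE t (chAl M y r) • (a (chAl M y r) • F (chAlInv M y (chAl M y r))))
    rw [ha]
    show chPhi M t r y • F r = chPhi M t (0, 0) 0 • (chE t (chAl M y r) •
      (Complex.exp (Complex.I * ((M * (chAlInv M y (chAl M y r)).2 * ((chAlInv M y (chAl M y r)).1 + y) / 2 : ℝ) : ℂ))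
        • F (chAlInv M y (chAl M y r))))
    rw [ch_fk_inv_al hM, ch_fk_phi_cf hM, ch_fk_phi_E hM, smul_smul, smul_smul]
    congr 1
    ring
  -- the amplitude
  have hamp : ∀ t ∈ Set.Icc (0 : ℝ) 1, ‖chPhi M t (0, 0) 0‖ ^ 2 ≤ 2 * (1 / (1 + t ^ 2)) := by
    intro t ht
    rw [ch_fk_phi_amp hM]
    have h1 : Real.sqrt (M / Real.pi) ≤ 1 := by
      rw [Real.sqrt_le_left (by norm_num), div_le_iff₀ Real.pi_pos]
      nlinarith [Real.pi_gt_three]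
    have hp : 0 < 1 + t ^ 2 := by positivity
    have hs : 0 < Real.sqrt (1 + t ^ 2) := Real.sqrt_pos.2 hp
    have hs2 : Real.sqrt (1 + t ^ 2) ^ 2 = 1 + t ^ 2 := Real.sq_sqrt hp.le
    have hs3 : Real.sqrt (1 + t ^ 2) ≤ 2 := by
      rw [Real.sqrt_le_left (by norm_num)]
      nlinarith [ht.1, ht.2]
    rw [div_le_iff₀ hs]
    have : 2 * (1 / (1 + t ^ 2)) * Real.sqrt (1 + t ^ 2) = 2 / Real.sqrt (1 + t ^ 2) := by
      obtain ⟨w, hw⟩ : ∃ w, w = Real.sqrt (1 + t ^ 2) := ⟨_, rfl⟩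
      rw [← hw] at hs hs2 ⊢
      rw [← hs2]; field_simp
    rw [this, le_div_iff₀ hs]
    nlinarith
  have hpt : ∀ t ∈ Set.Icc (0 : ℝ) 1, ‖chPsi M t F y‖ₑ ^ 2 ≤ ENNReal.ofReal (2 / Real.pi ^ 2) *
      (ENNReal.ofReal (1 / (1 + t ^ 2)) * ‖∫ α, chE t α • (a α • F (chAlInv M y α))‖ₑ ^ 2) := by
    intro t ht
    rw [hpsi t, enorm_smul, enorm_smul, mul_pow, mul_pow]
    have e1 : ‖(1 / Real.pi : ℝ)‖ₑ ^ 2 = ENNReal.ofReal (1 / Real.pi ^ 2) := by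
      rw [← ofReal_norm, ← ENNReal.ofReal_pow (norm_nonneg _), Real.norm_eq_abs, sq_abs, div_pow, one_pow]
    have e2 : ‖chPhi M t (0, 0) 0‖ₑ ^ 2 ≤ ENNReal.ofReal (2 * (1 / (1 + t ^ 2))) := by
      rw [← ofReal_norm, ← ENNReal.ofReal_pow (norm_nonneg _)]
      exact ENNReal.ofReal_le_ofReal (hamp t ht)
    rw [e1]
    calc ENNReal.ofReal (1 / Real.pi ^ 2) * (‖chPhi M t (0, 0) 0‖ₑ ^ 2 * ‖∫ α, chE t α • (a α • F (chAlInv M y α))‖ₑ ^ 2)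
        ≤ ENNReal.ofReal (1 / Real.pi ^ 2) * (ENNReal.ofReal (2 * (1 / (1 + t ^ 2))) * ‖∫ α, chE t α • (a α • F (chAlInv M y α))‖ₑ ^ 2) :=
          mul_le_mul' le_rfl (mul_le_mul' e2 le_rfl)
      _ = ENNReal.ofReal (2 / Real.pi ^ 2) *
          (ENNReal.ofReal (1 / (1 + t ^ 2)) * ‖∫ α, chE t α • (a α • F (chAlInv M y α))‖ₑ ^ 2) := by
          rw [ENNReal.ofReal_mul (by norm_num : (0 : ℝ) ≤ 2), ← mul_assoc, ← mul_assoc, ← mul_assoc,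
            ← ENNReal.ofReal_mul (by positivity)]
          congr 3
          ring
  -- the right side in the complex coordinate
  have hrhs : ∫⁻ r, ENNReal.ofReal ((1 + ‖chAl M y r‖ ^ 2) ^ (-(1 / 2) : ℝ)) * ‖F r‖ₑ ^ 2 ∂(chN M).nu =
      ENNReal.ofReal (1 / Real.pi) *
        ∫⁻ α, ENNReal.ofReal ((1 + ‖α‖ ^ 2) ^ (-(1 / 2) : ℝ)) * ‖a α • F (chAlInv M y α)‖ₑ ^ 2 := by
    rw [← ch_fk_cv_lint hM y (fun α => ENNReal.ofReal ((1 + ‖α‖ ^ 2) ^ (-(1 / 2) : ℝ)) * ‖a α • F (chAlInv M y α)‖ₑ ^ 2)]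
    refine lintegral_congr fun r => ?_
    have : ‖a (chAl M y r)‖ₑ = 1 := by rw [← ofReal_norm, ha_norm, ENNReal.ofReal_one]
    rw [enorm_smul, this, one_mul, ch_fk_inv_al hM]
  calc ∫⁻ t in Set.Icc (0 : ℝ) 1, ‖chPsi M t F y‖ₑ ^ 2
      ≤ ∫⁻ t in Set.Icc (0 : ℝ) 1, ENNReal.ofReal (2 / Real.pi ^ 2) *
          (ENNReal.ofReal (1 / (1 + t ^ 2)) * ‖∫ α, chE t α • (a α • F (chAlInv M y α))‖ₑ ^ 2) :=
        setLIntegral_mono' measurableSet_Icc hpt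
    _ ≤ ∫⁻ t : ℝ, ENNReal.ofReal (2 / Real.pi ^ 2) *
          (ENNReal.ofReal (1 / (1 + t ^ 2)) * ‖∫ α, chE t α • (a α • F (chAlInv M y α))‖ₑ ^ 2) :=
        setLIntegral_le_lintegral _ _
    _ = ENNReal.ofReal (2 / Real.pi ^ 2) * ∫⁻ t : ℝ,
          (ENNReal.ofReal (1 / (1 + t ^ 2)) * ‖∫ α, chE t α • (a α • F (chAlInv M y α))‖ₑ ^ 2) :=
        lintegral_const_mul' _ _ ENNReal.ofReal_ne_top
    _ ≤ ENNReal.ofReal (2 / Real.pi ^ 2) * (ENNReal.ofReal (2 * Real.pi ^ 2) *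
          ∫⁻ α, ENNReal.ofReal ((1 + ‖α‖ ^ 2) ^ (-(1 / 2) : ℝ)) * ‖a α • F (chAlInv M y α)‖ₑ ^ 2) :=
        mul_le_mul' le_rfl hkl
    _ = ENNReal.ofReal (4 * Real.pi) * ∫⁻ r, ENNReal.ofReal ((1 + ‖chAl M y r‖ ^ 2) ^ (-(1 / 2) : ℝ)) * ‖F r‖ₑ ^ 2 ∂(chN M).nu := by
        rw [hrhs, ← mul_assoc, ← mul_assoc, ← ENNReal.ofReal_mul (by positivity), ← ENNReal.ofReal_mul (by positivity)]
        congr 2
        field_simp
        norm_num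

end Claimed.Agent.R256
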