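import Claimed.Agent.R256.Chan.Fk.RepKr

/-!
# Row 256, Chan/Fk, REPRESENTATION, leaf L-256-FK-REP2: the velocity marginal of the rows is dominated by the smoothed position density      (architect helper132; prefix `ch_fk_`)

   `∫ ‖∫ chWp M n (D,N) x • ψ x dx‖² dN ≤ (2π/M) ∫ e^{-(x-D)²/(2q²)} ‖ψ x‖² dx`,   `q² = 2^-n/M`,  `ψ` bounded and strongly measurable.
PLAN A (`hy_bessel`, `Hyb/Tool.lean`, PROVED):  `Y = ℝ_x`, `Z = ℝ_N`, both `volume`;  `k N x = e^{-iMNx} e^{-(x-D)²/(4q²)}`,  `a x = e^{-(x-D)²/(4q²)} • ψ x ∈ L²`;   `k N x • a x = chWp M n (D,N) x • ψ x`.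
   Gram kernel `∫ k N x conj (k N' x) dx = ∫ e^{-iM(N-N')x} e^{-(x-D)²/(2q²)} dx`, of modulus `sqrt(2πq²) e^{-q²M²(N-N')²/2}`  (`fourierIntegral_gaussian`/`integral_cexp_quadratic`; only `≤` is needed... but equality is what comes out);
   `∫ dN' = sqrt(2πq²) sqrt(2π)/(qM) = 2π/M =: L`  (`integral_gaussian`).
PLAN B (`hy_k6_plancherel`, `Hyb/Planch.lean`, PROVED): Plancherel for `h x = e^{-(x-D)²/(2q²)} • ψ x ∈ L¹ ∩ L²`, rescale `N`; gives even `e^{-(x-D)²/q²}`.      ~250 l.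
-/

set_option autoImplicit false

namespace Claimed.Agent.R256

open MeasureTheory
open scoped ENNReal ComplexConjugate

theorem ch_fk_rep_bes {E : Type} [NormedAddCommGroup E] [InnerProductSpace ℂ E] [CompleteSpace E] {M : ℝ} (hM : 0 < M) (n : ℕ)
    (ψ : ℝ → E) (hψ : StronglyMeasurable ψ) (B : ℝ) (hB : ∀ x, ‖ψ x‖ ≤ B) (D : ℝ) :
    ∫⁻ N : ℝ, ‖∫ x : ℝ, chWp M n (D, N) x • ψ x‖ₑ ^ 2 ≤
      ENNReal.ofReal (2 * Real.pi / M) * ∫⁻ x : ℝ, ENNReal.ofReal (Real.exp (-((x - D) ^ 2 / (2 * ((2 : ℝ)⁻¹ ^ n / M))))) * ‖ψ x‖ₑ ^ 2 := by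
  obtain ⟨b, hb⟩ : ∃ b : ℝ, b = 1 / (2 * ((2 : ℝ)⁻¹ ^ n / M)) := ⟨_, rfl⟩
  have hb0 : 0 < b := by rw [hb]; positivity
  have hexp : ∀ x : ℝ, (x - D) ^ 2 / (2 * ((2 : ℝ)⁻¹ ^ n / M)) = b * (x - D) ^ 2 := by
    intro x; rw [hb]; ring
  obtain ⟨h, hh⟩ : ∃ h : ℝ → E, h = fun x => ((Real.exp (-(b * (x - D) ^ 2)) : ℝ) : ℂ) • ψ x := ⟨_, rfl⟩
  have hB0 : 0 ≤ B := (norm_nonneg _).trans (hB 0)
  have hgi : ∀ c : ℝ, 0 < c → Integrable fun x : ℝ => Real.exp (-(c * (x - D) ^ 2)) := by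
    intro c hc
    have := (integrable_exp_neg_mul_sq hc).comp_sub_right D
    simpa only [neg_mul] using this
  have hhm : StronglyMeasurable h := by
    rw [hh]
    have : Continuous fun x : ℝ => ((Real.exp (-(b * (x - D) ^ 2)) : ℝ) : ℂ) := by fun_prop
    exact this.stronglyMeasurable.smul hψ
  have hnorm : ∀ x, ‖h x‖ = Real.exp (-(b * (x - D) ^ 2)) * ‖ψ x‖ := by
    intro x
    rw [hh]
    show ‖((Real.exp (-(b * (x - D) ^ 2)) : ℝ) : ℂ) • ψ x‖ = _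
    rw [norm_smul, Complex.norm_real, Real.norm_eq_abs, abs_of_pos (Real.exp_pos _)]
  have h1 : Integrable h := by
    refine Integrable.mono' ((hgi b hb0).mul_const B) hhm.aestronglyMeasurable (Filter.Eventually.of_forall fun x => ?_)
    rw [hnorm]
    exact mul_le_mul_of_nonneg_left (hB x) (Real.exp_pos _).le
  have hsq : ∀ x, ‖h x‖ ^ 2 = Real.exp (-(2 * b * (x - D) ^ 2)) * ‖ψ x‖ ^ 2 := by
    intro x
    rw [hnorm, mul_pow, ← Real.exp_nat_mul]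
    congr 2
    push_cast
    ring
  have h2 : MemLp h 2 volume := by
    rw [memLp_two_iff_integrable_sq_norm hhm.aestronglyMeasurable]
    refine Integrable.mono' ((hgi (2 * b) (by positivity)).mul_const (B ^ 2)) (hhm.norm.pow 2).aestronglyMeasurable
      (Filter.Eventually.of_forall fun x => ?_)
    rw [Real.norm_eq_abs, abs_of_nonneg (by positivity), hsq]
    exact mul_le_mul_of_nonneg_left (pow_le_pow_left₀ (norm_nonneg _) (hB x) 2) (Real.exp_pos _).le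
  have hpl := hy_k6_plancherel h1 h2
  have hc0 : M / (2 * Real.pi) ≠ 0 := by positivity
  have hF : ∀ N : ℝ, ∫ x : ℝ, chWp M n (D, N) x • ψ x = FourierTransform.fourier h (M / (2 * Real.pi) * N) := by
    intro N
    rw [Real.fourier_real_eq_integral_exp_smul]
    refine integral_congr_ae (Filter.Eventually.of_forall fun x => ?_)
    show chWp M n (D, N) x • ψ x = Complex.exp (↑(-2 * Real.pi * x * (M / (2 * Real.pi) * N)) * Complex.I) • h x
    rw [hh]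
    show chWp M n (D, N) x • ψ x = Complex.exp (↑(-2 * Real.pi * x * (M / (2 * Real.pi) * N)) * Complex.I) •
      (((Real.exp (-(b * (x - D) ^ 2)) : ℝ) : ℂ) • ψ x)
    rw [smul_smul]
    congr 1
    unfold chWp
    show ((Real.exp (-((x - D) ^ 2 / (2 * ((2 : ℝ)⁻¹ ^ n / M)))) : ℝ) : ℂ) * Complex.exp (-(Complex.I * ((M * N * x : ℝ) : ℂ))) = _
    rw [hexp, mul_comm]
    congr 2
    have : -2 * Real.pi * x * (M / (2 * Real.pi) * N) = -(M * N * x) := by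
      field_simp
    rw [this]
    push_cast
    ring
  have hcv : ∫⁻ N : ℝ, ‖FourierTransform.fourier h (M / (2 * Real.pi) * N)‖ₑ ^ 2 =
      ENNReal.ofReal (2 * Real.pi / M) * ∫⁻ ξ : ℝ, ‖FourierTransform.fourier h ξ‖ₑ ^ 2 := by
    have e := (measurableEmbedding_mulLeft₀ hc0).lintegral_map (μ := (volume : Measure ℝ))
      (fun ξ : ℝ => ‖FourierTransform.fourier h ξ‖ₑ ^ 2)
    rw [Real.map_volume_mul_left hc0, lintegral_smul_measure] at e
    rw [← e, smul_eq_mul]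
    congr 2
    rw [abs_of_pos (by positivity), inv_div]
  calc ∫⁻ N : ℝ, ‖∫ x : ℝ, chWp M n (D, N) x • ψ x‖ₑ ^ 2
      = ∫⁻ N : ℝ, ‖FourierTransform.fourier h (M / (2 * Real.pi) * N)‖ₑ ^ 2 := by
        refine lintegral_congr fun N => ?_
        rw [hF]
    _ = ENNReal.ofReal (2 * Real.pi / M) * ∫⁻ x : ℝ, ‖h x‖ₑ ^ 2 := by rw [hcv, hpl]
    _ ≤ ENNReal.ofReal (2 * Real.pi / M) *
        ∫⁻ x : ℝ, ENNReal.ofReal (Real.exp (-((x - D) ^ 2 / (2 * ((2 : ℝ)⁻¹ ^ n / M))))) * ‖ψ x‖ₑ ^ 2 := by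
        refine mul_le_mul' le_rfl (lintegral_mono fun x => ?_)
        show ‖h x‖ₑ ^ 2 ≤ ENNReal.ofReal (Real.exp (-((x - D) ^ 2 / (2 * ((2 : ℝ)⁻¹ ^ n / M))))) * ‖ψ x‖ₑ ^ 2
        rw [hexp, ← ofReal_norm, ← ENNReal.ofReal_pow (norm_nonneg _), hsq, ENNReal.ofReal_mul (Real.exp_pos _).le,
          ENNReal.ofReal_pow (norm_nonneg _), ofReal_norm]
        refine mul_le_mul' (ENNReal.ofReal_le_ofReal (Real.exp_le_exp.2 ?_)) le_rfl
        have : 0 ≤ b * (x - D) ^ 2 := by positivity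
        linarith

end Claimed.Agent.R256
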