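import Claimed.Agent.R256.Chan.Fk.PosPsi

/-!
# Row 256, Chan/Fk, REPRESENTATION, leaf L-256-FK-REP1: the transfer kernel through position space      (architect helper132; prefix `ch_fk_`)      checked numerically

`φ = chN M`, `q² = 2^-n/M`.     `kr 0 0 t n ρ' r = ∫ pk t n ρ' u conj (pk 0 0 r u) du`,    `pk t n (D',N') u = (q²/π)^(1/4) e^{-q²(u-MN')²/2} e^{i(u-MN')D'} e^{-itu²/(2M)}`   (`ch_fk_pkN`).
FOURIER TRANSFORM OF A GAUSSIAN:  `e^{-q² v²/2} e^{ivD'} = (2πq²)^(-1/2) ∫ e^{-(x-D')²/(2q²)} e^{ivx} dx`    (`fourierIntegral_gaussian`/`integral_cexp_quadratic`), with `v = u - MN'`.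
FUBINI (`integral_integral_swap`; the integrand is bounded by `e^{-(x-D')²/(2q²)} ‖pk 0 0 r u‖`, a product of integrable functions: `Integrable.mul_prod`/`Integrable.prod_mul`):
  `kr = (q²/π)^(1/4) (2πq²)^(-1/2) ∫ dx e^{-(x-D')²/(2q²)} e^{-iMN'x} ∫ e^{i(ux - tu²/(2M))} conj (pk 0 0 r u) du = (q²/π)^(1/4) (2πq²)^(-1/2) (2π)^(1/2) ∫ chWp M n ρ' x chPhi M t r x dx`,
  and `(q²/π)^(1/4) q⁻¹ = (πq²)^(-1/4)`.    ~300 l.
`ch_fk_rep_tr`: Fubini once more (`‖chWp‖ = e^{-(x-D')²/(2q²)}`, `‖chPhi‖ ≤ 1`, `F ∈ L¹(ν)`).   ~150 l.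
-/

set_option autoImplicit false

namespace Claimed.Agent.R256

open MeasureTheory
open scoped ENNReal ComplexConjugate

theorem ch_fk_wp_norm (M : ℝ) (n : ℕ) (ρ : ℝ × ℝ) (x : ℝ) : ‖chWp M n ρ x‖ = Real.exp (-((x - ρ.1) ^ 2 / (2 * ((2 : ℝ)⁻¹ ^ n / M)))) := by
  unfold chWp
  rw [norm_mul, Complex.norm_real, Real.norm_of_nonneg (Real.exp_pos _).le, ← mul_neg, ← Complex.ofReal_neg,
    Complex.norm_exp_I_mul_ofReal, mul_one]

theorem ch_fk_wp_cont (M : ℝ) (n : ℕ) : Continuous fun z : (ℝ × ℝ) × ℝ => chWp M n z.1 z.2 := by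
  unfold chWp
  fun_prop

/-- Fourier transform of a Gaussian -/
theorem ch_fk_rep_gft {a : ℝ} (ha : 0 < a) (D v : ℝ) :
    ∫ x : ℝ, ((Real.exp (-((x - D) ^ 2 / (2 * a))) : ℝ) : ℂ) * Complex.exp (Complex.I * ((v * x : ℝ) : ℂ))
      = ((Real.sqrt (2 * Real.pi * a) * Real.exp (-(a * v ^ 2 / 2)) : ℝ) : ℂ) * Complex.exp (Complex.I * ((v * D : ℝ) : ℂ)) := by
  have hac : (a : ℂ) ≠ 0 := Complex.ofReal_ne_zero.2 ha.ne'
  have e : ∀ x : ℝ, ((Real.exp (-((x - D) ^ 2 / (2 * a))) : ℝ) : ℂ) * Complex.exp (Complex.I * ((v * x : ℝ) : ℂ))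
      = Complex.exp ((-(1 / (2 * a) : ℝ) : ℂ) * (x : ℂ) ^ 2 + ((D / a : ℝ) + Complex.I * (v : ℂ)) * (x : ℂ) + (-(D ^ 2 / (2 * a) : ℝ) : ℂ)) := by
    intro x
    rw [Complex.ofReal_exp, ← Complex.exp_add]
    congr 1
    push_cast
    field_simp
    ring
  simp_rw [e]
  have hb : ((-(1 / (2 * a) : ℝ) : ℂ)).re < 0 := by
    rw [← Complex.ofReal_neg, Complex.ofReal_re]
    have : 0 < 1 / (2 * a) := by positivity
    linarith
  rw [integral_cexp_quadratic hb]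
  have h1 : ((Real.pi : ℂ) / -(-(1 / (2 * a) : ℝ) : ℂ)) ^ (1 / 2 : ℂ) = ((Real.sqrt (2 * Real.pi * a) : ℝ) : ℂ) := by
    have h2 : (Real.pi : ℂ) / -(-(1 / (2 * a) : ℝ) : ℂ) = ((2 * Real.pi * a : ℝ) : ℂ) := by
      push_cast
      field_simp
    rw [h2, Real.sqrt_eq_rpow, Complex.ofReal_cpow (by positivity)]
    push_cast
    rfl
  rw [h1, Complex.ofReal_mul, Complex.ofReal_exp]
  rw [mul_assoc (((Real.sqrt (2 * Real.pi * a) : ℝ) : ℂ)), ← Complex.exp_add]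
  congr 2
  push_cast
  field_simp
  ring_nf
  rw [Complex.I_sq]
  ring

theorem ch_fk_rep_const {a : ℝ} (ha : 0 < a) :
    (a / Real.pi) ^ (1 / 4 : ℝ) * (Real.sqrt (2 * Real.pi * a))⁻¹ * (2 * Real.pi) ^ (1 / 2 : ℝ) = (Real.pi * a) ^ (-(1 / 4) : ℝ) := by
  have hpi := Real.pi_pos
  have h1 : a ^ (1 / 2 : ℝ) = (a ^ (1 / 4 : ℝ)) ^ 2 := by
    rw [← Real.rpow_natCast, ← Real.rpow_mul ha.le]
    norm_num
  rw [Real.sqrt_eq_rpow, Real.mul_rpow (by positivity) ha.le, Real.div_rpow ha.le hpi.le, Real.rpow_neg (by positivity),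
    Real.mul_rpow hpi.le ha.le, h1]
  have h2 : 0 < a ^ (1 / 4 : ℝ) := Real.rpow_pos_of_pos ha _
  have h3 : 0 < Real.pi ^ (1 / 4 : ℝ) := Real.rpow_pos_of_pos hpi _
  have h4 : 0 < (2 * Real.pi) ^ (1 / 2 : ℝ) := Real.rpow_pos_of_pos (by positivity) _
  field_simp

/-- integrability of the window -/
theorem ch_fk_wp_int {M : ℝ} (hM : 0 < M) (n : ℕ) (ρ : ℝ × ℝ) : Integrable (fun x => ‖chWp M n ρ x‖) volume := by
  simp_rw [ch_fk_wp_norm]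
  have ha : 0 < 1 / (2 * ((2 : ℝ)⁻¹ ^ n / M)) := by positivity
  have h := (integrable_exp_neg_mul_sq ha).comp_sub_right ρ.1
  refine h.congr (Filter.Eventually.of_forall fun x => ?_)
  simp only
  congr 1
  ring

/-- the plane wave `e^{i(ux - tu²/(2M))}` -/
noncomputable def chPw (M t u x : ℝ) : ℂ := Complex.exp (Complex.I * ((u * x - t * u ^ 2 / (2 * M) : ℝ) : ℂ))

theorem ch_fk_pw_eqns_cite : True := by
  have := @chPw.eq_1
  trivial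

theorem ch_fk_pw_norm (M t u x : ℝ) : ‖chPw M t u x‖ = 1 := by
  unfold chPw
  exact Complex.norm_exp_I_mul_ofReal _

theorem ch_fk_pw_cont (M t : ℝ) : Continuous fun z : ℝ × ℝ => chPw M t z.1 z.2 := by
  unfold chPw
  fun_prop

/-- the terminal packet as a superposition of plane waves -/
theorem ch_fk_rep_pk {M : ℝ} (hM : 0 < M) (t : ℝ) (n : ℕ) (ρ' : ℝ × ℝ) (u : ℝ) :
    (chN M).pk t n ρ' u = (((((2 : ℝ)⁻¹ ^ n / M) / Real.pi) ^ (1 / 4 : ℝ) * (Real.sqrt (2 * Real.pi * ((2 : ℝ)⁻¹ ^ n / M)))⁻¹ : ℝ) : ℂ) *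
      ∫ x, chWp M n ρ' x * chPw M t u x := by
  obtain ⟨a, ha⟩ : ∃ a : ℝ, a = (2 : ℝ)⁻¹ ^ n / M := ⟨_, rfl⟩
  have ha0 : 0 < a := by rw [ha]; positivity
  have hs0 : 0 < Real.sqrt (2 * Real.pi * a) := Real.sqrt_pos.2 (by positivity)
  rw [← ha]
  have h2 : ∀ x, chWp M n ρ' x * chPw M t u x
      = Complex.exp (-(Complex.I * ((t * u ^ 2 / (2 * M) : ℝ) : ℂ))) * (((Real.exp (-((x - ρ'.1) ^ 2 / (2 * a))) : ℝ) : ℂ) *
        Complex.exp (Complex.I * (((u - M * ρ'.2) * x : ℝ) : ℂ))) := by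
    intro x
    unfold chWp chPw
    rw [← ha, mul_assoc, ← Complex.exp_add, mul_left_comm, ← Complex.exp_add]
    congr 2
    push_cast
    ring
  simp_rw [h2]
  rw [integral_const_mul, ch_fk_rep_gft ha0, ch_fk_pkN hM]
  have e1 : (2 : ℝ)⁻¹ ^ n / (M * Real.pi) = a / Real.pi := by rw [ha]; field_simp
  have e2 : (2 : ℝ)⁻¹ ^ n * (u - M * ρ'.2) ^ 2 / (2 * M) = a * (u - M * ρ'.2) ^ 2 / 2 := by rw [ha]; field_simp
  rw [e1, e2]
  have e3 : Complex.exp (Complex.I * (((u - M * ρ'.2) * ρ'.1 - t * u ^ 2 / (2 * M) : ℝ) : ℂ))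
      = Complex.exp (-(Complex.I * ((t * u ^ 2 / (2 * M) : ℝ) : ℂ))) * Complex.exp (Complex.I * (((u - M * ρ'.2) * ρ'.1 : ℝ) : ℂ)) := by
    rw [← Complex.exp_add]
    congr 1
    push_cast
    ring
  rw [e3]
  generalize (a / Real.pi) ^ (1 / 4 : ℝ) = c
  generalize Real.exp (-(a * (u - M * ρ'.2) ^ 2 / 2)) = g
  generalize Real.sqrt (2 * Real.pi * a) = S at hs0
  generalize Complex.exp (-(Complex.I * ((t * u ^ 2 / (2 * M) : ℝ) : ℂ))) = E1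
  generalize Complex.exp (Complex.I * (((u - M * ρ'.2) * ρ'.1 : ℝ) : ℂ)) = E2
  have hsc : (S : ℂ) ≠ 0 := Complex.ofReal_ne_zero.2 hs0.ne'
  push_cast
  field_simp

theorem ch_fk_rep_fub {M : ℝ} (hM : 0 < M) (t : ℝ) (n : ℕ) (ρ' r : ℝ × ℝ) :
    Integrable (Function.uncurry fun u x : ℝ => chWp M n ρ' x * chPw M t u x * conj ((chN M).pk 0 0 r u)) (volume.prod volume) := by
  have hpk : Integrable (fun u => ‖(chN M).pk 0 0 r u‖) volume :=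
    (memLp_one_iff_integrable.1 (hy_pk_memLp (chN M) (ch_fk_okN hM) 0 0 r).2.1).norm
  have hcpk : Continuous fun z : ℝ × ℝ => (chN M).pk 0 0 r z.1 := by
    have h1 : Continuous fun z : ℝ × ℝ => (r, z.1) := continuous_const.prodMk continuous_fst
    have h2 : Continuous fun z : ℝ × ℝ => (chN M).pk 0 0 (r, z.1).1 (r, z.1).2 := (hy_pk_cont (chN M) 0 0).comp h1
    exact h2
  have hcwp : Continuous fun z : ℝ × ℝ => chWp M n ρ' z.2 := by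
    have h1 : Continuous fun z : ℝ × ℝ => (ρ', z.2) := continuous_const.prodMk continuous_snd
    have h2 : Continuous fun z : ℝ × ℝ => chWp M n (ρ', z.2).1 (ρ', z.2).2 := (ch_fk_wp_cont M n).comp h1
    exact h2
  have hc : Continuous fun z : ℝ × ℝ => chWp M n ρ' z.2 * chPw M t z.1 z.2 * conj ((chN M).pk 0 0 r z.1) :=
    (hcwp.mul (ch_fk_pw_cont M t)).mul (Complex.continuous_conj.comp hcpk)
  have hb : ∀ z : ℝ × ℝ, ‖chWp M n ρ' z.2 * chPw M t z.1 z.2 * conj ((chN M).pk 0 0 r z.1)‖ ≤ ‖(chN M).pk 0 0 r z.1‖ * ‖chWp M n ρ' z.2‖ := by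
    intro z
    rw [norm_mul, norm_mul, ch_fk_pw_norm, mul_one, RCLike.norm_conj, mul_comm]
  exact (hpk.mul_prod (ch_fk_wp_int hM n ρ')).mono' hc.aestronglyMeasurable (Filter.Eventually.of_forall hb)

theorem ch_fk_rep_phi (M t : ℝ) (r : ℝ × ℝ) (x : ℝ) :
    ∫ u, chPw M t u x * conj ((chN M).pk 0 0 r u) = (((2 * Real.pi) ^ (1 / 2 : ℝ) : ℝ) : ℂ) * chPhi M t r x := by
  unfold chPhi chPw
  have h5 : (((2 * Real.pi) ^ (1 / 2 : ℝ) : ℝ) : ℂ) * (((2 * Real.pi) ^ (-(1 / 2) : ℝ) : ℝ) : ℂ) = 1 := by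
    rw [← Complex.ofReal_mul, ← Real.rpow_add (by positivity)]
    norm_num
  rw [← mul_assoc, h5, one_mul]

theorem ch_fk_rep_kr {M : ℝ} (hM : 0 < M) (t : ℝ) (n : ℕ) (ρ' r : ℝ × ℝ) :
    (chN M).kr 0 0 t n ρ' r = (((Real.pi * ((2 : ℝ)⁻¹ ^ n / M)) ^ (-(1 / 4) : ℝ) : ℝ) : ℂ) * ∫ x : ℝ, chWp M n ρ' x * chPhi M t r x := by
  have ha0 : 0 < (2 : ℝ)⁻¹ ^ n / M := by positivity
  have hpk := ch_fk_rep_pk hM t n ρ'
  rw [← ch_fk_rep_const ha0]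
  generalize (((2 : ℝ)⁻¹ ^ n / M) / Real.pi) ^ (1 / 4 : ℝ) * (Real.sqrt (2 * Real.pi * ((2 : ℝ)⁻¹ ^ n / M)))⁻¹ = c₁ at hpk ⊢
  unfold HyF.kr
  simp_rw [hpk, mul_assoc, ← integral_mul_const]
  rw [integral_const_mul, integral_integral_swap (ch_fk_rep_fub hM t n ρ' r)]
  simp_rw [mul_assoc]
  simp_rw [integral_const_mul, ch_fk_rep_phi, mul_left_comm (chWp M n ρ' _)]
  rw [integral_const_mul, ← mul_assoc, ← Complex.ofReal_mul]

theorem ch_fk_rep_fub2 {E : Type} [NormedAddCommGroup E] [NormedSpace ℂ E] {M : ℝ} (hM : 0 < M) (hM1 : M ≤ 1) (t : ℝ) (n : ℕ)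
    {F : ℝ × ℝ → E} (hF : ChNice F) (ρ' : ℝ × ℝ) :
    Integrable (Function.uncurry fun (r : ℝ × ℝ) (x : ℝ) => (chWp M n ρ' x * chPhi M t r x) • F r) ((chN M).nu.prod volume) := by
  have hFi : Integrable (fun r => ‖F r‖) (chN M).nu := (ch_fk_nice_int (chN M) hF).1.norm
  have hcwp : Continuous fun z : (ℝ × ℝ) × ℝ => chWp M n ρ' z.2 := by
    have h1 : Continuous fun z : (ℝ × ℝ) × ℝ => (ρ', z.2) := continuous_const.prodMk continuous_snd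
    have h2 : Continuous fun z : (ℝ × ℝ) × ℝ => chWp M n (ρ', z.2).1 (ρ', z.2).2 := (ch_fk_wp_cont M n).comp h1
    exact h2
  have hphi : Measurable fun z : (ℝ × ℝ) × ℝ => chPhi M t z.1 z.2 := by
    have h1 : Measurable fun z : (ℝ × ℝ) × ℝ => (t, z.1, z.2) := measurable_const.prodMk (measurable_fst.prodMk measurable_snd)
    have h2 : Measurable fun z : (ℝ × ℝ) × ℝ => chPhi M (t, z.1, z.2).1 (t, z.1, z.2).2.1 (t, z.1, z.2).2.2 := (ch_fk_phi_meas M).comp h1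
    exact h2
  have hm : StronglyMeasurable fun z : (ℝ × ℝ) × ℝ => (chWp M n ρ' z.2 * chPhi M t z.1 z.2) • F z.1 :=
    (hcwp.measurable.mul hphi).stronglyMeasurable.smul (hF.1.comp_measurable measurable_fst)
  have hb : ∀ z : (ℝ × ℝ) × ℝ, ‖(chWp M n ρ' z.2 * chPhi M t z.1 z.2) • F z.1‖ ≤ ‖F z.1‖ * ‖chWp M n ρ' z.2‖ := by
    intro z
    rw [norm_smul, norm_mul, mul_comm]
    refine mul_le_mul_of_nonneg_left ?_ (norm_nonneg _)
    calc ‖chWp M n ρ' z.2‖ * ‖chPhi M t z.1 z.2‖ ≤ ‖chWp M n ρ' z.2‖ * 1 :=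
          mul_le_mul_of_nonneg_left (ch_fk_phi_le hM hM1 t z.1 z.2) (norm_nonneg _)
      _ = _ := mul_one _
  exact (hFi.mul_prod (ch_fk_wp_int hM n ρ')).mono' hm.aestronglyMeasurable (Filter.Eventually.of_forall hb)

theorem ch_fk_rep_tr {E : Type} [NormedAddCommGroup E] [NormedSpace ℂ E] [CompleteSpace E] {M : ℝ} (hM : 0 < M) (hM1 : M ≤ 1) (t : ℝ) (n : ℕ)
    {F : ℝ × ℝ → E} (hF : ChNice F) (ρ' : ℝ × ℝ) :
    (chN M).tr 0 0 t n F ρ' = (((Real.pi * ((2 : ℝ)⁻¹ ^ n / M)) ^ (-(1 / 4) : ℝ) : ℝ) : ℂ) • ∫ x : ℝ, chWp M n ρ' x • chPsi M t F x := by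
  unfold HyF.tr chPsi
  simp_rw [ch_fk_rep_kr hM, mul_smul, ← integral_smul_const]
  rw [integral_smul, integral_integral_swap (ch_fk_rep_fub2 hM hM1 t n hF ρ')]
  simp_rw [mul_smul, integral_smul]

end Claimed.Agent.R256
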