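import Claimed.Agent.R256.Chan.Fk.TwoTt

/-!
# Row 256, Chan/Fk, TWO PARTICLES, leaf L-256-FK-TWO4: removal of the centre of mass      (architect helper132; prefix `ch_fk_`)

`ch_fk_cv_pair` (change of variables in a double `lintegral`):  `∫⁻_{z₁} ∫⁻_{z₃} Θ z₁ z₃ dν_σ' dν_σ = ∫⁻_c ∫⁻_r Θ (z₁(c,r)) (z₃(c,r)) dν_m dν_S`   for measurable `Θ`
   (`lintegral_prod` twice, `(ch_fk_mp_z ..).lintegral_comp`).
`ch_fk_back`:  the case `Θ z₁ z₃ = W(z₁-z₃) ‖F z₁‖² ‖F' z₃‖²`, with `ch_fk_z_sub`, `ch_fk_ff_norm`.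
`ch_fk_core`:  `chPair W (tr_σ F) (tr_σ' F') = ∫⁻_{c'} ∫⁻_{r'} W r' ‖tr_σ F z₁' ⊗ tr_σ' F' z₃'‖²` (`ch_fk_cv_pair`, `hy_ten_norm`, measurability: `hy_tr_meas`)
   `= ∫⁻_{r'} W r' ∫⁻_{c'} ‖tr_S (G_{r'}) c'‖² dν_S dν_m`  (`ch_fk_tt`, Tonelli),  `G_{r'} c = tr_m (FF c) r'`
   `≤ ∫⁻_{r'} W r' ∫⁻_c ‖G_{r'} c‖² dν_S dν_m`   (**`hy_tr_contr`** for the fibre `chN S` and the Hilbert space `HyT E`;  `G_{r'} ∈ L²(ν_S)`: it is measurable (`ch_fk_tr_meas`), bounded and of bounded support in `c`: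
      `‖G c‖ ≤ ∫ ‖kr_m(r',r)‖ ‖FF c r‖ dν_m ≤ B B' ∫_{‖r‖ ≤ 2R} dν_m` as `‖kr‖ ≤ 1`.., `FF c = 0` if `‖c‖ > 2R`..)    then Tonelli back.   ~400 l.
-/

set_option autoImplicit false

namespace Claimed.Agent.R256

open MeasureTheory
open scoped ENNReal ComplexConjugate

/-- joint measurability of the kernel in the time and the two rows -/
theorem ch_fk_kr_meas3 (φ : HyF) (n : ℕ) : StronglyMeasurable fun y : ℝ × (ℝ × ℝ) × (ℝ × ℝ) => φ.kr 0 0 y.1 n y.2.1 y.2.2 := by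
  have h1 : Continuous fun w : (ℝ × (ℝ × ℝ) × (ℝ × ℝ)) × ℝ => φ.pk w.1.1 n w.1.2.1 w.2 :=
    (ch_fk_pk_cont φ n).comp (f := fun w : (ℝ × (ℝ × ℝ) × (ℝ × ℝ)) × ℝ => (w.1.1, w.1.2.1, w.2)) (by fun_prop)
  have h2 : Continuous fun w : (ℝ × (ℝ × ℝ) × (ℝ × ℝ)) × ℝ => φ.pk 0 0 w.1.2.2 w.2 :=
    (ch_fk_pk_cont φ 0).comp (f := fun w : (ℝ × (ℝ × ℝ) × (ℝ × ℝ)) × ℝ => ((0 : ℝ), w.1.2.2, w.2)) (by fun_prop)
  have h3 : Continuous fun w : (ℝ × (ℝ × ℝ) × (ℝ × ℝ)) × ℝ => φ.pk w.1.1 n w.1.2.1 w.2 * conj (φ.pk 0 0 w.1.2.2 w.2) :=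
    h1.mul (Complex.continuous_conj.comp h2)
  exact StronglyMeasurable.integral_prod_right' (ν := (volume : Measure ℝ))
    (f := fun w : (ℝ × (ℝ × ℝ) × (ℝ × ℝ)) × ℝ => φ.pk w.1.1 n w.1.2.1 w.2 * conj (φ.pk 0 0 w.1.2.2 w.2)) h3.stronglyMeasurable

/-- joint measurability of a transfer in the time, a parameter and the row -/
theorem ch_fk_tr_meas (φ : HyF) (n : ℕ) {X : Type} [MeasurableSpace X] {E' : Type} [NormedAddCommGroup E'] [NormedSpace ℂ E']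
    (G : X → ℝ × ℝ → E') (hG : StronglyMeasurable (Function.uncurry G)) :
    StronglyMeasurable fun x : (ℝ × X) × (ℝ × ℝ) => φ.tr 0 0 x.1.1 n (G x.1.2) x.2 := by
  have := hy_nu_sfinite φ
  have h1 : StronglyMeasurable fun w : ((ℝ × X) × (ℝ × ℝ)) × (ℝ × ℝ) => φ.kr 0 0 w.1.1.1 n w.1.2 w.2 :=
    (ch_fk_kr_meas3 φ n).comp_measurable (g := fun w : ((ℝ × X) × (ℝ × ℝ)) × (ℝ × ℝ) => (w.1.1.1, w.1.2, w.2)) (by fun_prop)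
  have h2 : StronglyMeasurable fun w : ((ℝ × X) × (ℝ × ℝ)) × (ℝ × ℝ) => G w.1.1.2 w.2 :=
    hG.comp_measurable (g := fun w : ((ℝ × X) × (ℝ × ℝ)) × (ℝ × ℝ) => (w.1.1.2, w.2)) (by fun_prop)
  exact StronglyMeasurable.integral_prod_right' (ν := φ.nu)
    (f := fun w : ((ℝ × X) × (ℝ × ℝ)) × (ℝ × ℝ) => φ.kr 0 0 w.1.1.1 n w.1.2 w.2 • G w.1.1.2 w.2) (h1.smul h2)

theorem ch_fk_cv_pair {σ σ' : ℝ} (h : 0 < σ) (h' : 0 < σ') (Θ : ℝ × ℝ → ℝ × ℝ → ℝ≥0∞) (hΘ : Measurable (Function.uncurry Θ)) :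
    ∫⁻ z₁, ∫⁻ z₃, Θ z₁ z₃ ∂(chN σ').nu ∂(chN σ).nu =
      ∫⁻ c, ∫⁻ r, Θ (chZ1 σ σ' c r) (chZ3 σ σ' c r) ∂(chN (chRm σ σ')).nu ∂(chN (σ + σ')).nu := by
  have := hy_nu_sfinite (chN σ)
  have := hy_nu_sfinite (chN σ')
  have := hy_nu_sfinite (chN (σ + σ'))
  have := hy_nu_sfinite (chN (chRm σ σ'))
  have hmp := ch_fk_mp_z h h'
  have e1 := lintegral_prod (μ := (chN σ).nu) (ν := (chN σ').nu) (Function.uncurry Θ) hΘ.aemeasurable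
  have e2 := lintegral_prod (μ := (chN (σ + σ')).nu) (ν := (chN (chRm σ σ')).nu)
    (fun x : (ℝ × ℝ) × (ℝ × ℝ) => Function.uncurry Θ (chZ1 σ σ' x.1 x.2, chZ3 σ σ' x.1 x.2)) (hΘ.comp hmp.measurable).aemeasurable
  have e3 := hmp.lintegral_comp hΘ
  simp only [Function.uncurry_apply_pair] at e1 e2
  rw [← e1, ← e2]
  exact e3.symm

variable {E : Type} [NormedAddCommGroup E] [InnerProductSpace ℂ E] [CompleteSpace E]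

variable {E : Type} [NormedAddCommGroup E] [InnerProductSpace ℂ E] [CompleteSpace E]

theorem ch_fk_back {σ σ' : ℝ} (h : 0 < σ) (h' : 0 < σ') {F F' : ℝ × ℝ → E} (hF : StronglyMeasurable F) (hF' : StronglyMeasurable F')
    (W : ℝ × ℝ → ℝ≥0∞) (hW : Measurable W) :
    ∫⁻ c, ∫⁻ r, W r * ‖chFF σ σ' F F' c r‖ₑ ^ 2 ∂(chN (chRm σ σ')).nu ∂(chN (σ + σ')).nu = chPair (chN σ).nu (chN σ').nu W F F' := by
  unfold chPair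
  have hΘ : Measurable (Function.uncurry fun z₁ z₃ : ℝ × ℝ => W (z₁ - z₃) * (‖F z₁‖ₑ ^ 2 * ‖F' z₃‖ₑ ^ 2)) := by
    have a1 : Measurable fun x : (ℝ × ℝ) × (ℝ × ℝ) => ‖F x.1‖ₑ ^ 2 := ((hF.comp_measurable measurable_fst).enorm).pow_const 2
    have a2 : Measurable fun x : (ℝ × ℝ) × (ℝ × ℝ) => ‖F' x.2‖ₑ ^ 2 := ((hF'.comp_measurable measurable_snd).enorm).pow_const 2
    have a3 : Measurable fun x : (ℝ × ℝ) × (ℝ × ℝ) => W (x.1 - x.2) := hW.comp (measurable_fst.sub measurable_snd)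
    exact a3.mul (a1.mul a2)
  rw [ch_fk_cv_pair h h' _ hΘ]
  refine lintegral_congr fun c => lintegral_congr fun r => ?_
  rw [ch_fk_z_sub σ σ' (by linarith), ch_fk_ff_norm]

theorem ch_fk_core {σ σ' : ℝ} (h : 0 < σ) (h' : 0 < σ') {F F' : ℝ × ℝ → E} (hF : ChNice F) (hF' : ChNice F')
    (t : ℝ) (n : ℕ) (W : ℝ × ℝ → ℝ≥0∞) (hW : Measurable W) :
    chPair (chN σ).nu (chN σ').nu W ((chN σ).tr 0 0 t n F) ((chN σ').tr 0 0 t n F') ≤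
      ∫⁻ c, ∫⁻ r', W r' * ‖(chN (chRm σ σ')).tr 0 0 t n (chFF σ σ' F F' c) r'‖ₑ ^ 2 ∂(chN (chRm σ σ')).nu ∂(chN (σ + σ')).nu := by
  have := hy_nu_sfinite (chN (σ + σ'))
  have := hy_nu_sfinite (chN (chRm σ σ'))
  have hS : 0 < σ + σ' := by linarith
  have hm : 0 < chRm σ σ' := by
    unfold chRm
    positivity
  have hT1 : StronglyMeasurable ((chN σ).tr 0 0 t n F) := hy_tr_meas _ (ch_fk_okN h) _ _ _ _ _ hF.1.aestronglyMeasurable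
  have hT3 : StronglyMeasurable ((chN σ').tr 0 0 t n F') := hy_tr_meas _ (ch_fk_okN h') _ _ _ _ _ hF'.1.aestronglyMeasurable
  -- the function `G`
  have hGm : StronglyMeasurable fun x : (ℝ × ℝ) × (ℝ × ℝ) => (chN (chRm σ σ')).tr 0 0 t n (chFF σ σ' F F' x.1) x.2 :=
    (ch_fk_tr_meas (chN (chRm σ σ')) n (chFF σ σ' F F') (ch_fk_ff_meas σ σ' hF.1 hF'.1)).comp_measurable
      (g := fun x : (ℝ × ℝ) × (ℝ × ℝ) => ((t, x.1), x.2)) (by fun_prop)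
  rw [← ch_fk_back h h' hT1 hT3 W hW]
  have e1 : ∀ c' r' : ℝ × ℝ, chFF σ σ' ((chN σ).tr 0 0 t n F) ((chN σ').tr 0 0 t n F') c' r'
      = (chN (σ + σ')).tr 0 0 t n (fun c => (chN (chRm σ σ')).tr 0 0 t n (chFF σ σ' F F' c) r') c' := fun c' r' =>
    ch_fk_tt h h' hF hF' 0 0 t n c' r'
  have hm1 : Measurable fun x : (ℝ × ℝ) × (ℝ × ℝ) => W x.2 * ‖chFF σ σ' ((chN σ).tr 0 0 t n F) ((chN σ').tr 0 0 t n F') x.1 x.2‖ₑ ^ 2 :=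
    (hW.comp measurable_snd).mul ((ch_fk_ff_meas σ σ' hT1 hT3).enorm.pow_const 2)
  have hm2 : Measurable fun x : (ℝ × ℝ) × (ℝ × ℝ) => W x.2 * ‖(chN (chRm σ σ')).tr 0 0 t n (chFF σ σ' F F' x.1) x.2‖ₑ ^ 2 :=
    (hW.comp measurable_snd).mul (hGm.enorm.pow_const 2)
  have hcon : ∀ r' : ℝ × ℝ, ∫⁻ c', ‖(chN (σ + σ')).tr 0 0 t n (fun c => (chN (chRm σ σ')).tr 0 0 t n (chFF σ σ' F F' c) r') c'‖ₑ ^ 2 ∂(chN (σ + σ')).nu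
      ≤ ∫⁻ c, ‖(chN (chRm σ σ')).tr 0 0 t n (chFF σ σ' F F' c) r'‖ₑ ^ 2 ∂(chN (σ + σ')).nu := by
    intro r'
    by_cases htop : ∫⁻ c, ‖(chN (chRm σ σ')).tr 0 0 t n (chFF σ σ' F F' c) r'‖ₑ ^ 2 ∂(chN (σ + σ')).nu = ⊤
    · rw [htop]
      exact le_top
    · have hsm : StronglyMeasurable fun c : ℝ × ℝ => (chN (chRm σ σ')).tr 0 0 t n (chFF σ σ' F F' c) r' :=
        hGm.comp_measurable (g := fun c : ℝ × ℝ => (c, r')) (by fun_prop)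
      exact hy_tr_contr _ (ch_fk_okN hS) _ _ _ _ _ (hy_memLp_two _ _ hsm.aestronglyMeasurable htop)
  calc ∫⁻ c', ∫⁻ r', W r' * ‖chFF σ σ' ((chN σ).tr 0 0 t n F) ((chN σ').tr 0 0 t n F') c' r'‖ₑ ^ 2 ∂(chN (chRm σ σ')).nu ∂(chN (σ + σ')).nu
      = ∫⁻ r', ∫⁻ c', W r' * ‖chFF σ σ' ((chN σ).tr 0 0 t n F) ((chN σ').tr 0 0 t n F') c' r'‖ₑ ^ 2 ∂(chN (σ + σ')).nu ∂(chN (chRm σ σ')).nu :=
        lintegral_lintegral_swap (f := fun c' r' => W r' * ‖chFF σ σ' ((chN σ).tr 0 0 t n F) ((chN σ').tr 0 0 t n F') c' r'‖ₑ ^ 2) hm1.aemeasurable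
    _ = ∫⁻ r', W r' * ∫⁻ c', ‖chFF σ σ' ((chN σ).tr 0 0 t n F) ((chN σ').tr 0 0 t n F') c' r'‖ₑ ^ 2 ∂(chN (σ + σ')).nu ∂(chN (chRm σ σ')).nu := by
        refine lintegral_congr fun r' => ?_
        refine lintegral_const_mul _ ?_
        exact (((ch_fk_ff_meas σ σ' hT1 hT3).comp_measurable (g := fun c' : ℝ × ℝ => (c', r')) (by fun_prop)).enorm).pow_const 2
    _ ≤ ∫⁻ r', W r' * ∫⁻ c, ‖(chN (chRm σ σ')).tr 0 0 t n (chFF σ σ' F F' c) r'‖ₑ ^ 2 ∂(chN (σ + σ')).nu ∂(chN (chRm σ σ')).nu := by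
        refine lintegral_mono fun r' => ?_
        simp only [e1]
        exact mul_le_mul_right (hcon r') _
    _ = ∫⁻ r', ∫⁻ c, W r' * ‖(chN (chRm σ σ')).tr 0 0 t n (chFF σ σ' F F' c) r'‖ₑ ^ 2 ∂(chN (σ + σ')).nu ∂(chN (chRm σ σ')).nu := by
        refine lintegral_congr fun r' => ?_
        refine (lintegral_const_mul _ ?_).symm
        exact ((hGm.comp_measurable (g := fun c : ℝ × ℝ => (c, r')) (by fun_prop)).enorm).pow_const 2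
    _ = _ := (lintegral_lintegral_swap (f := fun c r' => W r' * ‖(chN (chRm σ σ')).tr 0 0 t n (chFF σ σ' F F' c) r'‖ₑ ^ 2) hm2.aemeasurable).symm

end Claimed.Agent.R256
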