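import Claimed.Agent.R256.Chan.Fk.TwoMp

/-!
# Row 256, Chan/Fk, TWO PARTICLES, leaf L-256-FK-TWO2: EXACT FACTORISATION of natural packets and kernels      (architect helper132; prefix `ch_fk_`)      checked numerically

`S = σ+σ'`, `m = σσ'/S`, `z₁ = c + (σ'/S) r`, `z₃ = c - (σ/S) r`, `u = (σ/S)P + p`, `u' = (σ'/S)P - p`.      `ch_fk_pkN` (black box) gives the explicit packets.
`ch_fk_pk_fac`:  `pk_σ T k z₁ u · pk_σ' T k z₃ u' = pk_S T k c P · pk_m T k r p`.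
   amplitudes: `(a/(σπ))^(1/4) (a/(σ'π))^(1/4) = (a/(Sπ))^(1/4) (a/(mπ))^(1/4)` since `σσ' = Sm` (`Real.mul_rpow`);
   with `ũ = u - σN₁`, `ũ' = u' - σ'N₃`, `P~ = P - S N_c`, `p~ = p - m N_r`:  `ũ = (σ/S)P~ + p~`, `ũ' = (σ'/S)P~ - p~`,
   `ũ²/σ + ũ'²/σ' = P~²/S + p~²/m`,   `ũ D₁ + ũ' D₃ = P~ D_c + p~ D_r`,   `u²/σ + u'²/σ' = P²/S + p²/m`       (`field_simp; ring`).
`ch_fk_kr_fac`:  `kr_σ(z₁',z₁) kr_σ'(z₃',z₃) = ∫∫ [..] du du'` (`integral_prod_mul`, `volume_eq_prod`) `= ∫∫ [..](u(P,p),u'(P,p)) dP dp` (`(ch_fk_mp_u ..).integral_comp (ch_fk_emb_u ..)`) `= kr_S(c',c) kr_m(r',r)` (`ch_fk_pk_fac` twice, `integral_prod_mul`).   ~300 l.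
-/

set_option autoImplicit false

namespace Claimed.Agent.R256

open MeasureTheory
open scoped ENNReal ComplexConjugate

theorem ch_fk_pk_fac {σ σ' : ℝ} (h : 0 < σ) (h' : 0 < σ') (T : ℝ) (k : ℕ) (c r : ℝ × ℝ) (P p : ℝ) :
    (chN σ).pk T k (chZ1 σ σ' c r) (σ / (σ + σ') * P + p) * (chN σ').pk T k (chZ3 σ σ' c r) (σ' / (σ + σ') * P - p) =
      (chN (σ + σ')).pk T k c P * (chN (chRm σ σ')).pk T k r p := by
  have hS : 0 < σ + σ' := by positivity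
  have hm : 0 < chRm σ σ' := by unfold chRm; positivity
  rw [ch_fk_pkN h, ch_fk_pkN h', ch_fk_pkN hS, ch_fk_pkN hm]
  set a : ℝ := (2 : ℝ)⁻¹ ^ k with ha
  have ha0 : 0 < a := by positivity
  have hπ := Real.pi_pos
  have hA : (a / (σ * Real.pi)) ^ (1 / 4 : ℝ) * (a / (σ' * Real.pi)) ^ (1 / 4 : ℝ)
      = (a / ((σ + σ') * Real.pi)) ^ (1 / 4 : ℝ) * (a / (chRm σ σ' * Real.pi)) ^ (1 / 4 : ℝ) := by
    rw [← Real.mul_rpow (by positivity) (by positivity), ← Real.mul_rpow (by positivity) (by positivity)]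
    congr 1
    unfold chRm
    field_simp
  have hE : Real.exp (-(a * (σ / (σ + σ') * P + p - σ * (chZ1 σ σ' c r).2) ^ 2 / (2 * σ)))
        * Real.exp (-(a * (σ' / (σ + σ') * P - p - σ' * (chZ3 σ σ' c r).2) ^ 2 / (2 * σ')))
      = Real.exp (-(a * (P - (σ + σ') * c.2) ^ 2 / (2 * (σ + σ')))) * Real.exp (-(a * (p - chRm σ σ' * r.2) ^ 2 / (2 * chRm σ σ'))) := by
    rw [← Real.exp_add, ← Real.exp_add]
    congr 1
    unfold chRm chZ1 chZ3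
    simp only [Prod.snd_add, Prod.snd_sub, Prod.smul_snd, smul_eq_mul]
    field_simp
    ring
  have hθ : Complex.exp (Complex.I * (((σ / (σ + σ') * P + p - σ * (chZ1 σ σ' c r).2) * (chZ1 σ σ' c r).1 - T * (σ / (σ + σ') * P + p) ^ 2 / (2 * σ) : ℝ) : ℂ))
        * Complex.exp (Complex.I * (((σ' / (σ + σ') * P - p - σ' * (chZ3 σ σ' c r).2) * (chZ3 σ σ' c r).1 - T * (σ' / (σ + σ') * P - p) ^ 2 / (2 * σ') : ℝ) : ℂ))
      = Complex.exp (Complex.I * (((P - (σ + σ') * c.2) * c.1 - T * P ^ 2 / (2 * (σ + σ')) : ℝ) : ℂ))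
        * Complex.exp (Complex.I * (((p - chRm σ σ' * r.2) * r.1 - T * p ^ 2 / (2 * chRm σ σ') : ℝ) : ℂ)) := by
    rw [← Complex.exp_add, ← Complex.exp_add, ← mul_add, ← mul_add, ← Complex.ofReal_add, ← Complex.ofReal_add]
    congr 3
    unfold chRm chZ1 chZ3
    simp only [Prod.snd_add, Prod.snd_sub, Prod.smul_snd, Prod.fst_add, Prod.fst_sub, Prod.smul_fst, smul_eq_mul]
    field_simp
    ring
  rw [Complex.ofReal_mul, Complex.ofReal_mul, Complex.ofReal_mul, Complex.ofReal_mul]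
  have hA' := congrArg (fun x : ℝ => (x : ℂ)) hA
  have hE' := congrArg (fun x : ℝ => (x : ℂ)) hE
  simp only [Complex.ofReal_mul] at hA' hE'
  generalize Complex.exp (Complex.I * (((σ / (σ + σ') * P + p - σ * (chZ1 σ σ' c r).2) * (chZ1 σ σ' c r).1 - T * (σ / (σ + σ') * P + p) ^ 2 / (2 * σ) : ℝ) : ℂ)) = t1 at hθ ⊢
  generalize Complex.exp (Complex.I * (((σ' / (σ + σ') * P - p - σ' * (chZ3 σ σ' c r).2) * (chZ3 σ σ' c r).1 - T * (σ' / (σ + σ') * P - p) ^ 2 / (2 * σ') : ℝ) : ℂ)) = t3 at hθ ⊢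
  generalize Complex.exp (Complex.I * (((P - (σ + σ') * c.2) * c.1 - T * P ^ 2 / (2 * (σ + σ')) : ℝ) : ℂ)) = tS at hθ ⊢
  generalize Complex.exp (Complex.I * (((p - chRm σ σ' * r.2) * r.1 - T * p ^ 2 / (2 * chRm σ σ') : ℝ) : ℂ)) = tm at hθ ⊢
  generalize (((a / (σ * Real.pi)) ^ (1 / 4 : ℝ) : ℝ) : ℂ) = A1 at hA' ⊢
  generalize (((a / (σ' * Real.pi)) ^ (1 / 4 : ℝ) : ℝ) : ℂ) = A3 at hA' ⊢
  generalize (((a / ((σ + σ') * Real.pi)) ^ (1 / 4 : ℝ) : ℝ) : ℂ) = AS at hA' ⊢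
  generalize (((a / (chRm σ σ' * Real.pi)) ^ (1 / 4 : ℝ) : ℝ) : ℂ) = Am at hA' ⊢
  generalize ((Real.exp (-(a * (σ / (σ + σ') * P + p - σ * (chZ1 σ σ' c r).2) ^ 2 / (2 * σ))) : ℝ) : ℂ) = E1 at hE' ⊢
  generalize ((Real.exp (-(a * (σ' / (σ + σ') * P - p - σ' * (chZ3 σ σ' c r).2) ^ 2 / (2 * σ'))) : ℝ) : ℂ) = E3 at hE' ⊢
  generalize ((Real.exp (-(a * (P - (σ + σ') * c.2) ^ 2 / (2 * (σ + σ')))) : ℝ) : ℂ) = ES at hE' ⊢
  generalize ((Real.exp (-(a * (p - chRm σ σ' * r.2) ^ 2 / (2 * chRm σ σ'))) : ℝ) : ℂ) = Em at hE' ⊢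
  calc A1 * E1 * t1 * (A3 * E3 * t3) = (A1 * A3) * (E1 * E3) * (t1 * t3) := by ring
    _ = (AS * Am) * (ES * Em) * (tS * tm) := by rw [hA', hE', hθ]
    _ = _ := by ring

theorem ch_fk_kr_fac {σ σ' : ℝ} (h : 0 < σ) (h' : 0 < σ') (T : ℝ) (k : ℕ) (T' : ℝ) (k' : ℕ) (c' r' c r : ℝ × ℝ) :
    (chN σ).kr T k T' k' (chZ1 σ σ' c' r') (chZ1 σ σ' c r) * (chN σ').kr T k T' k' (chZ3 σ σ' c' r') (chZ3 σ σ' c r) =
      (chN (σ + σ')).kr T k T' k' c' c * (chN (chRm σ σ')).kr T k T' k' r' r := by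
  unfold HyF.kr
  rw [← integral_prod_mul, ← integral_prod_mul, ← Measure.volume_eq_prod,
    ← (ch_fk_mp_u h h').integral_comp (ch_fk_emb_u h h')]
  refine integral_congr_ae (Filter.Eventually.of_forall fun x => ?_)
  simp only
  have e1 := ch_fk_pk_fac h h' T' k' c' r' x.1 x.2
  have e2 := ch_fk_pk_fac h h' T k c r x.1 x.2
  calc (chN σ).pk T' k' (chZ1 σ σ' c' r') (σ / (σ + σ') * x.1 + x.2) * conj ((chN σ).pk T k (chZ1 σ σ' c r) (σ / (σ + σ') * x.1 + x.2))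
        * ((chN σ').pk T' k' (chZ3 σ σ' c' r') (σ' / (σ + σ') * x.1 - x.2) * conj ((chN σ').pk T k (chZ3 σ σ' c r) (σ' / (σ + σ') * x.1 - x.2)))
      = ((chN σ).pk T' k' (chZ1 σ σ' c' r') (σ / (σ + σ') * x.1 + x.2) * (chN σ').pk T' k' (chZ3 σ σ' c' r') (σ' / (σ + σ') * x.1 - x.2))
        * conj ((chN σ).pk T k (chZ1 σ σ' c r) (σ / (σ + σ') * x.1 + x.2) * (chN σ').pk T k (chZ3 σ σ' c r) (σ' / (σ + σ') * x.1 - x.2)) := by
        rw [map_mul]; ring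
    _ = _ := by
        rw [e1, e2, map_mul]; ring

end Claimed.Agent.R256
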