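import Claimed.Agent.R256.Chan.Fk.Basic

/-!
# Row 256, Chan/Fk, TWO PARTICLES, leaf L-256-FK-TWO1: the two linear changes of variables preserve the measures      (architect helper132; prefix `ch_fk_`)      Mathlib only

`S = σ+σ'`, `m = chRm σ σ' = σσ'/S`.
(z) `(c,r) ↦ (z₁,z₃) = (c + (σ'/S) r, c - (σ/S) r)` on `(ℝ×ℝ) × (ℝ×ℝ)`.   Composition of `(c,r) ↦ (c + (σ'/S) r, r) = (z₁, r)` and `(z₁,r) ↦ (z₁, z₁ - r)`  (`z₃ = z₁ - r`).
    Each is a skew product: `MeasurePreserving.skew_product` with the translation / reflection in one factor (`measurePreserving_add_right`, `measurePreserving_sub_left`), `Measure.prod_swap`/`measurePreserving_swap` for the first one.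
    Constants: `ν_M = M/(2π) vol` (`ch_fk_nuN`), `Measure.prod_smul_left/right`, `S m = σσ'`.
(u) `(P,p) ↦ (u,u') = ((σ/S) P + p, (σ'/S) P - p)` on `ℝ × ℝ`:   `(P,p) ↦ (P, p + (σ/S)P) = (P,u)`, then `(P,u) ↦ (u, P - u)`.
Both maps are homeomorphisms (explicit inverse: `c = (σ z₁ + σ' z₃)/S`, `r = z₁ - z₃`;  `P = u+u'`, `p = (σ'u - σu')/S`), hence measurable embeddings (`Homeomorph.measurableEmbedding` or `MeasurableEquiv`).   ~300 l.
-/

set_option autoImplicit false

namespace Claimed.Agent.R256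

open MeasureTheory
open scoped ENNReal

theorem ch_fk_z_sub (σ σ' : ℝ) (h : 0 < σ + σ') (c r : ℝ × ℝ) : chZ1 σ σ' c r - chZ3 σ σ' c r = r := by
  have h0 := h.ne'
  ext
  · simp only [chZ1, chZ3, Prod.fst_sub, Prod.fst_add, Prod.smul_fst, smul_eq_mul]
    field_simp
    ring
  · simp only [chZ1, chZ3, Prod.snd_sub, Prod.snd_add, Prod.smul_snd, smul_eq_mul]
    field_simp
    ring

/-- constants come out of a product measure -/
theorem ch_fk_prod_smul {α β : Type*} [MeasurableSpace α] [MeasurableSpace β] (μ : Measure α) (ν : Measure β) [SFinite μ] [SFinite ν] (a b : ℝ≥0∞) :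
    (a • μ).prod (b • ν) = (a * b) • μ.prod ν := by
  have h : μ.prod (b • ν) = b • μ.prod ν := by
    rw [← Measure.prod_swap, Measure.prod_smul_left, Measure.map_smul, Measure.prod_swap]
  rw [Measure.prod_smul_left, h, smul_smul]

/-- `(c, r) ↦ (c + a r, c + a r - r)` preserves the volume -/
theorem ch_fk_mp_aux (a : ℝ) :
    MeasurePreserving (fun x : (ℝ × ℝ) × (ℝ × ℝ) => (x.1 + a • x.2, x.1 + a • x.2 - x.2))
      ((volume : Measure (ℝ × ℝ)).prod (volume : Measure (ℝ × ℝ))) ((volume : Measure (ℝ × ℝ)).prod (volume : Measure (ℝ × ℝ))) := by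
  have k1 : MeasurePreserving (fun p : (ℝ × ℝ) × (ℝ × ℝ) => (p.1, p.2 + a • p.1))
      ((volume : Measure (ℝ × ℝ)).prod (volume : Measure (ℝ × ℝ))) ((volume : Measure (ℝ × ℝ)).prod (volume : Measure (ℝ × ℝ))) := by
    refine (MeasurePreserving.id (volume : Measure (ℝ × ℝ))).skew_product (g := fun r c => c + a • r) ?_ ?_
    · unfold Function.uncurry
      fun_prop
    · exact Filter.Eventually.of_forall fun r => map_add_right_eq_self volume _
  have k2 : MeasurePreserving (fun p : (ℝ × ℝ) × (ℝ × ℝ) => (p.1, p.1 - p.2))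
      ((volume : Measure (ℝ × ℝ)).prod (volume : Measure (ℝ × ℝ))) ((volume : Measure (ℝ × ℝ)).prod (volume : Measure (ℝ × ℝ))) := by
    refine (MeasurePreserving.id (volume : Measure (ℝ × ℝ))).skew_product (g := fun z r => z - r) ?_ ?_
    · unfold Function.uncurry
      fun_prop
    · exact Filter.Eventually.of_forall fun z => (Measure.measurePreserving_sub_left volume z).map_eq
  have sw := Measure.measurePreserving_swap (μ := (volume : Measure (ℝ × ℝ))) (ν := (volume : Measure (ℝ × ℝ)))
  exact k2.comp (sw.comp (k1.comp sw))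

theorem ch_fk_mp_z {σ σ' : ℝ} (h : 0 < σ) (h' : 0 < σ') :
    MeasurePreserving (fun x : (ℝ × ℝ) × (ℝ × ℝ) => (chZ1 σ σ' x.1 x.2, chZ3 σ σ' x.1 x.2))
      ((chN (σ + σ')).nu.prod (chN (chRm σ σ')).nu) ((chN σ).nu.prod (chN σ').nu) := by
  have hS : 0 < σ + σ' := by positivity
  have hm : 0 < chRm σ σ' := by
    unfold chRm
    positivity
  have hpi := Real.pi_pos
  rw [ch_fk_nuN hS, ch_fk_nuN hm, ch_fk_nuN h, ch_fk_nuN h', ch_fk_prod_smul, ch_fk_prod_smul]
  have ec : ENNReal.ofReal ((σ + σ') / (2 * Real.pi)) * ENNReal.ofReal (chRm σ σ' / (2 * Real.pi))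
      = ENNReal.ofReal (σ / (2 * Real.pi)) * ENNReal.ofReal (σ' / (2 * Real.pi)) := by
    rw [← ENNReal.ofReal_mul (by positivity), ← ENNReal.ofReal_mul (by positivity)]
    congr 1
    unfold chRm
    field_simp
  rw [ec]
  refine MeasurePreserving.smul_measure ?_ _
  have e : (fun x : (ℝ × ℝ) × (ℝ × ℝ) => (chZ1 σ σ' x.1 x.2, chZ3 σ σ' x.1 x.2))
      = fun x : (ℝ × ℝ) × (ℝ × ℝ) => (x.1 + (σ' / (σ + σ')) • x.2, x.1 + (σ' / (σ + σ')) • x.2 - x.2) := by
    funext x
    have h1 := ch_fk_z_sub σ σ' hS x.1 x.2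
    have h2 : chZ3 σ σ' x.1 x.2 = chZ1 σ σ' x.1 x.2 - x.2 := by
      rw [← sub_eq_iff_eq_add'.2 (sub_eq_iff_eq_add.1 h1)]
    rw [h2]
    rfl
  rw [e]
  exact ch_fk_mp_aux _

theorem ch_fk_emb_z {σ σ' : ℝ} (h : 0 < σ) (h' : 0 < σ') :
    MeasurableEmbedding (fun x : (ℝ × ℝ) × (ℝ × ℝ) => (chZ1 σ σ' x.1 x.2, chZ3 σ σ' x.1 x.2)) := by
  have hS : 0 < σ + σ' := by positivity
  have hS0 := hS.ne'
  let e : (ℝ × ℝ) × (ℝ × ℝ) ≃ᵐ (ℝ × ℝ) × (ℝ × ℝ) :=
    { toFun := fun x => (chZ1 σ σ' x.1 x.2, chZ3 σ σ' x.1 x.2)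
      invFun := fun z => ((σ / (σ + σ')) • z.1 + (σ' / (σ + σ')) • z.2, z.1 - z.2)
      left_inv := by
        intro x
        ext
        · simp only [chZ1, chZ3, Prod.fst_sub, Prod.fst_add, Prod.smul_fst, smul_eq_mul]
          field_simp
          ring
        · simp only [chZ1, chZ3, Prod.snd_sub, Prod.snd_add, Prod.smul_snd, smul_eq_mul]
          field_simp
          ring
        · simp only [chZ1, chZ3, Prod.fst_sub, Prod.fst_add, Prod.smul_fst, smul_eq_mul]
          field_simp
          ring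
        · simp only [chZ1, chZ3, Prod.snd_sub, Prod.snd_add, Prod.smul_snd, smul_eq_mul]
          field_simp
          ring
      right_inv := by
        intro x
        ext
        · simp only [chZ1, chZ3, Prod.fst_sub, Prod.fst_add, Prod.smul_fst, smul_eq_mul]
          field_simp
          ring
        · simp only [chZ1, chZ3, Prod.snd_sub, Prod.snd_add, Prod.smul_snd, smul_eq_mul]
          field_simp
          ring
        · simp only [chZ1, chZ3, Prod.fst_sub, Prod.fst_add, Prod.smul_fst, smul_eq_mul]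
          field_simp
          ring
        · simp only [chZ1, chZ3, Prod.snd_sub, Prod.snd_add, Prod.smul_snd, smul_eq_mul]
          field_simp
          ring
      measurable_toFun := by
        change Measurable fun x : (ℝ × ℝ) × (ℝ × ℝ) => (chZ1 σ σ' x.1 x.2, chZ3 σ σ' x.1 x.2)
        unfold chZ1 chZ3
        fun_prop
      measurable_invFun := by
        change Measurable fun z : (ℝ × ℝ) × (ℝ × ℝ) => ((σ / (σ + σ')) • z.1 + (σ' / (σ + σ')) • z.2, z.1 - z.2)
        fun_prop }
  exact e.measurableEmbedding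

theorem ch_fk_mp_u {σ σ' : ℝ} (h : 0 < σ) (h' : 0 < σ') :
    MeasurePreserving (fun x : ℝ × ℝ => (σ / (σ + σ') * x.1 + x.2, σ' / (σ + σ') * x.1 - x.2)) volume volume := by
  have hS : 0 < σ + σ' := by positivity
  have hS0 := hS.ne'
  have k1 : MeasurePreserving (fun p : ℝ × ℝ => (p.1, p.2 + σ / (σ + σ') * p.1))
      ((volume : Measure ℝ).prod (volume : Measure ℝ)) ((volume : Measure ℝ).prod (volume : Measure ℝ)) := by
    refine (MeasurePreserving.id (volume : Measure ℝ)).skew_product (g := fun P p => p + σ / (σ + σ') * P) ?_ ?_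
    · unfold Function.uncurry
      fun_prop
    · exact Filter.Eventually.of_forall fun r => map_add_right_eq_self volume _
  have k2 : MeasurePreserving (fun p : ℝ × ℝ => (p.1, p.2 + -p.1))
      ((volume : Measure ℝ).prod (volume : Measure ℝ)) ((volume : Measure ℝ).prod (volume : Measure ℝ)) := by
    refine (MeasurePreserving.id (volume : Measure ℝ)).skew_product (g := fun u P => P + -u) ?_ ?_
    · unfold Function.uncurry
      fun_prop
    · exact Filter.Eventually.of_forall fun r => map_add_right_eq_self volume _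
  have sw := Measure.measurePreserving_swap (μ := (volume : Measure ℝ)) (ν := (volume : Measure ℝ))
  have k3 := k2.comp (sw.comp k1)
  have e : (fun x : ℝ × ℝ => (σ / (σ + σ') * x.1 + x.2, σ' / (σ + σ') * x.1 - x.2))
      = (fun p : ℝ × ℝ => (p.1, p.2 + -p.1)) ∘ Prod.swap ∘ (fun p : ℝ × ℝ => (p.1, p.2 + σ / (σ + σ') * p.1)) := by
    funext x
    simp only [Function.comp, Prod.swap, Prod.mk.injEq]
    constructor
    · ring
    · field_simp
      ring
  rw [e]
  exact k3

theorem ch_fk_emb_u {σ σ' : ℝ} (h : 0 < σ) (h' : 0 < σ') :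
    MeasurableEmbedding (fun x : ℝ × ℝ => (σ / (σ + σ') * x.1 + x.2, σ' / (σ + σ') * x.1 - x.2)) := by
  have hS : 0 < σ + σ' := by positivity
  have hS0 := hS.ne'
  let e : ℝ × ℝ ≃ᵐ ℝ × ℝ :=
    { toFun := fun x => (σ / (σ + σ') * x.1 + x.2, σ' / (σ + σ') * x.1 - x.2)
      invFun := fun u => (u.1 + u.2, (σ' * u.1 - σ * u.2) / (σ + σ'))
      left_inv := by
        intro x
        ext
        · simp only []
          field_simp
          ring
        · simp only []
          field_simp
          ring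
      right_inv := by
        intro x
        ext
        · simp only []
          field_simp
          ring
        · simp only []
          field_simp
          ring
      measurable_toFun := by
        change Measurable fun x : ℝ × ℝ => (σ / (σ + σ') * x.1 + x.2, σ' / (σ + σ') * x.1 - x.2)
        fun_prop
      measurable_invFun := by
        change Measurable fun u : ℝ × ℝ => (u.1 + u.2, (σ' * u.1 - σ * u.2) / (σ + σ'))
        fun_prop }
  exact e.measurableEmbedding

end Claimed.Agent.R256
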