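import Claimed.Agent.R256.Chan.Fk.TwoKr

/-!
# Row 256, Chan/Fk, TWO PARTICLES, leaf L-256-FK-TWO3: the tensor of two transfers = (transfer of the centre of mass) ∘ (transfer of the relative mode)      (architect helper132; prefix `ch_fk_`)

`FF c r = chFF σ σ' F F' c r = F(z₁(c,r)) ⊗ F'(z₃(c,r))`  (`hyTen`, `Hyb/Tool.lean`).
   `tr_σ F (z₁(c',r')) ⊗ tr_σ' F' (z₃(c',r')) = tr_S (c ↦ tr_m (FF c) r') c'`.
PLAN.  `hyTen E` is a continuous bilinear map: `hyTen (∫ a) (∫ b) = ∫∫ hyTen a b` (`ContinuousLinearMap.integral_comp_comm` twice; integrability: `kr(ρ',·) ∈ L²` bounded.., `F` nice ⇒ `kr • F ∈ L¹`: `hy_tr_int` with `ch_fk_nice_int`).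
 `hyTen (k₁ • a) (k₃ • b) = (k₁ k₃) • hyTen a b`.   So LHS `= ∫_{z₁} ∫_{z₃} (kr_σ(z₁',z₁) kr_σ'(z₃',z₃)) • F z₁ ⊗ F' z₃ dν_σ' dν_σ = ∫ .. d(ν_σ × ν_σ')` (`integral_prod`; integrable on the product: `Integrable.prod_mul`-type for the norms, `‖a ⊗ b‖ = ‖a‖‖b‖`: `hy_ten_norm`)
 `= ∫ .. ∘ (z₁,z₃)(c,r) d(ν_S × ν_m)` (`(ch_fk_mp_z ..).integral_comp (ch_fk_emb_z ..)`) `= ∫_c ∫_r (kr_S(c',c) kr_m(r',r)) • FF c r` (`ch_fk_kr_fac`, `integral_prod`) `= ∫_c kr_S(c',c) • ∫_r kr_m(r',r) • FF c r` (`integral_smul`, `mul_smul`).   ~350 l.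
Also: niceness and measurability of `FF`.
-/

set_option autoImplicit false

namespace Claimed.Agent.R256

open MeasureTheory
open scoped ENNReal ComplexConjugate

variable {E : Type} [NormedAddCommGroup E] [InnerProductSpace ℂ E] [CompleteSpace E]

theorem ch_fk_ff_meas (σ σ' : ℝ) {F F' : ℝ × ℝ → E} (hF : StronglyMeasurable F) (hF' : StronglyMeasurable F') :
    StronglyMeasurable (Function.uncurry (chFF σ σ' F F')) := by
  have m1 : Measurable fun x : (ℝ × ℝ) × (ℝ × ℝ) => chZ1 σ σ' x.1 x.2 := by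
    unfold chZ1
    fun_prop
  have m3 : Measurable fun x : (ℝ × ℝ) × (ℝ × ℝ) => chZ3 σ σ' x.1 x.2 := by
    unfold chZ3
    fun_prop
  exact (hyTen E).continuous₂.comp_stronglyMeasurable ((hF.comp_measurable m1).prodMk (hF'.comp_measurable m3))

theorem ch_fk_ff_norm (σ σ' : ℝ) (F F' : ℝ × ℝ → E) (c r : ℝ × ℝ) :
    ‖chFF σ σ' F F' c r‖ₑ ^ 2 = ‖F (chZ1 σ σ' c r)‖ₑ ^ 2 * ‖F' (chZ3 σ σ' c r)‖ₑ ^ 2 := by
  unfold chFF
  have e : ∀ a b : E, ‖hyTen E a b‖ₑ = ‖a‖ₑ * ‖b‖ₑ := fun a b => by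
    rw [← ofReal_norm, hy_ten_norm, ENNReal.ofReal_mul (norm_nonneg _), ofReal_norm, ofReal_norm]
  rw [e, mul_pow]

/-- for every `c` the slice is nice (support: `r = z₁ - z₃`, so `‖r‖ ≤ 2R`) -/
theorem ch_fk_ff_nice {σ σ' : ℝ} (h : 0 < σ) (h' : 0 < σ') {F F' : ℝ × ℝ → E} (hF : ChNice F) (hF' : ChNice F') (c : ℝ × ℝ) :
    ChNice (chFF σ σ' F F' c) := by
  obtain ⟨hm, B, R, hb⟩ := hF
  obtain ⟨hm', B', R', hb'⟩ := hF'
  refine ⟨?_, B * B', R + R', fun r => ⟨?_, fun hr => ?_⟩⟩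
  · have h0 := ch_fk_ff_meas σ σ' hm hm'
    exact h0.comp_measurable (measurable_const.prodMk measurable_id : Measurable fun r : ℝ × ℝ => (c, r))
  · unfold chFF
    rw [hy_ten_norm]
    exact mul_le_mul (hb _).1 (hb' _).1 (norm_nonneg _) ((norm_nonneg _).trans (hb (chZ1 σ σ' c r)).1)
  · unfold chFF
    by_cases h1 : R < ‖chZ1 σ σ' c r‖
    · rw [(hb _).2 h1, map_zero]
      rfl
    · by_cases h3 : R' < ‖chZ3 σ σ' c r‖
      · rw [(hb' _).2 h3, map_zero]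
      · exfalso
        have e := ch_fk_z_sub σ σ' (by positivity) c r
        have := norm_sub_le (chZ1 σ σ' c r) (chZ3 σ σ' c r)
        rw [e] at this
        linarith [not_lt.1 h1, not_lt.1 h3]

theorem ch_fk_tt {σ σ' : ℝ} (h : 0 < σ) (h' : 0 < σ') {F F' : ℝ × ℝ → E} (hF : ChNice F) (hF' : ChNice F')
    (T : ℝ) (k : ℕ) (T' : ℝ) (k' : ℕ) (c' r' : ℝ × ℝ) :
    hyTen E ((chN σ).tr T k T' k' F (chZ1 σ σ' c' r')) ((chN σ').tr T k T' k' F' (chZ3 σ σ' c' r')) =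
      (chN (σ + σ')).tr T k T' k' (fun c => (chN (chRm σ σ')).tr T k T' k' (chFF σ σ' F F' c) r') c' := by
  have hS : 0 < σ + σ' := by positivity
  have hm : 0 < chRm σ σ' := by unfold chRm; positivity
  have ia := hy_tr_int (chN σ) (ch_fk_okN h) T k T' k' F (ch_fk_nice_int _ hF).2 (chZ1 σ σ' c' r')
  have ib := hy_tr_int (chN σ') (ch_fk_okN h') T k T' k' F' (ch_fk_nice_int _ hF').2 (chZ3 σ σ' c' r')
  have hint : Integrable (fun z : (ℝ × ℝ) × (ℝ × ℝ) => hyTen E ((chN σ).kr T k T' k' (chZ1 σ σ' c' r') z.1 • F z.1)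
      ((chN σ').kr T k T' k' (chZ3 σ σ' c' r') z.2 • F' z.2)) ((chN σ).nu.prod (chN σ').nu) :=
    ia.op_fst_snd (hyTen E).continuous₂ ⟨1, fun x y => by rw [hy_ten_norm, one_mul]⟩ ib
  have hint2 : Integrable (fun x : (ℝ × ℝ) × (ℝ × ℝ) => hyTen E ((chN σ).kr T k T' k' (chZ1 σ σ' c' r') (chZ1 σ σ' x.1 x.2) • F (chZ1 σ σ' x.1 x.2))
      ((chN σ').kr T k T' k' (chZ3 σ σ' c' r') (chZ3 σ σ' x.1 x.2) • F' (chZ3 σ σ' x.1 x.2))) ((chN (σ + σ')).nu.prod (chN (chRm σ σ')).nu) :=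
    ((ch_fk_mp_z h h').integrable_comp_emb (ch_fk_emb_z h h')).2 hint
  unfold HyF.tr
  rw [← integral_prod_bilin (hyTen E) ia ib, ← (ch_fk_mp_z h h').integral_comp (ch_fk_emb_z h h')]
  dsimp only
  rw [integral_prod _ hint2]
  refine integral_congr_ae (Filter.Eventually.of_forall fun c => ?_)
  simp only
  rw [← integral_smul]
  refine integral_congr_ae (Filter.Eventually.of_forall fun r => ?_)
  simp only
  have e : ∀ (x y : ℂ) (a b : E), hyTen E (x • a) (y • b) = (x * y) • hyTen E a b := fun x y a b => by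
    rw [map_smul, map_smul, _root_.smul_apply, smul_smul, mul_comm]
  rw [e, smul_smul, ch_fk_kr_fac h h']
  rfl

end Claimed.Agent.R256
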